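import Mathlib

/-!
# Row 215 (S0334, propeller conjecture): common definitions

See the paper proof in `ideas` (row 215).  All constants are normalised by `√(2π)`.
-/

set_option autoImplicit false

open MeasureTheory ProbabilityTheory Module
open scoped RealInnerProductSpace

namespace Crest.Agent.Propeller

universe u v

/-- `φ₂(a) = √(a²-1) - arccos (1/a)` -/
noncomputable def phi2 (a : ℝ) : ℝ := √(a ^ 2 - 1) - Real.arccos (1 / a)

/-- `φ₃(a) = a + 1/a - 2` -/
noncomputable def phi3 (a : ℝ) : ℝ := a + 1 / a - 2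

section

variable {E : Type u} [NormedAddCommGroup E] [InnerProductSpace ℝ E] [FiniteDimensional ℝ E]
    [MeasurableSpace E] [BorelSpace E]

/-- normalised Gaussian barycenter of a cell -/
noncomputable def bary (A : Set E) : E := √(2 * Real.pi) • ∫ x in A, x ∂stdGaussian E

end

/-- tail resource for `d = 2`: `h(s) = arcsin √s - √(s(1-s))` -/
noncomputable def hf (s : ℝ) : ℝ := Real.arcsin √s - √(s * (1 - s))

/-- big resource for `d = 3`: `r(s) = 2 - 2√(1-s)` -/
noncomputable def rf (s : ℝ) : ℝ := 2 - 2 * √(1 - s)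

/-- `c(s) = √(1 - s^{2/3})`, so that `s² = (1-c²)³`. -/
noncomputable def cc (s : ℝ) : ℝ := √(1 - s ^ (2 / 3 : ℝ))

/-- tail resource for `d = 3`: `R(s) = (1-c)²(2+c)` -/
noncomputable def Rf (s : ℝ) : ℝ := (1 - cc s) ^ 2 * (2 + cc s)

end Crest.Agent.Propeller
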