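import Crest.Agent.Propeller.Gauss3Aux

/-! Chunk A: 3-dimensional Gaussian integral. -/

set_option autoImplicit false

open MeasureTheory ProbabilityTheory Module Set
open scoped RealInnerProductSpace ENNReal

namespace Crest.Agent.Propeller

/-- the innermost double integral -/
lemma inner3 {Q : ℝ} (hQ : 0 ≤ Q) (w c : ℝ) (hc : 0 ≤ c) :
    ∫⁻ t : ℝ, ∫⁻ ρ in Ioi (0 : ℝ), ENNReal.ofReal (c * (ρ ^ 2 * Real.exp (-(ρ ^ 2 + t ^ 2) / 2))) *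
      ENNReal.ofReal (Q * t - w * ρ) =
    ENNReal.ofReal (c * (3 / 2 * √(2 * Real.pi)) * (gf Q w / 3)) := by
  rw [lintegral_halfplane (fun t ρ => ENNReal.ofReal (c * (ρ ^ 2 * Real.exp (-(ρ ^ 2 + t ^ 2) / 2))) *
      ENNReal.ofReal (Q * t - w * ρ)) (by unfold Function.uncurry; fun_prop)]
  have h1 : ∀ R ∈ Ioi (0 : ℝ), ∫⁻ φ in Ioo (0 : ℝ) Real.pi, ENNReal.ofReal R *
      (ENNReal.ofReal (c * ((R * Real.sin φ) ^ 2 *
        Real.exp (-((R * Real.sin φ) ^ 2 + (R * Real.cos φ) ^ 2) / 2))) *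
      ENNReal.ofReal (Q * (R * Real.cos φ) - w * (R * Real.sin φ))) =
      ENNReal.ofReal (R ^ 4 * Real.exp (-R ^ 2 / 2)) * ENNReal.ofReal (c * (gf Q w / 3)) := by
    intro R hR
    have hR : 0 < R := hR
    have h2 : ∀ φ ∈ Ioo (0 : ℝ) Real.pi, ENNReal.ofReal R *
      (ENNReal.ofReal (c * ((R * Real.sin φ) ^ 2 *
        Real.exp (-((R * Real.sin φ) ^ 2 + (R * Real.cos φ) ^ 2) / 2))) *
      ENNReal.ofReal (Q * (R * Real.cos φ) - w * (R * Real.sin φ))) =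
      ENNReal.ofReal (c * (R ^ 4 * Real.exp (-R ^ 2 / 2))) *
        ENNReal.ofReal (Real.sin φ ^ 2 * (Q * Real.cos φ - w * Real.sin φ)) := by
      intro φ _
      have e1 : (R * Real.sin φ) ^ 2 + (R * Real.cos φ) ^ 2 = R ^ 2 := by
        linear_combination R ^ 2 * Real.sin_sq_add_cos_sq φ
      rw [e1, ← ENNReal.ofReal_mul (by positivity), ← ENNReal.ofReal_mul (by positivity),
        ← ENNReal.ofReal_mul (by positivity)]
      congr 1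
      ring
    rw [setLIntegral_congr_fun measurableSet_Ioo h2, lintegral_const_mul _ (by fun_prop),
      lint_angle hQ, ← ENNReal.ofReal_mul (by positivity), ← ENNReal.ofReal_mul (by positivity)]
    congr 1
    ring
  rw [setLIntegral_congr_fun measurableSet_Ioi h1, lintegral_mul_const _ (by fun_prop), lint_R4,
    ← ENNReal.ofReal_mul (by positivity)]
  congr 1
  ring

set_option maxHeartbeats 2000000 in
lemma main3 (P : ℝ) {Q : ℝ} (hQ : 0 ≤ Q) :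
    ∫⁻ v : Fin 4 → ℝ, ENNReal.ofReal (P * v 0 + Q * v 3 - √(v 0 ^ 2 + v 1 ^ 2 + v 2 ^ 2))
      ∂(Measure.pi fun _ => gaussianReal 0 1) =
    ENNReal.ofReal (1 / (2 * √(2 * Real.pi))) *
      ∫⁻ φ in Ioo (0 : ℝ) Real.pi, ENNReal.ofReal (Real.sin φ * gf Q (1 - P * Real.cos φ)) := by
  obtain ⟨c, hc⟩ : ∃ c : ℝ, c = (√(2 * Real.pi))⁻¹ := ⟨_, rfl⟩
  have hc0 : 0 < c := by rw [hc]; positivity
  have hpd : ∀ x, pd x = c * Real.exp (-x ^ 2 / 2) := fun x => by rw [hc]; rfl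
  obtain ⟨Φ, hΦ⟩ : ∃ Φ : ℝ → ℝ → ℝ≥0∞, Φ = fun x s =>
    ∫⁻ t, ENNReal.ofReal (pd t) * ENNReal.ofReal (P * x + Q * t - √(x ^ 2 + s)) := ⟨_, rfl⟩
  have hΦm : Measurable (Function.uncurry Φ) := by
    have : Measurable fun q : (ℝ × ℝ) × ℝ => ENNReal.ofReal (pd q.2) *
        ENNReal.ofReal (P * q.1.1 + Q * q.2 - √(q.1.1 ^ 2 + q.1.2)) := by fun_prop
    rw [hΦ]
    exact this.lintegral_prod_right'
  have hΦm1 : ∀ x, Measurable (Φ x) := fun x => hΦm.of_uncurry_left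
  -- step 1
  have s1 : ∫⁻ v : Fin 4 → ℝ, ENNReal.ofReal (P * v 0 + Q * v 3 - √(v 0 ^ 2 + v 1 ^ 2 + v 2 ^ 2))
      ∂(Measure.pi fun _ => gaussianReal 0 1) =
      ∫⁻ x, ENNReal.ofReal (pd x) * ∫⁻ y, ENNReal.ofReal (pd y) * ∫⁻ z, ENNReal.ofReal (pd z) *
        Φ x (y ^ 2 + z ^ 2) := by
    refine (pi4_gaussian (fun x y z t => ENNReal.ofReal (P * x + Q * t - √(x ^ 2 + y ^ 2 + z ^ 2)))
      (by fun_prop)).trans ?_
    simp only [hΦ, add_assoc]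
  obtain ⟨G, hG⟩ : ∃ G : ℝ → ℝ → ℝ≥0∞,
    G = fun x s => ENNReal.ofReal (c ^ 2 * Real.exp (-s / 2)) * Φ x s := ⟨_, rfl⟩
  have hGm : Measurable (Function.uncurry G) := by
    have : Function.uncurry G = fun q : ℝ × ℝ => ENNReal.ofReal (c ^ 2 * Real.exp (-q.2 / 2)) *
        Function.uncurry Φ q := by funext q; rw [hG]; rfl
    rw [this]
    exact Measurable.mul (by fun_prop) hΦm
  have hGm1 : ∀ x, Measurable (G x) := fun x => hGm.of_uncurry_left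
  have s2 : ∀ x, ∫⁻ y, ENNReal.ofReal (pd y) * ∫⁻ z, ENNReal.ofReal (pd z) * Φ x (y ^ 2 + z ^ 2) =
      ENNReal.ofReal (2 * Real.pi) * ∫⁻ r in Ioi (0 : ℝ), ENNReal.ofReal r * G x (r ^ 2) := by
    intro x
    rw [← lintegral_radial _ (hGm1 x)]
    refine lintegral_congr fun y => ?_
    have hm : Measurable fun z : ℝ => ENNReal.ofReal (pd z) * Φ x (y ^ 2 + z ^ 2) :=
      Measurable.mul (by fun_prop) ((hΦm1 x).comp (by fun_prop))
    rw [← lintegral_const_mul _ hm]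
    refine lintegral_congr fun z => ?_
    simp only [hG]
    rw [← mul_assoc, ← ENNReal.ofReal_mul (pd_nonneg _), hpd, hpd]
    congr 2
    rw [show -(y ^ 2 + z ^ 2) / 2 = -y ^ 2 / 2 + -z ^ 2 / 2 by ring, Real.exp_add]
    ring
  obtain ⟨H, hH⟩ : ∃ H : ℝ → ℝ → ℝ≥0∞,
    H = fun x r => ENNReal.ofReal (pd x) * (ENNReal.ofReal r * G x (r ^ 2)) := ⟨_, rfl⟩
  have hHm : Measurable (Function.uncurry H) := by
    have : Function.uncurry H = fun q : ℝ × ℝ => ENNReal.ofReal (pd q.1) * (ENNReal.ofReal q.2 *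
        Function.uncurry G (q.1, q.2 ^ 2)) := by funext q; rw [hH]; rfl
    rw [this]
    exact Measurable.mul (by fun_prop) (Measurable.mul (by fun_prop) (hGm.comp (by fun_prop)))
  have s3 : ∀ x, ENNReal.ofReal (pd x) * (ENNReal.ofReal (2 * Real.pi) *
      ∫⁻ r in Ioi (0 : ℝ), ENNReal.ofReal r * G x (r ^ 2)) =
      ENNReal.ofReal (2 * Real.pi) * ∫⁻ r in Ioi (0 : ℝ), H x r := by
    intro x
    have hm : Measurable fun r : ℝ => ENNReal.ofReal r * G x (r ^ 2) :=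
      Measurable.mul (by fun_prop) ((hGm1 x).comp (by fun_prop))
    simp only [hH]
    rw [lintegral_const_mul _ hm]
    ring
  -- step 4
  obtain ⟨L, hL⟩ : ∃ L : ℝ → ℝ → ℝ → ℝ≥0∞, L = fun φ t ρ =>
    ENNReal.ofReal (c ^ 4 * (ρ ^ 2 * Real.exp (-(ρ ^ 2 + t ^ 2) / 2))) *
      ENNReal.ofReal (Q * t - (1 - P * Real.cos φ) * ρ) := ⟨_, rfl⟩
  have s5 : ∀ ρ ∈ Ioi (0 : ℝ), ∀ φ ∈ Ioo (0 : ℝ) Real.pi,
      ENNReal.ofReal ρ * H (ρ * Real.cos φ) (ρ * Real.sin φ) =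
      ENNReal.ofReal (Real.sin φ) * ∫⁻ t, L φ t ρ := by
    intro ρ hρ φ hφ
    have hρ : 0 < ρ := hρ
    have hs : 0 < Real.sin φ := Real.sin_pos_of_pos_of_lt_pi hφ.1 hφ.2
    have hsq : √((ρ * Real.cos φ) ^ 2 + (ρ * Real.sin φ) ^ 2) = ρ := by
      rw [show (ρ * Real.cos φ) ^ 2 + (ρ * Real.sin φ) ^ 2 = ρ ^ 2 by
        linear_combination ρ ^ 2 * Real.sin_sq_add_cos_sq φ]
      exact Real.sqrt_sq hρ.le
    simp only [hH, hG, hΦ, hL]
    rw [hsq]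
    have hm : Measurable fun t : ℝ => ENNReal.ofReal (pd t) *
        ENNReal.ofReal (P * (ρ * Real.cos φ) + Q * t - ρ) := by fun_prop
    have e1 : ENNReal.ofReal ρ * (ENNReal.ofReal (pd (ρ * Real.cos φ)) *
        (ENNReal.ofReal (ρ * Real.sin φ) * (ENNReal.ofReal (c ^ 2 *
          Real.exp (-(ρ * Real.sin φ) ^ 2 / 2)) * ∫⁻ t, ENNReal.ofReal (pd t) *
        ENNReal.ofReal (P * (ρ * Real.cos φ) + Q * t - ρ)))) =
        ENNReal.ofReal (Real.sin φ) * (ENNReal.ofReal (c ^ 3 * (ρ ^ 2 * Real.exp (-ρ ^ 2 / 2))) *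
        ∫⁻ t, ENNReal.ofReal (pd t) * ENNReal.ofReal (P * (ρ * Real.cos φ) + Q * t - ρ)) := by
      generalize (∫⁻ t, ENNReal.ofReal (pd t) *
        ENNReal.ofReal (P * (ρ * Real.cos φ) + Q * t - ρ)) = I
      have e2 : ENNReal.ofReal ρ * (ENNReal.ofReal (pd (ρ * Real.cos φ)) *
        (ENNReal.ofReal (ρ * Real.sin φ) * (ENNReal.ofReal (c ^ 2 *
          Real.exp (-(ρ * Real.sin φ) ^ 2 / 2)) * I))) =
          (ENNReal.ofReal ρ * ENNReal.ofReal (pd (ρ * Real.cos φ)) *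
        ENNReal.ofReal (ρ * Real.sin φ) * ENNReal.ofReal (c ^ 2 *
          Real.exp (-(ρ * Real.sin φ) ^ 2 / 2))) * I := by ring
      have hps := pd_nonneg (ρ * Real.cos φ)
      rw [e2, ← mul_assoc (ENNReal.ofReal (Real.sin φ)), ← ENNReal.ofReal_mul hρ.le,
        ← ENNReal.ofReal_mul (mul_nonneg hρ.le hps),
        ← ENNReal.ofReal_mul (mul_nonneg (mul_nonneg hρ.le hps) (by positivity)),
        ← ENNReal.ofReal_mul hs.le]
      congr 2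
      rw [hpd]
      have : Real.exp (-ρ ^ 2 / 2) = Real.exp (-(ρ * Real.cos φ) ^ 2 / 2) *
          Real.exp (-(ρ * Real.sin φ) ^ 2 / 2) := by
        rw [← Real.exp_add]
        congr 1
        linear_combination (ρ ^ 2 / 2) * Real.sin_sq_add_cos_sq φ
      rw [this]
      ring
    rw [e1, ← lintegral_const_mul _ hm]
    congr 1
    refine lintegral_congr fun t => ?_
    rw [← mul_assoc, ← ENNReal.ofReal_mul (by positivity), hpd]
    congr 2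
    · rw [show -(ρ ^ 2 + t ^ 2) / 2 = -ρ ^ 2 / 2 + -t ^ 2 / 2 by ring, Real.exp_add]
      ring
    · ring
  have hLm : Measurable fun q : (ℝ × ℝ) × ℝ => L q.1.2 q.2 q.1.1 := by
    simp only [hL]; fun_prop
  have hLm' : Measurable (Function.uncurry fun ρ φ : ℝ =>
      ENNReal.ofReal (Real.sin φ) * ∫⁻ t, L φ t ρ) := by
    have h1 : Measurable fun p : ℝ × ℝ => ∫⁻ t, L p.2 t p.1 := hLm.lintegral_prod_right'
    exact Measurable.mul (by fun_prop) h1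
  have hLm2 : ∀ φ, Measurable fun q : ℝ × ℝ => L φ q.2 q.1 := by
    intro φ
    simp only [hL]; fun_prop
  have s7 : ∀ φ, ∫⁻ ρ in Ioi (0 : ℝ), ENNReal.ofReal (Real.sin φ) * ∫⁻ t, L φ t ρ =
      ENNReal.ofReal (Real.sin φ) *
        ENNReal.ofReal (c ^ 4 * (3 / 2 * √(2 * Real.pi)) * (gf Q (1 - P * Real.cos φ) / 3)) := by
    intro φ
    have h1 : Measurable fun ρ : ℝ => ∫⁻ t, L φ t ρ := (hLm2 φ).lintegral_prod_right'
    rw [lintegral_const_mul _ h1, lintegral_lintegral_swap (hLm2 φ).aemeasurable]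
    congr 1
    rw [hL]
    exact inner3 hQ (1 - P * Real.cos φ) (c ^ 4) (by positivity)
  have t1 : ∫⁻ x, ENNReal.ofReal (pd x) * ∫⁻ y, ENNReal.ofReal (pd y) *
      ∫⁻ z, ENNReal.ofReal (pd z) * Φ x (y ^ 2 + z ^ 2) =
      ENNReal.ofReal (2 * Real.pi) * ∫⁻ x, ∫⁻ r in Ioi (0 : ℝ), H x r := by
    have hm3 : Measurable fun x : ℝ => ∫⁻ r in Ioi (0 : ℝ), H x r := hHm.lintegral_prod_right'
    rw [← lintegral_const_mul _ hm3]
    refine lintegral_congr fun x => ?_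
    rw [s2, s3]
  have t2 : ∫⁻ ρ in Ioi (0 : ℝ), ∫⁻ φ in Ioo (0 : ℝ) Real.pi,
      ENNReal.ofReal ρ * H (ρ * Real.cos φ) (ρ * Real.sin φ) =
      ∫⁻ ρ in Ioi (0 : ℝ), ∫⁻ φ in Ioo (0 : ℝ) Real.pi,
        ENNReal.ofReal (Real.sin φ) * ∫⁻ t, L φ t ρ := by
    refine setLIntegral_congr_fun measurableSet_Ioi fun ρ hρ => ?_
    exact setLIntegral_congr_fun measurableSet_Ioo fun φ hφ => s5 ρ hρ φ hφ
  have t3 : ∫⁻ ρ in Ioi (0 : ℝ), ∫⁻ φ in Ioo (0 : ℝ) Real.pi,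
        ENNReal.ofReal (Real.sin φ) * ∫⁻ t, L φ t ρ =
      ∫⁻ φ in Ioo (0 : ℝ) Real.pi, ∫⁻ ρ in Ioi (0 : ℝ),
        ENNReal.ofReal (Real.sin φ) * ∫⁻ t, L φ t ρ :=
    lintegral_lintegral_swap hLm'.aemeasurable
  have t4 : ∫⁻ φ in Ioo (0 : ℝ) Real.pi, ∫⁻ ρ in Ioi (0 : ℝ),
        ENNReal.ofReal (Real.sin φ) * ∫⁻ t, L φ t ρ =
      ∫⁻ φ in Ioo (0 : ℝ) Real.pi, ENNReal.ofReal (Real.sin φ) *
        ENNReal.ofReal (c ^ 4 * (3 / 2 * √(2 * Real.pi)) * (gf Q (1 - P * Real.cos φ) / 3)) :=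
    lintegral_congr fun φ => s7 φ
  rw [s1, t1, lintegral_halfplane H hHm, t2, t3, t4]
  clear s1 s2 s3 s5 s7 t1 t2 t3 t4
  have hgm : Measurable fun φ : ℝ => gf Q (1 - P * Real.cos φ) := by unfold gf; fun_prop
  rw [← lintegral_const_mul _ (by fun_prop), ← lintegral_const_mul _ (by fun_prop)]
  refine setLIntegral_congr_fun measurableSet_Ioo fun φ hφ => ?_
  have hs : 0 < Real.sin φ := Real.sin_pos_of_pos_of_lt_pi hφ.1 hφ.2
  rw [← ENNReal.ofReal_mul hs.le, ← ENNReal.ofReal_mul (by positivity),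
    ← ENNReal.ofReal_mul (by positivity)]
  congr 1
  have hcc : c ^ 4 * (2 * Real.pi) ^ 2 = 1 := by
    have : c ^ 2 * (2 * Real.pi) = 1 := by
      rw [hc, inv_pow, Real.sq_sqrt (by positivity)]
      field_simp
    calc c ^ 4 * (2 * Real.pi) ^ 2 = (c ^ 2 * (2 * Real.pi)) ^ 2 := by ring
      _ = 1 := by rw [this]; norm_num
  have h2 : 1 / (2 * √(2 * Real.pi)) = 2 * Real.pi * c ^ 4 * (3 / 2 * √(2 * Real.pi)) / 3 := by
    have h3 : √(2 * Real.pi) ^ 2 = 2 * Real.pi := Real.sq_sqrt (by positivity)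
    have h4 : 0 < √(2 * Real.pi) := by positivity
    rw [div_eq_iff (by positivity)]
    have h5 : 2 * Real.pi * c ^ 4 * (3 / 2 * √(2 * Real.pi)) / 3 * (2 * √(2 * Real.pi)) =
      c ^ 4 * (2 * Real.pi) * √(2 * Real.pi) ^ 2 := by ring
    rw [h5, h3]
    linarith
  rw [h2]
  ring

/-- `√(2π) E (P X₀ + Q X₃ - |(X₀,X₁,X₂)|)₊ = φ₃(a)` when `P²/a²+Q²/(a²-1)=1`. -/
theorem gauss3_pos_part {P Q a : ℝ} (ha : 1 < a) (hP : 0 ≤ P) (hQ : 0 ≤ Q)
    (h : P ^ 2 / a ^ 2 + Q ^ 2 / (a ^ 2 - 1) = 1) :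
    ∫ v : Fin 4 → ℝ, max (P * v 0 + Q * v 3 - √(v 0 ^ 2 + v 1 ^ 2 + v 2 ^ 2)) 0
      ∂(Measure.pi fun _ => gaussianReal 0 1) = phi3 a / √(2 * Real.pi) := by
  have hm : Measurable fun v : Fin 4 → ℝ =>
      max (P * v 0 + Q * v 3 - √(v 0 ^ 2 + v 1 ^ 2 + v 2 ^ 2)) 0 := by fun_prop
  have h0 : ∀ v : Fin 4 → ℝ,
      0 ≤ max (P * v 0 + Q * v 3 - √(v 0 ^ 2 + v 1 ^ 2 + v 2 ^ 2)) 0 := fun v => le_max_right _ _
  rw [integral_eq_lintegral_of_nonneg_ae (ae_of_all _ h0) hm.aestronglyMeasurable]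
  have h1 : ∀ v : Fin 4 → ℝ,
      ENNReal.ofReal (max (P * v 0 + Q * v 3 - √(v 0 ^ 2 + v 1 ^ 2 + v 2 ^ 2)) 0) =
      ENNReal.ofReal (P * v 0 + Q * v 3 - √(v 0 ^ 2 + v 1 ^ 2 + v 2 ^ 2)) := by
    intro v
    rcases le_total (P * v 0 + Q * v 3 - √(v 0 ^ 2 + v 1 ^ 2 + v 2 ^ 2)) 0 with h | h
    · rw [max_eq_right h, ENNReal.ofReal_zero, ENNReal.ofReal_of_nonpos h]
    · rw [max_eq_left h]
  simp_rw [h1]
  have hphi : 0 ≤ phi3 a := by
    have : phi3 a = (a - 1) ^ 2 / a := by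
      unfold phi3
      field_simp
      ring
    rw [this]
    have : 0 < a := by linarith
    positivity
  rw [main3 P hQ, lint_phi ha hP h, ← ENNReal.ofReal_mul (by positivity), ENNReal.toReal_ofReal
    (by positivity)]
  field_simp

/-- `∫₀^∞ R³ e^{-R²/2} dR = 2` -/
lemma lint_R3 : ∫⁻ R in Ioi (0 : ℝ), ENNReal.ofReal (R ^ 3 * Real.exp (-R ^ 2 / 2)) =
    ENNReal.ofReal 2 := by
  have h1 : IntegrableOn (fun x : ℝ => x ^ (3 : ℝ) * Real.exp (-(1 / 2) * x ^ (2 : ℝ))) (Ioi 0) :=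
    integrableOn_rpow_mul_exp_neg_mul_rpow (by norm_num) (by norm_num) (by norm_num)
  have h2 : ∫ x in Ioi (0 : ℝ), x ^ (3 : ℝ) * Real.exp (-(1 / 2) * x ^ (2 : ℝ)) = 2 := by
    rw [integral_rpow_mul_exp_neg_mul_rpow (by norm_num) (by norm_num) (by norm_num)]
    have hG : Real.Gamma ((3 + 1) / 2) = 1 := by
      rw [show ((3 : ℝ) + 1) / 2 = 2 by norm_num]
      exact Real.Gamma_two
    rw [hG]
    have h3 : ((1 : ℝ) / 2) ^ (-(3 + 1) / 2 : ℝ) = 4 := by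
      rw [one_div, Real.inv_rpow (by norm_num), ← Real.rpow_neg (by norm_num),
        show (-(-(3 + 1) / 2) : ℝ) = (2 : ℕ) by norm_num, Real.rpow_natCast]
      norm_num
    rw [h3]
    norm_num
  have h3 : ∀ x ∈ Ioi (0 : ℝ), ENNReal.ofReal (x ^ 3 * Real.exp (-x ^ 2 / 2)) =
      ENNReal.ofReal (x ^ (3 : ℝ) * Real.exp (-(1 / 2) * x ^ (2 : ℝ))) := by
    intro x hx
    have e4 : x ^ (3 : ℝ) = x ^ 3 := by
      rw [show (3 : ℝ) = ((3 : ℕ) : ℝ) by norm_num, Real.rpow_natCast]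
    have e2 : x ^ (2 : ℝ) = x ^ 2 := by
      rw [show (2 : ℝ) = ((2 : ℕ) : ℝ) by norm_num, Real.rpow_natCast]
    rw [e4, e2, show -x ^ 2 / 2 = -(1 / 2) * x ^ 2 by ring]
  rw [setLIntegral_congr_fun measurableSet_Ioi h3, ← ofReal_integral_eq_lintegral_ofReal h1, h2]
  refine (ae_restrict_iff' measurableSet_Ioi).2 (ae_of_all _ fun x hx => ?_)
  have hx : 0 < x := hx
  positivity

lemma lint_sin : ∫⁻ φ in Ioo (0 : ℝ) Real.pi, ENNReal.ofReal (Real.sin φ) = ENNReal.ofReal 2 := by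
  rw [lint_Ioo_of_hasDerivAt Real.pi_pos.le (fun φ => -Real.cos φ)]
  · congr 1
    simp only [Real.cos_pi, Real.cos_zero]
    norm_num
  · fun_prop
  · intro x _
    refine ((Real.hasDerivAt_cos x).neg).congr_deriv ?_
    simp
  · intro φ hφ
    exact (Real.sin_pos_of_pos_of_lt_pi hφ.1 hφ.2).le

lemma norm3_aux :
    ∫⁻ v : Fin 3 → ℝ, ENNReal.ofReal √(v 0 ^ 2 + v 1 ^ 2 + v 2 ^ 2)
      ∂(Measure.pi fun _ => gaussianReal 0 1) = ENNReal.ofReal (4 / √(2 * Real.pi)) := by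
  obtain ⟨c, hc⟩ : ∃ c : ℝ, c = (√(2 * Real.pi))⁻¹ := ⟨_, rfl⟩
  have hc0 : 0 < c := by rw [hc]; positivity
  have hpd : ∀ x, pd x = c * Real.exp (-x ^ 2 / 2) := fun x => by rw [hc]; rfl
  have s1 : ∫⁻ v : Fin 3 → ℝ, ENNReal.ofReal √(v 0 ^ 2 + v 1 ^ 2 + v 2 ^ 2)
      ∂(Measure.pi fun _ => gaussianReal 0 1) =
      ∫⁻ x, ENNReal.ofReal (pd x) * ∫⁻ y, ENNReal.ofReal (pd y) * ∫⁻ z, ENNReal.ofReal (pd z) *
        ENNReal.ofReal √(x ^ 2 + (y ^ 2 + z ^ 2)) := by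
    refine (pi3_gaussian (fun x y z => ENNReal.ofReal √(x ^ 2 + y ^ 2 + z ^ 2))
      (by fun_prop)).trans ?_
    simp only [add_assoc]
  have s2 : ∀ x : ℝ, ∫⁻ y, ENNReal.ofReal (pd y) * ∫⁻ z, ENNReal.ofReal (pd z) *
      ENNReal.ofReal √(x ^ 2 + (y ^ 2 + z ^ 2)) =
      ENNReal.ofReal (2 * Real.pi) * ∫⁻ r in Ioi (0 : ℝ), ENNReal.ofReal r *
        ENNReal.ofReal (c ^ 2 * Real.exp (-(r ^ 2) / 2) * √(x ^ 2 + r ^ 2)) := by
    intro x
    rw [← lintegral_radial (fun s => ENNReal.ofReal (c ^ 2 * Real.exp (-s / 2) * √(x ^ 2 + s)))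
      (by fun_prop)]
    refine lintegral_congr fun y => ?_
    rw [← lintegral_const_mul _ (by fun_prop)]
    refine lintegral_congr fun z => ?_
    rw [← mul_assoc, ← ENNReal.ofReal_mul (pd_nonneg _), ← ENNReal.ofReal_mul
      (mul_nonneg (pd_nonneg _) (pd_nonneg _)), hpd, hpd]
    congr 1
    rw [show -(y ^ 2 + z ^ 2) / 2 = -y ^ 2 / 2 + -z ^ 2 / 2 by ring, Real.exp_add]
    ring
  have s3 : ∀ x : ℝ, ENNReal.ofReal (pd x) * (ENNReal.ofReal (2 * Real.pi) *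
      ∫⁻ r in Ioi (0 : ℝ), ENNReal.ofReal r *
        ENNReal.ofReal (c ^ 2 * Real.exp (-(r ^ 2) / 2) * √(x ^ 2 + r ^ 2))) =
      ENNReal.ofReal (2 * Real.pi) * ∫⁻ r in Ioi (0 : ℝ), ENNReal.ofReal (pd x) *
        (ENNReal.ofReal r *
        ENNReal.ofReal (c ^ 2 * Real.exp (-(r ^ 2) / 2) * √(x ^ 2 + r ^ 2))) := by
    intro x
    rw [lintegral_const_mul _ (by fun_prop)]
    ring
  rw [s1]
  have hm : Measurable (Function.uncurry fun x r : ℝ => ENNReal.ofReal (pd x) *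
        (ENNReal.ofReal r *
        ENNReal.ofReal (c ^ 2 * Real.exp (-(r ^ 2) / 2) * √(x ^ 2 + r ^ 2)))) := by
    unfold Function.uncurry; fun_prop
  have t1 : ∫⁻ x, ENNReal.ofReal (pd x) * ∫⁻ y, ENNReal.ofReal (pd y) *
      ∫⁻ z, ENNReal.ofReal (pd z) * ENNReal.ofReal √(x ^ 2 + (y ^ 2 + z ^ 2)) =
      ENNReal.ofReal (2 * Real.pi) * ∫⁻ x : ℝ, ∫⁻ r in Ioi (0 : ℝ), ENNReal.ofReal (pd x) *
        (ENNReal.ofReal r *
        ENNReal.ofReal (c ^ 2 * Real.exp (-(r ^ 2) / 2) * √(x ^ 2 + r ^ 2))) := by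
    have hm' : Measurable fun x : ℝ => ∫⁻ r in Ioi (0 : ℝ), ENNReal.ofReal (pd x) *
        (ENNReal.ofReal r *
        ENNReal.ofReal (c ^ 2 * Real.exp (-(r ^ 2) / 2) * √(x ^ 2 + r ^ 2))) :=
      hm.lintegral_prod_right'
    rw [← lintegral_const_mul _ hm']
    refine lintegral_congr fun x => ?_
    rw [s2, s3]
  rw [t1, lintegral_halfplane _ hm]
  have s5 : ∀ ρ ∈ Ioi (0 : ℝ), ∫⁻ φ in Ioo (0 : ℝ) Real.pi,
      ENNReal.ofReal ρ * (ENNReal.ofReal (pd (ρ * Real.cos φ)) *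
        (ENNReal.ofReal (ρ * Real.sin φ) *
        ENNReal.ofReal (c ^ 2 * Real.exp (-((ρ * Real.sin φ) ^ 2) / 2) *
          √((ρ * Real.cos φ) ^ 2 + (ρ * Real.sin φ) ^ 2)))) =
      ENNReal.ofReal (ρ ^ 3 * Real.exp (-ρ ^ 2 / 2)) * ENNReal.ofReal (2 * c ^ 3) := by
    intro ρ hρ
    have hρ : 0 < ρ := hρ
    have s6 : ∀ φ ∈ Ioo (0 : ℝ) Real.pi,
      ENNReal.ofReal ρ * (ENNReal.ofReal (pd (ρ * Real.cos φ)) *
        (ENNReal.ofReal (ρ * Real.sin φ) *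
        ENNReal.ofReal (c ^ 2 * Real.exp (-((ρ * Real.sin φ) ^ 2) / 2) *
          √((ρ * Real.cos φ) ^ 2 + (ρ * Real.sin φ) ^ 2)))) =
      ENNReal.ofReal (c ^ 3 * (ρ ^ 3 * Real.exp (-ρ ^ 2 / 2))) * ENNReal.ofReal (Real.sin φ) := by
      intro φ hφ
      have hs : 0 < Real.sin φ := Real.sin_pos_of_pos_of_lt_pi hφ.1 hφ.2
      have hsq : √((ρ * Real.cos φ) ^ 2 + (ρ * Real.sin φ) ^ 2) = ρ := by
        rw [show (ρ * Real.cos φ) ^ 2 + (ρ * Real.sin φ) ^ 2 = ρ ^ 2 by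
          linear_combination ρ ^ 2 * Real.sin_sq_add_cos_sq φ]
        exact Real.sqrt_sq hρ.le
      rw [hsq, ← ENNReal.ofReal_mul (by positivity), ← ENNReal.ofReal_mul (pd_nonneg _),
        ← ENNReal.ofReal_mul hρ.le, ← ENNReal.ofReal_mul (by positivity)]
      congr 1
      rw [hpd]
      have : Real.exp (-ρ ^ 2 / 2) = Real.exp (-(ρ * Real.cos φ) ^ 2 / 2) *
          Real.exp (-(ρ * Real.sin φ) ^ 2 / 2) := by
        rw [← Real.exp_add]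
        congr 1
        linear_combination (ρ ^ 2 / 2) * Real.sin_sq_add_cos_sq φ
      rw [this]
      ring
    rw [setLIntegral_congr_fun measurableSet_Ioo s6, lintegral_const_mul _ (by fun_prop), lint_sin,
      ← ENNReal.ofReal_mul (by positivity), ← ENNReal.ofReal_mul (by positivity)]
    congr 1
    ring
  rw [setLIntegral_congr_fun measurableSet_Ioi s5, lintegral_mul_const _ (by fun_prop), lint_R3,
    ← ENNReal.ofReal_mul (by positivity), ← ENNReal.ofReal_mul (by positivity)]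
  congr 1
  have hcc : c ^ 2 * (2 * Real.pi) = 1 := by
    rw [hc, inv_pow, Real.sq_sqrt (by positivity)]
    field_simp
  have : 4 / √(2 * Real.pi) = 4 * c := by rw [hc]; rfl
  rw [this]
  linear_combination 4 * c * hcc

/-- `√(2π) E |(X₀,X₁,X₂)| = 4`. -/
theorem gauss3_norm :
    ∫ v : Fin 3 → ℝ, √(v 0 ^ 2 + v 1 ^ 2 + v 2 ^ 2) ∂(Measure.pi fun _ => gaussianReal 0 1)
      = 4 / √(2 * Real.pi) := by
  have hm : Measurable fun v : Fin 3 → ℝ => √(v 0 ^ 2 + v 1 ^ 2 + v 2 ^ 2) := by fun_prop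
  have h0 : ∀ v : Fin 3 → ℝ, 0 ≤ √(v 0 ^ 2 + v 1 ^ 2 + v 2 ^ 2) := fun v => Real.sqrt_nonneg _
  rw [integral_eq_lintegral_of_nonneg_ae (ae_of_all _ h0) hm.aestronglyMeasurable, norm3_aux,
    ENNReal.toReal_ofReal (by positivity)]

end Crest.Agent.Propeller
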