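import Crest.Agent.Propeller.Basic

/-! Chunk C, part 1: transfer of Gaussian integrals to `stdGaussian E`. -/

set_option autoImplicit false

open MeasureTheory ProbabilityTheory Module WithLp
open scoped RealInnerProductSpace

namespace Crest.Agent.Propeller

universe u v

variable {E : Type u} [NormedAddCommGroup E] [InnerProductSpace ℝ E] [FiniteDimensional ℝ E]
    [MeasurableSpace E] [BorelSpace E]

theorem charFun_map_std {F : Type v} [NormedAddCommGroup F] [InnerProductSpace ℝ F]
    [MeasurableSpace F] [BorelSpace F] (L : E → F) (hL : Measurable L) (L' : F → E)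
    (h : ∀ x t, ⟪L x, t⟫ = ⟪x, L' t⟫) (t : F) :
    charFun ((stdGaussian E).map L) t = Complex.exp (-‖L' t‖ ^ 2 / 2) := by
  rw [← charFun_stdGaussian, charFun_apply, charFun_apply, integral_map hL.aemeasurable]
  · simp only [h]
  · apply Measurable.aestronglyMeasurable
    fun_prop

/-- the image of the standard Gaussian under `x ↦ (⟪u i, x⟫)ᵢ` for orthogonal `u` with
`‖u i‖ = c i` is the law of `(c i * v i)ᵢ`. -/
theorem map_orthogonal {n : ℕ} (u : Fin n → E) (c : Fin n → ℝ)
    (hu : ∀ i j, ⟪u i, u j⟫ = if i = j then c i ^ 2 else 0) :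
    (stdGaussian E).map (fun x => (fun i => ⟪u i, x⟫ : Fin n → ℝ)) =
    (Measure.pi fun _ : Fin n => gaussianReal 0 1).map (fun v i => c i * v i) := by
  have h1 : ((stdGaussian E).map (fun x => (toLp 2 (fun i => ⟪u i, x⟫) : EuclideanSpace ℝ (Fin n)))) =
      ((stdGaussian (EuclideanSpace ℝ (Fin n))).map
        (fun v => (toLp 2 (fun i => c i * v i) : EuclideanSpace ℝ (Fin n)))) := by
    have m1 : Measurable (fun x : E => (toLp 2 (fun i => ⟪u i, x⟫) : EuclideanSpace ℝ (Fin n))) := by
      fun_prop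
    have m2 : Measurable (fun v : EuclideanSpace ℝ (Fin n) =>
        (toLp 2 (fun i => c i * v i) : EuclideanSpace ℝ (Fin n))) := by
      fun_prop
    have := Measure.isProbabilityMeasure_map (μ := stdGaussian E) m1.aemeasurable
    have := Measure.isProbabilityMeasure_map
      (μ := stdGaussian (EuclideanSpace ℝ (Fin n))) m2.aemeasurable
    apply Measure.ext_of_charFun
    ext t
    rw [charFun_map_std _ m1 (fun t => ∑ i, t i • u i), charFun_map_std _ m2
      (fun t => (toLp 2 (fun i => c i * t i) : EuclideanSpace ℝ (Fin n)))]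
    · congr 3
      have e1 : ‖∑ i, t i • u i‖ ^ 2 = ∑ i, (c i * t i) ^ 2 := by
        rw [← real_inner_self_eq_norm_sq, sum_inner]
        refine Finset.sum_congr rfl fun i _ => ?_
        rw [inner_sum, Finset.sum_eq_single i]
        · rw [real_inner_smul_left, real_inner_smul_right, hu, if_pos rfl]; ring
        · intro j _ hj
          rw [real_inner_smul_left, real_inner_smul_right, hu, if_neg (Ne.symm hj)]; ring
        · intro h; exact absurd (Finset.mem_univ _) h
      have e2 : ‖(toLp 2 (fun i => c i * t i) : EuclideanSpace ℝ (Fin n))‖ ^ 2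
          = ∑ i, (c i * t i) ^ 2 := by
        rw [EuclideanSpace.real_norm_sq_eq]
      exact_mod_cast e1.trans e2.symm
    · intro v t
      simp only [PiLp.inner_apply, RCLike.inner_apply, conj_trivial]
      refine Finset.sum_congr rfl fun i _ => ?_
      ring
    · intro x t
      rw [inner_sum]
      simp only [PiLp.inner_apply, RCLike.inner_apply, conj_trivial]
      refine Finset.sum_congr rfl fun i _ => ?_
      rw [real_inner_smul_right, real_inner_comm]
  have h2 : (stdGaussian E).map (fun x => (fun i => ⟪u i, x⟫ : Fin n → ℝ)) =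
      ((stdGaussian E).map (fun x => (toLp 2 (fun i => ⟪u i, x⟫) : EuclideanSpace ℝ (Fin n)))).map
        ofLp := by
    rw [Measure.map_map (by fun_prop) (by fun_prop)]
    rfl
  have h3 : (Measure.pi fun _ : Fin n => gaussianReal 0 1).map (fun v i => c i * v i) =
      ((stdGaussian (EuclideanSpace ℝ (Fin n))).map
        (fun v => (toLp 2 (fun i => c i * v i) : EuclideanSpace ℝ (Fin n)))).map ofLp := by
    rw [← map_pi_eq_stdGaussian, Measure.map_map (by fun_prop) (by fun_prop),
      Measure.map_map (by fun_prop) (by fun_prop)]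
    rfl
  rw [h2, h3, h1]

theorem exists_onb {F : Type v} [NormedAddCommGroup F] [InnerProductSpace ℝ F]
    [FiniteDimensional ℝ F] {n : ℕ} (hF : finrank ℝ F = n + 1) (p : F) :
    ∃ b : OrthonormalBasis (Fin (n + 1)) ℝ F, p = ‖p‖ • b 0 := by
  by_cases hp : p = 0
  · refine ⟨(stdOrthonormalBasis ℝ F).reindex (finCongr hF), ?_⟩
    simp [hp]
  · have hp0 : ‖p‖ ≠ 0 := norm_ne_zero_iff.2 hp
    obtain ⟨b, hb⟩ := Orthonormal.exists_orthonormalBasis_extension_of_card_eq (𝕜 := ℝ)
      (ι := Fin (n + 1)) (by rw [hF, Fintype.card_fin]) (v := fun _ => ‖p‖⁻¹ • p) (s := {0}) (by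
        rw [orthonormal_iff_ite]
        rintro ⟨i, hi⟩ ⟨j, hj⟩
        rw [Set.mem_singleton_iff] at hi hj
        subst hi; subst hj
        simp only [Set.domRestrict_apply, if_true]
        rw [real_inner_smul_left, real_inner_smul_right, real_inner_self_eq_norm_sq]
        field_simp)
    refine ⟨b, ?_⟩
    rw [hb 0 (Set.mem_singleton _), smul_smul, mul_inv_cancel₀ hp0, one_smul]

theorem norm_starProjection_sq_eq (V : Submodule ℝ E) {n : ℕ}
    (b : OrthonormalBasis (Fin n) ℝ V) (x : E) :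
    ‖V.starProjection x‖ = √(∑ i, ⟪(b i : E), x⟫ ^ 2) := by
  rw [← Real.sqrt_sq (norm_nonneg (V.starProjection x))]
  congr 1
  have h1 : ‖V.starProjection x‖ = ‖V.orthogonalProjectionOnto x‖ := by
    rw [Submodule.starProjection_apply]; rfl
  rw [h1, ← b.sum_sq_inner_right (V.orthogonalProjectionOnto x)]
  refine Finset.sum_congr rfl fun i _ => ?_
  congr 1
  rw [Submodule.coe_inner]
  have := Submodule.inner_starProjection_left_eq_right V (b i : E) x
  rw [Submodule.starProjection_eq_self_iff.2 (b i).2] at this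
  rw [this, Submodule.starProjection_apply]

theorem transfer_gen (V : Submodule ℝ E) {n : ℕ} (hV : finrank ℝ V = n + 1) (y : E) :
    ∫ x, max (⟪y, x⟫ - ‖V.starProjection x‖) 0 ∂stdGaussian E =
    ∫ v : Fin (n + 2) → ℝ, max (‖V.starProjection y‖ * v 0
      + ‖y - V.starProjection y‖ * v (Fin.last (n + 1))
      - √(∑ i : Fin (n + 1), v i.castSucc ^ 2)) 0 ∂(Measure.pi fun _ => gaussianReal 0 1) := by
  obtain ⟨b, hb⟩ := exists_onb hV (V.orthogonalProjectionOnto y)
  have hPy : V.starProjection y = ‖V.starProjection y‖ • (b 0 : E) := by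
    have h1 : ‖V.starProjection y‖ = ‖V.orthogonalProjectionOnto y‖ := by
      rw [Submodule.starProjection_apply]; rfl
    rw [h1]
    have := congrArg (Subtype.val) hb
    rw [Submodule.starProjection_apply]
    exact this
  set P : ℝ := ‖V.starProjection y‖ with hP
  set z : E := y - V.starProjection y with hz
  have hzV : ∀ w ∈ V, ⟪w, z⟫ = 0 := by
    intro w hw
    have : z ∈ Vᗮ := Submodule.sub_starProjection_mem_orthogonal y
    exact (Submodule.mem_orthogonal V z).1 this w hw
  set u : Fin (n + 2) → E := Fin.snoc (fun i : Fin (n + 1) => (b i : E)) z with hu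
  set c : Fin (n + 2) → ℝ := Fin.snoc (fun _ : Fin (n + 1) => (1 : ℝ)) ‖z‖ with hc
  have hort : ∀ i j, ⟪u i, u j⟫ = if i = j then c i ^ 2 else 0 := by
    intro i j
    refine Fin.lastCases ?_ (fun i => ?_) i
    · refine Fin.lastCases ?_ (fun j => ?_) j
      · simp only [hu, hc, Fin.snoc_last, if_true, real_inner_self_eq_norm_sq]
      · simp only [hu, Fin.snoc_last, Fin.snoc_castSucc]
        rw [real_inner_comm, hzV _ (b j).2, if_neg (Fin.castSucc_lt_last j).ne']
    · refine Fin.lastCases ?_ (fun j => ?_) j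
      · simp only [hu, Fin.snoc_last, Fin.snoc_castSucc]
        rw [hzV _ (b i).2, if_neg (Fin.castSucc_lt_last i).ne]
      · simp only [hu, hc, Fin.snoc_castSucc, Fin.castSucc_inj]
        rw [← Submodule.coe_inner, orthonormal_iff_ite.1 b.orthonormal]
        simp
  have hmap := map_orthogonal u c hort
  set F : (Fin (n + 2) → ℝ) → ℝ := fun w => max (P * w 0 + w (Fin.last (n + 1))
      - √(∑ i : Fin (n + 1), w i.castSucc ^ 2)) 0 with hF
  have hFm : Measurable F := by
    simp only [hF]
    fun_prop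
  have h1 : ∀ x : E, max (⟪y, x⟫ - ‖V.starProjection x‖) 0 = F (fun i => ⟪u i, x⟫) := by
    intro x
    have e1 : ⟪y, x⟫ = P * ⟪(b 0 : E), x⟫ + ⟪z, x⟫ := by
      rw [← real_inner_smul_left, ← hPy, ← inner_add_left, hz]
      congr 1; abel
    have e2 : u 0 = (b 0 : E) := by
      have : (0 : Fin (n + 2)) = Fin.castSucc 0 := rfl
      rw [this]; simp only [hu, Fin.snoc_castSucc]
    simp only [hF]
    rw [e1, norm_starProjection_sq_eq V b x, e2]
    simp only [hu, Fin.snoc_last, Fin.snoc_castSucc]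
  have h2 : ∀ v : Fin (n + 2) → ℝ, max (P * v 0 + ‖z‖ * v (Fin.last (n + 1))
      - √(∑ i : Fin (n + 1), v i.castSucc ^ 2)) 0 = F (fun i => c i * v i) := by
    intro v
    have e2 : c 0 = 1 := by
      have : (0 : Fin (n + 2)) = Fin.castSucc 0 := rfl
      rw [this]; simp only [hc, Fin.snoc_castSucc]
    simp only [hF, e2, one_mul]
    simp only [hc, Fin.snoc_last, Fin.snoc_castSucc, one_mul]
  simp only [h1, h2]
  rw [← integral_map (φ := fun x => (fun i => ⟪u i, x⟫ : Fin (n + 2) → ℝ)) (by fun_prop)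
    hFm.aestronglyMeasurable, hmap, integral_map
      (measurable_pi_lambda _ fun i => (measurable_pi_apply i).const_mul _).aemeasurable
      hFm.aestronglyMeasurable]

theorem transfer_norm_gen (V : Submodule ℝ E) {n : ℕ} (hV : finrank ℝ V = n) :
    ∫ x, ‖V.starProjection x‖ ∂stdGaussian E =
    ∫ v : Fin n → ℝ, √(∑ i, v i ^ 2) ∂(Measure.pi fun _ => gaussianReal 0 1) := by
  set b : OrthonormalBasis (Fin n) ℝ V := (stdOrthonormalBasis ℝ V).reindex (finCongr hV)
  have hmap := map_orthogonal (fun i : Fin n => (b i : E)) (fun _ => 1) (by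
    intro i j
    rw [← Submodule.coe_inner, orthonormal_iff_ite.1 b.orthonormal]
    simp)
  simp only [one_mul] at hmap
  have hid : (Measure.pi fun _ : Fin n => gaussianReal 0 1).map (fun v i => v i) =
      (Measure.pi fun _ : Fin n => gaussianReal 0 1) := Measure.map_id
  rw [hid] at hmap
  have hFm : Measurable (fun v : Fin n → ℝ => √(∑ i, v i ^ 2)) := by fun_prop
  rw [← hmap, integral_map (by fun_prop) hFm.aestronglyMeasurable]
  simp only [norm_starProjection_sq_eq V b]

theorem transfer2 (V : Submodule ℝ E) (hV : finrank ℝ V = 2) (y : E) :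
    ∫ x, max (⟪y, x⟫ - ‖V.starProjection x‖) 0 ∂stdGaussian E =
    ∫ v : Fin 3 → ℝ, max (‖V.starProjection y‖ * v 0 + ‖y - V.starProjection y‖ * v 2
      - √(v 0 ^ 2 + v 1 ^ 2)) 0 ∂(Measure.pi fun _ => gaussianReal 0 1) := by
  rw [transfer_gen (n := 1) V hV y]
  have h : ∀ v : Fin (1 + 2) → ℝ, ∑ i : Fin (1 + 1), v i.castSucc ^ 2 = v 0 ^ 2 + v 1 ^ 2 :=
    fun v => Fin.sum_univ_two _
  simp only [h]
  rfl

theorem transfer3 (V : Submodule ℝ E) (hV : finrank ℝ V = 3) (y : E) :
    ∫ x, max (⟪y, x⟫ - ‖V.starProjection x‖) 0 ∂stdGaussian E =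
    ∫ v : Fin 4 → ℝ, max (‖V.starProjection y‖ * v 0 + ‖y - V.starProjection y‖ * v 3
      - √(v 0 ^ 2 + v 1 ^ 2 + v 2 ^ 2)) 0 ∂(Measure.pi fun _ => gaussianReal 0 1) := by
  rw [transfer_gen (n := 2) V hV y]
  have h : ∀ v : Fin (2 + 2) → ℝ, ∑ i : Fin (2 + 1), v i.castSucc ^ 2
      = v 0 ^ 2 + v 1 ^ 2 + v 2 ^ 2 := fun v => Fin.sum_univ_three _
  simp only [h]
  rfl

theorem transfer_norm2 (V : Submodule ℝ E) (hV : finrank ℝ V = 2) :
    ∫ x, ‖V.starProjection x‖ ∂stdGaussian E =
    ∫ v : Fin 2 → ℝ, √(v 0 ^ 2 + v 1 ^ 2) ∂(Measure.pi fun _ => gaussianReal 0 1) := by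
  rw [transfer_norm_gen V hV]
  simp only [Fin.sum_univ_two]

theorem transfer_norm3 (V : Submodule ℝ E) (hV : finrank ℝ V = 3) :
    ∫ x, ‖V.starProjection x‖ ∂stdGaussian E =
    ∫ v : Fin 3 → ℝ, √(v 0 ^ 2 + v 1 ^ 2 + v 2 ^ 2) ∂(Measure.pi fun _ => gaussianReal 0 1) := by
  rw [transfer_norm_gen V hV]
  simp only [Fin.sum_univ_three]

end Crest.Agent.Propeller
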