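import Crest.Agent.Propeller.Gauss2
import Crest.Agent.Propeller.Gauss3
import Crest.Agent.Propeller.Transfer

/-! Chunk C: the cell inequality. -/

set_option autoImplicit false

open MeasureTheory ProbabilityTheory Module
open scoped RealInnerProductSpace

namespace Crest.Agent.Propeller

universe u v

variable {E : Type u} [NormedAddCommGroup E] [InnerProductSpace ℝ E] [FiniteDimensional ℝ E]
    [MeasurableSpace E] [BorelSpace E]

theorem integrable_id_std : Integrable (fun x : E => x) (stdGaussian E) :=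
  IsGaussian.integrable_id

theorem integrable_inner_std (y : E) : Integrable (fun x : E => ⟪y, x⟫) (stdGaussian E) :=
  integrable_id_std.const_inner y

theorem integrable_norm_proj (V : Submodule ℝ E) :
    Integrable (fun x : E => ‖V.starProjection x‖) (stdGaussian E) :=
  (V.starProjection.integrable_comp integrable_id_std).norm

theorem inner_bary (y : E) (A : Set E) :
    ⟪y, bary A⟫ = √(2 * Real.pi) * ∫ x in A, ⟪y, x⟫ ∂stdGaussian E := by
  rw [bary, real_inner_smul_right]
  congr 1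
  rw [integral_inner (integrable_id_std.integrableOn)]

/-- the basic duality inequality -/
theorem inner_bary_le (V : Submodule ℝ E) (y : E) {A : Set E} (hA : MeasurableSet A) :
    ⟪y, bary A⟫ ≤ √(2 * Real.pi) * ∫ x in A, ‖V.starProjection x‖ ∂stdGaussian E
      + √(2 * Real.pi) * ∫ x, max (⟪y, x⟫ - ‖V.starProjection x‖) 0 ∂stdGaussian E := by
  have i1 := integrable_inner_std y
  have i2 := integrable_norm_proj V
  have i3 : Integrable (fun x => max (⟪y, x⟫ - ‖V.starProjection x‖) 0) (stdGaussian E) :=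
    (i1.sub i2).pos_part
  rw [inner_bary, ← mul_add]
  refine mul_le_mul_of_nonneg_left ?_ (Real.sqrt_nonneg _)
  have h1 : ∫ x in A, ⟪y, x⟫ ∂stdGaussian E ≤
      ∫ x in A, (‖V.starProjection x‖ + max (⟪y, x⟫ - ‖V.starProjection x‖) 0)
        ∂stdGaussian E := by
    refine integral_mono i1.integrableOn (i2.add i3).integrableOn fun x => ?_
    have := le_max_left (⟪y, x⟫ - ‖V.starProjection x‖) 0
    linarith
  rw [integral_add i2.integrableOn i3.integrableOn] at h1
  have h2 : ∫ x in A, max (⟪y, x⟫ - ‖V.starProjection x‖) 0 ∂stdGaussian E ≤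
      ∫ x, max (⟪y, x⟫ - ‖V.starProjection x‖) 0 ∂stdGaussian E :=
    setIntegral_le_integral i3 (Filter.Eventually.of_forall fun x => le_max_right _ _)
  linarith

theorem norm_sq_proj (V : Submodule ℝ E) (z : E) :
    ‖z‖ ^ 2 = ‖V.starProjection z‖ ^ 2 + ‖z - V.starProjection z‖ ^ 2 := by
  have h1 : ⟪V.starProjection z, z - V.starProjection z⟫ = 0 :=
    (Submodule.mem_orthogonal V _).1 (Submodule.sub_starProjection_mem_orthogonal z) _
      (Submodule.starProjection_apply_mem V z)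
  have h2 : z = V.starProjection z + (z - V.starProjection z) := by abel
  have h3 := norm_add_sq_real (V.starProjection z) (z - V.starProjection z)
  rw [← h2, h1] at h3
  linarith

theorem cell_ineq_gen (V : Submodule ℝ E) {A : Set E} (hA : MeasurableSet A)
    {a φ : ℝ} (ha : 1 < a) (hφ : 0 ≤ φ)
    (hG : ∀ y : E, ‖V.starProjection y‖ ^ 2 / a ^ 2 + ‖y - V.starProjection y‖ ^ 2 / (a ^ 2 - 1) = 1 →
      ∫ x, max (⟪y, x⟫ - ‖V.starProjection x‖) 0 ∂stdGaussian E = φ / √(2 * Real.pi)) :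
    √(a ^ 2 * ‖bary A‖ ^ 2 - ‖bary A - V.starProjection (bary A)‖ ^ 2) - φ
      ≤ √(2 * Real.pi) * ∫ x in A, ‖V.starProjection x‖ ∂stdGaussian E := by
  set z := bary A with hz
  have ha2 : 0 < a ^ 2 - 1 := by nlinarith
  have hint : 0 ≤ √(2 * Real.pi) * ∫ x in A, ‖V.starProjection x‖ ∂stdGaussian E :=
    mul_nonneg (Real.sqrt_nonneg _) (integral_nonneg fun x => norm_nonneg _)
  set p := V.starProjection z with hp
  set q := z - p with hq
  have hnz := norm_sq_proj V z
  rw [← hp, ← hq] at hnz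
  by_cases hz0 : z = 0
  · have hp0 : p = 0 := by rw [hp, hz0, map_zero]
    have hq0 : q = 0 := by rw [hq, hz0, hp0, sub_zero]
    have e0 : √(a ^ 2 * ‖z‖ ^ 2 - ‖q‖ ^ 2) = 0 := by rw [hz0, hq0]; simp
    rw [e0]
    linarith
  · have hzn : 0 < ‖z‖ := norm_pos_iff.2 hz0
    have hN2 : 0 < a ^ 2 * ‖z‖ ^ 2 - ‖q‖ ^ 2 := by
      have h1 : 0 ≤ ‖p‖ ^ 2 := by positivity
      have h2 : 0 < (a ^ 2 - 1) * ‖z‖ ^ 2 := by positivity
      nlinarith
    set N := √(a ^ 2 * ‖z‖ ^ 2 - ‖q‖ ^ 2) with hN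
    have hNpos : 0 < N := Real.sqrt_pos.2 hN2
    have hNsq : N ^ 2 = a ^ 2 * ‖z‖ ^ 2 - ‖q‖ ^ 2 := Real.sq_sqrt hN2.le
    set y : E := N⁻¹ • (a ^ 2 • z - q) with hy
    have hPq : V.starProjection q = 0 := by
      rw [hq, map_sub, hp, Submodule.starProjection_eq_self_iff.2 (Submodule.starProjection_apply_mem V z), sub_self]
    have hPy : V.starProjection y = (N⁻¹ * a ^ 2) • p := by
      rw [hy, map_smul, map_sub, map_smul, hPq, sub_zero, smul_smul]
    have hQy : y - V.starProjection y = (N⁻¹ * (a ^ 2 - 1)) • q := by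
      rw [hPy, hy, smul_sub, smul_smul, mul_sub, mul_one, sub_smul]
      have : z = p + q := by rw [hq]; abel
      nth_rewrite 1 [this]
      rw [smul_add]
      abel
    have hell : ‖V.starProjection y‖ ^ 2 / a ^ 2 + ‖y - V.starProjection y‖ ^ 2 / (a ^ 2 - 1) = 1 := by
      rw [hQy, hPy, norm_smul, norm_smul, mul_pow, mul_pow, Real.norm_eq_abs, Real.norm_eq_abs,
        sq_abs, sq_abs]
      have ha0 : a ≠ 0 := by linarith
      have e1 : (N⁻¹ * a ^ 2) ^ 2 * ‖p‖ ^ 2 / a ^ 2 + (N⁻¹ * (a ^ 2 - 1)) ^ 2 * ‖q‖ ^ 2 / (a ^ 2 - 1)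
          = (a ^ 2 * ‖p‖ ^ 2 + (a ^ 2 - 1) * ‖q‖ ^ 2) / N ^ 2 := by
        field_simp
      rw [e1, hNsq, hnz, div_eq_one_iff_eq]
      · ring
      · rw [← hnz]; exact hN2.ne'
    have h1 := inner_bary_le V y hA
    rw [hG y hell] at h1
    have h2 : √(2 * Real.pi) * (φ / √(2 * Real.pi)) = φ := by
      have : √(2 * Real.pi) ≠ 0 := (Real.sqrt_pos.2 (by positivity)).ne'
      field_simp
    rw [h2, ← hz] at h1
    have h3 : ⟪y, z⟫ = N := by
      rw [hy, real_inner_smul_left, inner_sub_left, real_inner_smul_left, real_inner_self_eq_norm_sq]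
      have h4 : ⟪q, z⟫ = ‖q‖ ^ 2 := by
        have h5 : ⟪q, p⟫ = 0 := by
          rw [real_inner_comm]
          exact (Submodule.mem_orthogonal V _).1 (Submodule.sub_starProjection_mem_orthogonal z) _
            (Submodule.starProjection_apply_mem V z)
        have : z = p + q := by rw [hq]; abel
        nth_rewrite 1 [this]
        rw [inner_add_right, h5, zero_add, real_inner_self_eq_norm_sq]
      rw [h4, ← hNsq]
      field_simp
    rw [h3] at h1
    linarith

theorem phi2_nonneg' {a : ℝ} (ha : 1 < a) : 0 ≤ phi2 a := by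
  have h0 : 0 < a := by linarith
  rw [phi2, sub_nonneg]
  have h1 : Real.arccos (1 / a) ≤ Real.tan (Real.arccos (1 / a)) := by
    apply Real.le_tan (Real.arccos_nonneg _)
    rw [Real.arccos_lt_pi_div_two]
    positivity
  rw [Real.tan_arccos] at h1
  have h2 : √(1 - (1 / a) ^ 2) / (1 / a) = √(a ^ 2 - 1) := by
    rw [div_div_eq_mul_div, div_one]
    have : √(1 - (1 / a) ^ 2) * a = √((1 - (1 / a) ^ 2) * a ^ 2) := by
      rw [Real.sqrt_mul' _ (by positivity), Real.sqrt_sq h0.le]
    rw [this]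
    congr 1
    field_simp
  rwa [h2] at h1

theorem phi3_nonneg' {a : ℝ} (ha : 1 < a) : 0 ≤ phi3 a := by
  have h0 : 0 < a := by linarith
  have : phi3 a = (a - 1) ^ 2 / a := by
    rw [phi3]; field_simp; ring
  rw [this]
  positivity

/-- cell inequality, `d = 2` (take `y = (a² Z - Z_⊥)/√(a²|Z|²-|Z_⊥|²)`) -/
theorem cell_ineq2 (V : Submodule ℝ E) (hV : finrank ℝ V = 2) {A : Set E} (hA : MeasurableSet A)
    {a : ℝ} (ha : 1 < a) :
    √(a ^ 2 * ‖bary A‖ ^ 2 - ‖bary A - V.starProjection (bary A)‖ ^ 2) - phi2 a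
      ≤ √(2 * Real.pi) * ∫ x in A, ‖V.starProjection x‖ ∂stdGaussian E :=
  cell_ineq_gen V hA ha (phi2_nonneg' ha) fun y hy => by
    rw [transfer2 V hV y]
    exact gauss2_pos_part ha (norm_nonneg _) (norm_nonneg _) hy

/-- cell inequality, `d = 3` -/
theorem cell_ineq3 (V : Submodule ℝ E) (hV : finrank ℝ V = 3) {A : Set E} (hA : MeasurableSet A)
    {a : ℝ} (ha : 1 < a) :
    √(a ^ 2 * ‖bary A‖ ^ 2 - ‖bary A - V.starProjection (bary A)‖ ^ 2) - phi3 a
      ≤ √(2 * Real.pi) * ∫ x in A, ‖V.starProjection x‖ ∂stdGaussian E :=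
  cell_ineq_gen V hA ha (phi3_nonneg' ha) fun y hy => by
    rw [transfer3 V hV y]
    exact gauss3_pos_part ha (norm_nonneg _) (norm_nonneg _) hy

theorem sum_setIntegral {F : Type v} [NormedAddCommGroup F] [NormedSpace ℝ F]
    {ι : Type*} [Fintype ι] (A : ι → Set E) (hA : ∀ i, MeasurableSet (A i))
    (hdisj : Pairwise fun i j => Disjoint (A i) (A j)) (hcov : ⋃ i, A i = Set.univ)
    (f : E → F) (hf : Integrable f (stdGaussian E)) :
    ∑ i, ∫ x in A i, f x ∂stdGaussian E = ∫ x, f x ∂stdGaussian E := by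
  rw [← setIntegral_univ (f := f), ← hcov, integral_iUnion_fintype hA hdisj
    (fun i => hf.integrableOn)]

theorem total2 (V : Submodule ℝ E) (hV : finrank ℝ V = 2) :
    √(2 * Real.pi) * ∫ x, ‖V.starProjection x‖ ∂stdGaussian E = Real.pi := by
  rw [transfer_norm2 V hV, gauss2_norm]
  have : √(2 * Real.pi) ≠ 0 := (Real.sqrt_pos.2 (by positivity)).ne'
  field_simp

theorem total3 (V : Submodule ℝ E) (hV : finrank ℝ V = 3) :
    √(2 * Real.pi) * ∫ x, ‖V.starProjection x‖ ∂stdGaussian E = 4 := by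
  rw [transfer_norm3 V hV, gauss3_norm]
  have : √(2 * Real.pi) ≠ 0 := (Real.sqrt_pos.2 (by positivity)).ne'
  field_simp

/-- resource inequality, `d = 2`: sum of `cell_ineq2` over a finite measurable partition -/
theorem resource2 {ι : Type v} [Fintype ι] (A : ι → Set E) (hA : ∀ i, MeasurableSet (A i))
    (hdisj : Pairwise fun i j => Disjoint (A i) (A j)) (hcov : ⋃ i, A i = Set.univ)
    (V : Submodule ℝ E) (hV : finrank ℝ V = 2) (a : ι → ℝ) (ha : ∀ i, 1 < a i) :
    ∑ i, (√(a i ^ 2 * ‖bary (A i)‖ ^ 2 - ‖bary (A i) - V.starProjection (bary (A i))‖ ^ 2)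
      - phi2 (a i)) ≤ Real.pi := by
  rw [← total2 V hV, ← sum_setIntegral A hA hdisj hcov _ (integrable_norm_proj V), Finset.mul_sum]
  exact Finset.sum_le_sum fun i _ => cell_ineq2 V hV (hA i) (ha i)

/-- resource inequality, `d = 3` -/
theorem resource3 {ι : Type v} [Fintype ι] (A : ι → Set E) (hA : ∀ i, MeasurableSet (A i))
    (hdisj : Pairwise fun i j => Disjoint (A i) (A j)) (hcov : ⋃ i, A i = Set.univ)
    (V : Submodule ℝ E) (hV : finrank ℝ V = 3) (a : ι → ℝ) (ha : ∀ i, 1 < a i) :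
    ∑ i, (√(a i ^ 2 * ‖bary (A i)‖ ^ 2 - ‖bary (A i) - V.starProjection (bary (A i))‖ ^ 2)
      - phi3 (a i)) ≤ 4 := by
  rw [← total3 V hV, ← sum_setIntegral A hA hdisj hcov _ (integrable_norm_proj V), Finset.mul_sum]
  exact Finset.sum_le_sum fun i _ => cell_ineq3 V hV (hA i) (ha i)

theorem integral_pos_part_gaussianReal :
    ∫ t : ℝ, max t 0 ∂(gaussianReal 0 1) = 1 / √(2 * Real.pi) := by
  rw [integral_gaussianReal_eq_integral_smul one_ne_zero]
  have h1 : ∀ x : ℝ, gaussianPDFReal 0 1 x • max x 0 =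
      Set.indicator (Set.Ioi 0) (fun x => (√(2 * Real.pi))⁻¹ * (x * Real.exp (-x ^ 2 / 2))) x := by
    intro x
    rw [gaussianPDFReal, Set.indicator_apply]
    split_ifs with hx
    · rw [Set.mem_Ioi] at hx
      rw [max_eq_left hx.le]
      simp only [NNReal.coe_one, mul_one, sub_zero, smul_eq_mul]
      ring
    · rw [Set.mem_Ioi, not_lt] at hx
      rw [max_eq_right hx, smul_zero]
  simp only [h1]
  rw [integral_indicator measurableSet_Ioi, integral_const_mul]
  have h2 : ∫ x in Set.Ioi (0:ℝ), x * Real.exp (-x ^ 2 / 2) = 1 := by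
    have h3 := integral_Ioi_of_hasDerivAt_of_nonneg' (g := fun x : ℝ => -Real.exp (-x ^ 2 / 2))
      (g' := fun x => x * Real.exp (-x ^ 2 / 2)) (a := 0) (l := 0)
      (fun x _ => by
        have h5 : HasDerivAt (fun x : ℝ => -x ^ 2 / 2) (-(2 * x) / 2) x := by
          simpa using ((hasDerivAt_pow 2 x).neg).div_const 2
        have h6 := h5.exp.neg
        have h7 : -(Real.exp (-x ^ 2 / 2) * (-(2 * x) / 2)) = x * Real.exp (-x ^ 2 / 2) := by ring
        rwa [h7] at h6)
      (fun x hx => mul_nonneg (le_of_lt hx) (Real.exp_pos _).le)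
      (by
        rw [← neg_zero]
        apply Filter.Tendsto.neg
        apply Real.tendsto_exp_atBot.comp
        have h4 : Filter.Tendsto (fun x : ℝ => x ^ 2 / 2) Filter.atTop Filter.atTop :=
          (Filter.tendsto_pow_atTop two_ne_zero).atTop_div_const (by norm_num)
        have h5 := Filter.tendsto_neg_atTop_atBot.comp h4
        refine h5.congr fun x => ?_
        simp only [Function.comp]; ring)
    rw [h3]
    simp
  rw [h2, mul_one, one_div]

theorem integral_pos_part_inner {e : E} (he : ‖e‖ = 1) :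
    ∫ x, max ⟪e, x⟫ 0 ∂stdGaussian E = 1 / √(2 * Real.pi) := by
  have h1 : (stdGaussian E).map (innerSL ℝ e) = gaussianReal 0 1 := by
    rw [IsGaussian.map_eq_gaussianReal, integral_strongDual_stdGaussian,
      variance_dual_stdGaussian, innerSL_apply_norm, he]
    norm_num
  rw [← integral_pos_part_gaussianReal, ← h1, integral_map (by fun_prop)
    (by fun_prop)]
  rfl

/-- halfspace bound -/
theorem norm_bary_le_one {A : Set E} (hA : MeasurableSet A) : ‖bary A‖ ≤ 1 := by
  by_cases hz : bary A = 0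
  · rw [hz, norm_zero]; exact zero_le_one
  · have hn : ‖bary A‖ ≠ 0 := norm_ne_zero_iff.2 hz
    set e : E := ‖bary A‖⁻¹ • bary A with he
    have he1 : ‖e‖ = 1 := by
      rw [he, norm_smul, norm_inv, norm_norm, inv_mul_cancel₀ hn]
    have h1 : ⟪e, bary A⟫ = ‖bary A‖ := by
      rw [he, real_inner_smul_left, real_inner_self_eq_norm_sq]
      field_simp
    have i1 : Integrable (fun x : E => max ⟪e, x⟫ 0) (stdGaussian E) :=
      (integrable_inner_std e).pos_part
    rw [← h1, inner_bary]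
    have h2 : ∫ x in A, ⟪e, x⟫ ∂stdGaussian E ≤ ∫ x, max ⟪e, x⟫ 0 ∂stdGaussian E := by
      calc ∫ x in A, ⟪e, x⟫ ∂stdGaussian E ≤ ∫ x in A, max ⟪e, x⟫ 0 ∂stdGaussian E :=
            integral_mono (integrable_inner_std e).integrableOn i1.integrableOn
              fun x => le_max_left _ _
        _ ≤ _ := setIntegral_le_integral i1 (Filter.Eventually.of_forall fun x => le_max_right _ _)
    rw [integral_pos_part_inner he1] at h2
    have h3 : 0 < √(2 * Real.pi) := Real.sqrt_pos.2 (by positivity)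
    calc √(2 * Real.pi) * ∫ x in A, ⟪e, x⟫ ∂stdGaussian E
        ≤ √(2 * Real.pi) * (1 / √(2 * Real.pi)) := mul_le_mul_of_nonneg_left h2 h3.le
      _ = 1 := by field_simp

theorem sum_bary {ι : Type v} [Fintype ι] (A : ι → Set E) (hA : ∀ i, MeasurableSet (A i))
    (hdisj : Pairwise fun i j => Disjoint (A i) (A j)) (hcov : ⋃ i, A i = Set.univ) :
    ∑ i, bary (A i) = 0 := by
  simp only [bary]
  rw [← Finset.smul_sum, sum_setIntegral A hA hdisj hcov (fun x => x) integrable_id_std,
    integral_id_stdGaussian, smul_zero]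

theorem bary_union {A B : Set E} (hA : MeasurableSet A) (hB : MeasurableSet B)
    (hAB : Disjoint A B) : bary (A ∪ B) = bary A + bary B := by
  rw [bary, bary, bary, setIntegral_union hAB hB integrable_id_std.integrableOn
    integrable_id_std.integrableOn, smul_add]

end Crest.Agent.Propeller
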