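import Crest.Agent.Propeller.Basic

/-! The circle average for the 2-dimensional Gaussian integral. -/

set_option autoImplicit false

open Complex Metric Set
open scoped Real

namespace Crest.Agent.Propeller

/-- analytic part: `ℓ(v) = log (1 - b v)` -/
theorem diff_log_one_sub {b : ℂ} {ρ : ℝ} (hρ : ‖b‖ * ρ ≤ 1) :
    DifferentiableOn ℂ (fun v => Complex.log (1 - b * v)) (ball 0 ρ) := by
  intro v hv
  apply DifferentiableAt.differentiableWithinAt
  apply DifferentiableAt.clog
  · fun_prop
  · left
    have h1 : ‖b * v‖ < 1 := by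
      rw [norm_mul]
      rw [mem_ball_zero_iff] at hv
      by_cases hb : ‖b‖ = 0
      · rw [hb, zero_mul]; exact one_pos
      · have : 0 < ‖b‖ := lt_of_le_of_ne (norm_nonneg _) (Ne.symm hb)
        nlinarith
    have h2 : (b * v).re ≤ ‖b * v‖ := Complex.re_le_norm _
    rw [sub_re, one_re]
    linarith

theorem avg_aux {b : ℂ} (hb0 : b ≠ 0) (hb : ‖b‖ < 1) (P : ℝ) :
    Real.circleAverage (fun v => (1 - P / 2 * (v + v⁻¹)) * Complex.log (1 - b * v)) 0 1
      = P / 2 * b := by
  set ρ : ℝ := 1 / ‖b‖ with hρ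
  have hbp : 0 < ‖b‖ := norm_pos_iff.2 hb0
  have hρ1 : 1 < ρ := by rw [hρ, lt_div_iff₀ hbp]; linarith
  have hρb : ‖b‖ * ρ ≤ 1 := by rw [hρ]; field_simp; exact le_rfl
  set l : ℂ → ℂ := fun v => Complex.log (1 - b * v) with hl
  have hd : DifferentiableOn ℂ l (ball 0 ρ) := diff_log_one_sub hρb
  have hds : DifferentiableOn ℂ (dslope l 0) (ball 0 ρ) :=
    (Complex.differentiableOn_dslope (ball_mem_nhds 0 (by linarith))).2 hd
  set M : ℂ → ℂ := fun v => l v - P / 2 * (v * l v) - P / 2 * dslope l 0 v with hM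
  have hMd : DifferentiableOn ℂ M (ball 0 ρ) := by
    apply DifferentiableOn.sub
    · apply DifferentiableOn.sub hd
      exact (differentiableOn_id.mul hd).const_mul _
    · exact hds.const_mul _
  have hMc : DiffContOnCl ℂ M (ball 0 |1|) := by
    rw [abs_one]
    apply DifferentiableOn.diffContOnCl
    apply hMd.mono
    exact closure_ball_subset_closedBall.trans (closedBall_subset_ball hρ1)
  have h1 := hMc.circleAverage
  have l0 : l 0 = 0 := by simp [hl]
  have hcongr : Real.circleAverage M 0 1 =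
      Real.circleAverage (fun v => (1 - P / 2 * (v + v⁻¹)) * l v) 0 1 := by
    apply Real.circleAverage_congr_sphere
    intro v hv
    rw [abs_one, mem_sphere_zero_iff_norm] at hv
    have hv0 : v ≠ 0 := by
      intro h; rw [h, norm_zero] at hv; exact zero_ne_one hv
    simp only [hM]
    rw [dslope_of_ne _ hv0, slope_def_field, l0, sub_zero, sub_zero]
    field_simp
    ring
  rw [← hcongr, h1]
  simp only [hM]
  rw [dslope_same, l0]
  have hderiv : deriv l 0 = -b := by
    have : HasDerivAt l (-b / (1 - b * 0)) 0 := by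
      have h2 : HasDerivAt (fun v : ℂ => 1 - b * v) (-b) 0 := by
        simpa using ((hasDerivAt_id (0:ℂ)).const_mul b).const_sub 1
      exact h2.clog (by left; simp)
    rw [this.deriv]; simp
  rw [hderiv]
  ring

theorem circleIntegrable_aux {b : ℂ} (hb : ‖b‖ < 1) (P : ℝ) :
    CircleIntegrable (fun v => (1 - P / 2 * (v + v⁻¹)) * Complex.log (1 - b * v)) 0 1 := by
  apply ContinuousOn.circleIntegrable zero_le_one
  apply ContinuousOn.mul
  · apply ContinuousOn.sub continuousOn_const
    apply ContinuousOn.mul continuousOn_const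
    apply continuousOn_id.add
    apply continuousOn_id.inv₀
    intro v hv h
    simp only [id] at h
    rw [mem_sphere_zero_iff_norm, h, norm_zero] at hv
    exact zero_ne_one hv
  · intro v hv
    apply ContinuousAt.continuousWithinAt
    apply ContinuousAt.clog
    · fun_prop
    · left
      rw [mem_sphere_zero_iff_norm] at hv
      have h1 : ‖b * v‖ < 1 := by rw [norm_mul, hv, mul_one]; exact hb
      have h2 : (b * v).re ≤ ‖b * v‖ := Complex.re_le_norm _
      rw [sub_re, one_re]
      linarith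

theorem avg_W (P : ℝ) : Real.circleAverage (fun v : ℂ => (1 - P / 2 * (v + v⁻¹))) 0 1 = 1 := by
  have i1 : CircleIntegrable (fun v : ℂ => v) 0 1 := continuousOn_id.circleIntegrable zero_le_one
  have i2 : CircleIntegrable (fun v : ℂ => v⁻¹) 0 1 := by
    apply ContinuousOn.circleIntegrable zero_le_one
    apply continuousOn_id.inv₀
    intro v hv h
    simp only [id] at h
    rw [mem_sphere_zero_iff_norm, h, norm_zero] at hv
    exact zero_ne_one hv
  have a1 : Real.circleAverage (fun v : ℂ => v) 0 1 = 0 := by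
    have : DiffContOnCl ℂ (fun v : ℂ => v) (ball 0 |1|) := differentiable_id.diffContOnCl
    exact this.circleAverage
  have a2 : Real.circleAverage (fun v : ℂ => v⁻¹) 0 1 = 0 := by
    have := Real.circleAverage_zero_one_congr_inv (f := fun v : ℂ => v)
    rw [a1] at this
    exact this
  have i0 : CircleIntegrable (fun _ : ℂ => (1:ℂ)) 0 1 := circleIntegrable_const _ _ _
  have e : (fun v : ℂ => (1 - P / 2 * (v + v⁻¹))) =
      (fun _ : ℂ => (1:ℂ)) - (P / 2 : ℂ) • ((fun v : ℂ => v) + (fun v : ℂ => v⁻¹)) := by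
    ext v
    simp only [Pi.sub_apply, Pi.smul_apply, Pi.add_apply, smul_eq_mul]
  rw [e, Real.circleAverage_sub i0 (i1.add i2).const_smul, Real.circleAverage_const,
    Real.circleAverage_smul, Real.circleAverage_add i1 i2, a1, a2]
  simp

/-- the key complex average -/
theorem avg_main {b : ℂ} (hb0 : b ≠ 0) (hb : ‖b‖ < 1) (P : ℝ) (c : ℂ) :
    Real.circleAverage (fun v => (1 - P / 2 * (v + v⁻¹)) *
      (c + Complex.log (1 - b * v) + Complex.log (1 - b * v⁻¹))) 0 1 = c + P * b := by
  have i1 := circleIntegrable_aux hb P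
  have a1 := avg_aux hb0 hb P
  have a2 : Real.circleAverage (fun v => (1 - P / 2 * (v + v⁻¹)) * Complex.log (1 - b * v⁻¹)) 0 1
      = P / 2 * b := by
    rw [← a1, ← Real.circleAverage_zero_one_congr_inv
      (f := fun v => (1 - P / 2 * (v + v⁻¹)) * Complex.log (1 - b * v))]
    congr 1
    ext v
    rw [inv_inv, add_comm v]
  have i2 : CircleIntegrable (fun v => (1 - P / 2 * (v + v⁻¹)) * Complex.log (1 - b * v⁻¹)) 0 1 := by
    apply ContinuousOn.circleIntegrable zero_le_one
    have hinv : ContinuousOn (fun v : ℂ => v⁻¹) (sphere 0 1) := by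
      apply continuousOn_id.inv₀
      intro v hv h
      simp only [id] at h
      rw [mem_sphere_zero_iff_norm, h, norm_zero] at hv
      exact zero_ne_one hv
    apply ContinuousOn.mul
    · exact continuousOn_const.sub (continuousOn_const.mul (continuousOn_id.add hinv))
    · apply ContinuousOn.clog
      · exact continuousOn_const.sub (continuousOn_const.mul hinv)
      · intro v hv
        left
        rw [mem_sphere_zero_iff_norm] at hv
        have h1 : ‖b * v⁻¹‖ < 1 := by rw [norm_mul, norm_inv, hv, inv_one, mul_one]; exact hb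
        have h2 : (b * v⁻¹).re ≤ ‖b * v⁻¹‖ := Complex.re_le_norm _
        rw [sub_re, one_re]
        linarith
  have i0 : CircleIntegrable (fun v : ℂ => (1 - P / 2 * (v + v⁻¹))) 0 1 := by
    apply ContinuousOn.circleIntegrable zero_le_one
    have hinv : ContinuousOn (fun v : ℂ => v⁻¹) (sphere 0 1) := by
      apply continuousOn_id.inv₀
      intro v hv h
      simp only [id] at h
      rw [mem_sphere_zero_iff_norm, h, norm_zero] at hv
      exact zero_ne_one hv
    exact continuousOn_const.sub (continuousOn_const.mul (continuousOn_id.add hinv))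
  have e : (fun v : ℂ => (1 - P / 2 * (v + v⁻¹)) *
      (c + Complex.log (1 - b * v) + Complex.log (1 - b * v⁻¹))) =
      (c • (fun v : ℂ => (1 - P / 2 * (v + v⁻¹)))
        + (fun v => (1 - P / 2 * (v + v⁻¹)) * Complex.log (1 - b * v)))
        + (fun v => (1 - P / 2 * (v + v⁻¹)) * Complex.log (1 - b * v⁻¹)) := by
    ext v
    simp only [Pi.smul_apply, Pi.add_apply, smul_eq_mul]
    ring
  rw [e, Real.circleAverage_add (i0.const_smul.add i1) i2,
    Real.circleAverage_add i0.const_smul i1, Real.circleAverage_smul, avg_W, a1, a2, smul_eq_mul]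
  ring

theorem circle_avg_param {P Q r θ : ℝ} (hP : 0 < P) (hQ : 0 < Q) (hr0 : 0 < r) (hr1 : r < 1)
    (hθ0 : 0 < θ) (hθ1 : θ < π / 2)
    (h1 : P / 2 * (r + r⁻¹) * Real.cos θ = 1) (h2 : P / 2 * (r⁻¹ - r) * Real.sin θ = Q) :
    (2 * π)⁻¹ * ∫ φ in (-π)..π, (Q - (1 - P * Real.cos φ) *
      Complex.arg (((1 - P * Real.cos φ : ℝ) : ℂ) + Q * Complex.I)) =
      Q - (θ - P * r * Real.sin θ) := by
  set b : ℂ := r * Complex.exp (-(θ * I)) with hb
  have hrC : (r : ℂ) ≠ 0 := by exact_mod_cast hr0.ne'
  have hb0 : b ≠ 0 := mul_ne_zero hrC (Complex.exp_ne_zero _)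
  have hbn : ‖b‖ = r := by
    rw [hb, norm_mul, Complex.norm_real, Real.norm_of_nonneg hr0.le]
    have : ‖Complex.exp (-(θ * I))‖ = 1 := by
      rw [show -((θ:ℂ) * I) = ((-θ : ℝ) : ℂ) * I by push_cast; ring]
      exact Complex.norm_exp_ofReal_mul_I _
    rw [this, mul_one]
  have hb1 : ‖b‖ < 1 := by rw [hbn]; exact hr1
  have hbinv : b⁻¹ = (r : ℂ)⁻¹ * Complex.exp (θ * I) := by
    rw [hb, mul_inv, ← Complex.exp_neg, neg_neg]
  have hkey : (P / 2 : ℂ) * (b + b⁻¹) = 1 + Q * I := by
    calc (P / 2 : ℂ) * (b + b⁻¹)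
        = ((P / 2 * (r + r⁻¹) * Real.cos θ : ℝ) : ℂ)
          + ((P / 2 * (r⁻¹ - r) * Real.sin θ : ℝ) : ℂ) * I := by
          rw [hbinv, hb, show -((θ:ℂ) * I) = (-θ : ℂ) * I by ring, Complex.exp_mul_I,
            Complex.exp_mul_I, Complex.cos_neg, Complex.sin_neg]
          push_cast
          ring
      _ = 1 + Q * I := by rw [h1, h2]; push_cast; ring
  set F : ℂ → ℂ := fun v => (1 - P / 2 * (v + v⁻¹)) *
      (((Real.log (P / (2 * r)) : ℝ) + θ * I : ℂ) + Complex.log (1 - b * v)
        + Complex.log (1 - b * v⁻¹)) with hF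
  have hFi : CircleIntegrable F 0 1 := by
    apply ContinuousOn.circleIntegrable zero_le_one
    have hinv : ContinuousOn (fun v : ℂ => v⁻¹) (sphere 0 1) := by
      apply continuousOn_id.inv₀
      intro v hv h
      simp only [id] at h
      rw [mem_sphere_zero_iff_norm, h, norm_zero] at hv
      exact zero_ne_one hv
    have hre : ∀ v : ℂ, ‖v‖ = 1 → 0 < (1 - b * v).re := by
      intro v hv
      have h1 : ‖b * v‖ < 1 := by rw [norm_mul, hv, mul_one]; exact hb1
      have h2 : (b * v).re ≤ ‖b * v‖ := Complex.re_le_norm _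
      rw [sub_re, one_re]
      linarith
    apply ContinuousOn.mul
    · exact continuousOn_const.sub (continuousOn_const.mul (continuousOn_id.add hinv))
    · apply ContinuousOn.add
      · apply ContinuousOn.add continuousOn_const
        apply ContinuousOn.clog
        · exact continuousOn_const.sub (continuousOn_const.mul continuousOn_id)
        · intro v hv
          left
          rw [mem_sphere_zero_iff_norm] at hv
          exact hre v hv
      · apply ContinuousOn.clog
        · exact continuousOn_const.sub (continuousOn_const.mul hinv)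
        · intro v hv
          left
          rw [mem_sphere_zero_iff_norm] at hv
          exact hre v⁻¹ (by rw [norm_inv, hv, inv_one])
  have havg := avg_main hb0 hb1 P ((Real.log (P / (2 * r)) : ℝ) + θ * I : ℂ)
  -- pointwise identity on the circle
  have hpt : ∀ φ : ℝ, (F (circleMap 0 1 φ)).im = (1 - P * Real.cos φ) *
      Complex.arg (((1 - P * Real.cos φ : ℝ) : ℂ) + Q * Complex.I) := by
    intro φ
    set v : ℂ := circleMap 0 1 φ with hv
    have hv1 : v = Complex.exp (φ * I) := by simp [hv, circleMap]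
    have hvn : ‖v‖ = 1 := by rw [hv1]; exact Complex.norm_exp_ofReal_mul_I φ
    have hv0 : v ≠ 0 := by rw [hv1]; exact Complex.exp_ne_zero _
    have hvv : v + v⁻¹ = 2 * (Real.cos φ : ℂ) := by
      rw [hv1, ← Complex.exp_neg, Complex.ofReal_cos, Complex.two_cos, neg_mul]
    have hW : (1 - P / 2 * (v + v⁻¹) : ℂ) = ((1 - P * Real.cos φ : ℝ) : ℂ) := by
      rw [hvv]; push_cast; ring
    set z : ℂ := ((1 - P * Real.cos φ : ℝ) : ℂ) + Q * Complex.I with hz
    set A : ℂ := ((Real.log (P / (2 * r)) : ℝ) + θ * I : ℂ) + Complex.log (1 - b * v)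
        + Complex.log (1 - b * v⁻¹) with hA
    have hre : ∀ v : ℂ, ‖v‖ = 1 → 0 < (1 - b * v).re := by
      intro v hv
      have h1 : ‖b * v‖ < 1 := by rw [norm_mul, hv, mul_one]; exact hb1
      have h2 : (b * v).re ≤ ‖b * v‖ := Complex.re_le_norm _
      rw [sub_re, one_re]
      linarith
    have hr1' := hre v hvn
    have hr2' := hre v⁻¹ (by rw [norm_inv, hvn, inv_one])
    have hne1 : (1 - b * v) ≠ 0 := fun h => by rw [h] at hr1'; simp at hr1'
    have hne2 : (1 - b * v⁻¹) ≠ 0 := fun h => by rw [h] at hr2'; simp at hr2'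
    have hexp : Complex.exp A = z := by
      rw [hA, Complex.exp_add, Complex.exp_add, Complex.exp_add, Complex.exp_log hne1,
        Complex.exp_log hne2, ← Complex.ofReal_exp, Real.exp_log (by positivity)]
      have e1 : Complex.exp (θ * I) = r * b⁻¹ := by
        rw [hbinv, ← mul_assoc, mul_inv_cancel₀ hrC, one_mul]
      rw [e1]
      have e2 : z = (P / 2 : ℂ) * (b + b⁻¹) - (P / 2 : ℂ) * (v + v⁻¹) := by
        rw [hkey, hz, hvv]; push_cast; ring
      rw [e2]
      push_cast
      field_simp
      ring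
    have hAim : A.im = θ + Complex.arg (1 - b * v) + Complex.arg (1 - b * v⁻¹) := by
      simp [hA, Complex.log_im]
    have ha1 := abs_lt.1 (Complex.abs_arg_lt_pi_div_two_iff.2 (Or.inl hr1'))
    have ha2 := abs_lt.1 (Complex.abs_arg_lt_pi_div_two_iff.2 (Or.inl hr2'))
    have hsin : 0 < Real.sin A.im := by
      have e3 : z.im = Real.exp A.re * Real.sin A.im := by
        rw [← hexp, Complex.exp_im]
      have e4 : z.im = Q := by simp [hz]
      rw [e4] at e3
      rw [e3] at hQ
      exact (mul_pos_iff_of_pos_left (Real.exp_pos _)).1 hQ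
    have hA0 : 0 < A.im := by
      by_contra hc
      have := Real.sin_nonpos_of_nonpos_of_neg_pi_le (not_lt.1 hc) (by rw [hAim]; linarith)
      linarith
    have hA1 : A.im ≤ π := by
      by_contra hc
      have h3 : Real.sin (A.im - 2 * π) ≤ 0 := by
        apply Real.sin_nonpos_of_nonpos_of_neg_pi_le
        · rw [hAim]; linarith
        · linarith [not_le.1 hc]
      rw [Real.sin_sub_two_pi] at h3
      linarith
    have hlog : Complex.log z = A := by
      rw [← hexp]
      exact Complex.log_exp (by linarith [Real.pi_pos]) hA1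
    have harg : Complex.arg z = A.im := by rw [← Complex.log_im, hlog]
    simp only [hF]
    rw [hW, harg, Complex.im_ofReal_mul]
  have hcomm := Complex.imCLM.circleAverage_comp_comm hFi
  have hval : Real.circleAverage F 0 1 = ((Real.log (P / (2 * r)) : ℝ) + θ * I : ℂ) + P * b := havg
  rw [hval] at hcomm
  have him : Complex.imCLM (((Real.log (P / (2 * r)) : ℝ) + θ * I : ℂ) + P * b)
      = θ - P * r * Real.sin θ := by
    have e1 : b = r * (Real.cos θ - Real.sin θ * I) := by
      rw [hb, show -((θ:ℂ) * I) = (-θ : ℂ) * I by ring, Complex.exp_mul_I, Complex.cos_neg,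
        Complex.sin_neg]
      push_cast
      ring
    have e2 : ((Real.log (P / (2 * r)) : ℝ) + θ * I : ℂ) + P * b =
        ((Real.log (P / (2 * r)) + P * r * Real.cos θ : ℝ) : ℂ)
          + ((θ - P * r * Real.sin θ : ℝ) : ℂ) * I := by
      rw [e1]; push_cast; ring
    rw [e2, Complex.imCLM_apply, Complex.add_im, Complex.ofReal_im, Complex.im_ofReal_mul,
      Complex.I_im, zero_add, mul_one]
  rw [him, Real.circleAverage_def] at hcomm
  set g : ℝ → ℝ := fun φ => (1 - P * Real.cos φ) *
      Complex.arg (((1 - P * Real.cos φ : ℝ) : ℂ) + Q * Complex.I) with hg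
  have hgF : (fun φ => (Complex.imCLM ∘ F) (circleMap 0 1 φ)) = g := by
    ext φ
    exact hpt φ
  rw [hgF] at hcomm
  have hper : Function.Periodic g (2 * π) := by
    intro φ
    simp only [hg, Real.cos_add_two_pi]
  have hshift : ∫ φ in (-π)..π, g φ = ∫ φ in (0:ℝ)..(2 * π), g φ := by
    have := hper.intervalIntegral_add_eq (-π) 0
    rw [zero_add, show -π + 2 * π = π by ring] at this
    exact this
  have hgi : IntervalIntegrable g MeasureTheory.volume (-π) π := by
    have h0 : IntervalIntegrable g MeasureTheory.volume 0 (2 * π) := by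
      rw [← hgF]
      exact ⟨Complex.imCLM.integrable_comp hFi.1, Complex.imCLM.integrable_comp hFi.2⟩
    exact hper.intervalIntegrable₀ (by positivity) h0 _ _
  rw [intervalIntegral.integral_sub (by simp) hgi, hshift, intervalIntegral.integral_const]
  rw [smul_eq_mul] at hcomm
  rw [mul_sub, hcomm, smul_eq_mul]
  field_simp
  ring

theorem circle_avg' {P Q a : ℝ} (ha : 1 < a) (hP : 0 < P) (hQ : 0 < Q)
    (h : P ^ 2 / a ^ 2 + Q ^ 2 / (a ^ 2 - 1) = 1) :
    (2 * π)⁻¹ * ∫ φ in (-π)..π, (Q - (1 - P * Real.cos φ) *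
      Complex.arg (((1 - P * Real.cos φ : ℝ) : ℂ) + Q * Complex.I)) = phi2 a := by
  have ha0 : 0 < a := by linarith
  have ha2 : 0 < a ^ 2 - 1 := by nlinarith
  set θ : ℝ := Real.arccos (1 / a) with hθ
  have h1a : 1 / a < 1 := by rw [div_lt_one ha0]; exact ha
  have h0a : 0 < 1 / a := by positivity
  have hcos : Real.cos θ = 1 / a := Real.cos_arccos (by linarith) h1a.le
  have hsin : Real.sin θ = √(a ^ 2 - 1) / a := by
    rw [hθ, Real.sin_arccos]
    have : 1 - (1 / a) ^ 2 = (a ^ 2 - 1) / a ^ 2 := by field_simp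
    rw [this, Real.sqrt_div ha2.le, Real.sqrt_sq ha0.le]
  have hθ0 : 0 < θ := Real.arccos_pos.2 h1a
  have hθ1 : θ < π / 2 := Real.arccos_lt_pi_div_two.2 h0a
  set w : ℝ := √(a ^ 2 - 1) with hw
  have hw0 : 0 < w := Real.sqrt_pos.2 ha2
  have hw2 : w ^ 2 = a ^ 2 - 1 := Real.sq_sqrt ha2.le
  set Y : ℝ := a / P with hY
  set X : ℝ := Q * a / (P * w) with hX
  have hX0 : 0 < X := by positivity
  have hY0 : 0 < Y := by positivity
  have hYX : Y ^ 2 - X ^ 2 = 1 := by
    have h2 : P ^ 2 * (a ^ 2 - 1) + Q ^ 2 * a ^ 2 = a ^ 2 * (a ^ 2 - 1) := by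
      field_simp at h
      linarith
    rw [hY, hX, div_pow, div_pow, mul_pow, mul_pow, hw2]
    field_simp
    nlinarith [h2]
  have hr0 : 0 < Y - X := by nlinarith
  have hinv : (Y - X)⁻¹ = Y + X := by
    rw [inv_eq_one_div, div_eq_iff hr0.ne']
    linarith [show (Y + X) * (Y - X) = Y ^ 2 - X ^ 2 by ring]
  have hr1 : Y - X < 1 := by nlinarith
  have := circle_avg_param hP hQ hr0 hr1 hθ0 hθ1
    (by
      rw [hinv, hcos, hY]
      field_simp
      ring)
    (by
      rw [hinv, hsin, hX]
      field_simp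
      ring)
  rw [this, hsin, phi2, ← hθ, ← hw, hY, hX]
  field_simp
  ring

end Crest.Agent.Propeller
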