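import Crest.Agent.Propeller.Gauss2Cases
import Crest.Agent.Propeller.CircleAvg

/-! Chunk B: 2-dimensional Gaussian integral. -/

set_option autoImplicit false

open MeasureTheory ProbabilityTheory Module
open scoped RealInnerProductSpace

namespace Crest.Agent.Propeller

/-- `√(2π) E (P X₀ + Q X₂ - |(X₀,X₁)|)₊ = φ₂(a)` when `P²/a²+Q²/(a²-1)=1`. -/
theorem gauss2_pos_part {P Q a : ℝ} (ha : 1 < a) (hP : 0 ≤ P) (hQ : 0 ≤ Q)
    (h : P ^ 2 / a ^ 2 + Q ^ 2 / (a ^ 2 - 1) = 1) :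
    ∫ v : Fin 3 → ℝ, max (P * v 0 + Q * v 2 - √(v 0 ^ 2 + v 1 ^ 2)) 0
      ∂(Measure.pi fun _ => gaussianReal 0 1) = phi2 a / √(2 * Real.pi) :=
  gauss2_final ha hP hQ h fun hP' hQ' => circle_avg' ha hP' hQ' h

/-- `√(2π) E |(X₀,X₁)| = π`. -/
theorem gauss2_norm :
    ∫ v : Fin 2 → ℝ, √(v 0 ^ 2 + v 1 ^ 2) ∂(Measure.pi fun _ => gaussianReal 0 1)
      = Real.pi / √(2 * Real.pi) :=
  gauss2_norm'

end Crest.Agent.Propeller
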