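import Crest.Agent.Propeller.Gauss2Red

/-! Chunk B: the degenerate cases `P = 0`, `Q = 0`, the norm integral, and the final assembly modulo
the circle average. -/

set_option autoImplicit false

open MeasureTheory ProbabilityTheory Module Set
open scoped RealInnerProductSpace ENNReal

namespace Crest.Agent.Propeller

/-- `∫₀^∞ R² e^{-R²/2} dR = √(2π)/2` -/
lemma lint_R2 : ∫⁻ R in Ioi (0 : ℝ), ENNReal.ofReal (R ^ 2 * Real.exp (-R ^ 2 / 2)) =
    ENNReal.ofReal (1 / 2 * √(2 * Real.pi)) := by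
  have h1 : IntegrableOn (fun x : ℝ => x ^ (2 : ℝ) * Real.exp (-(1 / 2) * x ^ (2 : ℝ))) (Ioi 0) :=
    integrableOn_rpow_mul_exp_neg_mul_rpow (by norm_num) (by norm_num) (by norm_num)
  have h2 : ∫ x in Ioi (0 : ℝ), x ^ (2 : ℝ) * Real.exp (-(1 / 2) * x ^ (2 : ℝ)) =
      1 / 2 * √(2 * Real.pi) := by
    rw [integral_rpow_mul_exp_neg_mul_rpow (by norm_num) (by norm_num) (by norm_num)]
    have hG : Real.Gamma ((2 + 1) / 2) = 1 / 2 * √Real.pi := by
      rw [show ((2 : ℝ) + 1) / 2 = 1 / 2 + 1 by norm_num, Real.Gamma_add_one (by norm_num),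
        Real.Gamma_one_half_eq]
    rw [hG]
    have h3 : ((1 : ℝ) / 2) ^ (-(2 + 1) / 2 : ℝ) = 2 * √2 := by
      rw [one_div, Real.inv_rpow (by norm_num), ← Real.rpow_neg (by norm_num),
        show (-(-(2 + 1) / 2) : ℝ) = 1 + 1 / 2 by norm_num, Real.rpow_add (by norm_num),
        ← Real.sqrt_eq_rpow]
      norm_num
    rw [h3, Real.sqrt_mul (by norm_num)]
    ring
  have h3 : ∀ x ∈ Ioi (0 : ℝ), ENNReal.ofReal (x ^ 2 * Real.exp (-x ^ 2 / 2)) =
      ENNReal.ofReal (x ^ (2 : ℝ) * Real.exp (-(1 / 2) * x ^ (2 : ℝ))) := by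
    intro x hx
    have e2 : x ^ (2 : ℝ) = x ^ 2 := by
      rw [show (2 : ℝ) = ((2 : ℕ) : ℝ) by norm_num, Real.rpow_natCast]
    rw [e2, show -x ^ 2 / 2 = -(1 / 2) * x ^ 2 by ring]
  rw [setLIntegral_congr_fun measurableSet_Ioi h3, ← ofReal_integral_eq_lintegral_ofReal h1, h2]
  refine (ae_restrict_iff' measurableSet_Ioi).2 (ae_of_all _ fun x hx => ?_)
  have hx : 0 < x := hx
  positivity

lemma norm2_aux :
    ∫⁻ v : Fin 2 → ℝ, ENNReal.ofReal √(v 0 ^ 2 + v 1 ^ 2)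
      ∂(Measure.pi fun _ => gaussianReal 0 1) = ENNReal.ofReal (Real.pi / √(2 * Real.pi)) := by
  obtain ⟨c, hc⟩ : ∃ c : ℝ, c = (√(2 * Real.pi))⁻¹ := ⟨_, rfl⟩
  have hc0 : 0 < c := by rw [hc]; positivity
  have hpd : ∀ x, pd x = c * Real.exp (-x ^ 2 / 2) := fun x => by rw [hc]; rfl
  have s1 : ∫⁻ v : Fin 2 → ℝ, ENNReal.ofReal √(v 0 ^ 2 + v 1 ^ 2)
      ∂(Measure.pi fun _ => gaussianReal 0 1) =
      ∫⁻ x : ℝ, ∫⁻ y : ℝ, ENNReal.ofReal (c ^ 2 * Real.exp (-(x ^ 2 + y ^ 2) / 2) *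
        √(x ^ 2 + y ^ 2)) := by
    refine (pi2_gaussian (fun x y => ENNReal.ofReal √(x ^ 2 + y ^ 2))
      (by fun_prop)).trans ?_
    refine lintegral_congr fun x => ?_
    rw [← lintegral_const_mul _ (by fun_prop)]
    refine lintegral_congr fun y => ?_
    rw [← mul_assoc, ← ENNReal.ofReal_mul (pd_nonneg _), ← ENNReal.ofReal_mul
      (mul_nonneg (pd_nonneg _) (pd_nonneg _)), hpd, hpd]
    congr 1
    rw [show -(x ^ 2 + y ^ 2) / 2 = -x ^ 2 / 2 + -y ^ 2 / 2 by ring, Real.exp_add]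
    ring
  rw [s1, lintegral_radial (fun s => ENNReal.ofReal (c ^ 2 * Real.exp (-s / 2) * √s)) (by fun_prop)]
  have s2 : ∀ r ∈ Ioi (0 : ℝ), ENNReal.ofReal r *
      ENNReal.ofReal (c ^ 2 * Real.exp (-(r ^ 2) / 2) * √(r ^ 2)) =
      ENNReal.ofReal (r ^ 2 * Real.exp (-r ^ 2 / 2)) * ENNReal.ofReal (c ^ 2) := by
    intro r hr
    have hr : 0 < r := hr
    rw [Real.sqrt_sq hr.le, ← ENNReal.ofReal_mul hr.le, ← ENNReal.ofReal_mul (by positivity)]
    congr 1
    ring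
  rw [setLIntegral_congr_fun measurableSet_Ioi s2, lintegral_mul_const _ (by fun_prop), lint_R2,
    ← ENNReal.ofReal_mul (by positivity), ← ENNReal.ofReal_mul (by positivity)]
  congr 1
  have hcc : c ^ 2 * (2 * Real.pi) = 1 := by
    rw [hc, inv_pow, Real.sq_sqrt (by positivity)]
    field_simp
  have h3 : √(2 * Real.pi) ^ 2 = 2 * Real.pi := Real.sq_sqrt (by positivity)
  rw [eq_div_iff (by positivity)]
  linear_combination (1 / 2) * √(2 * Real.pi) ^ 2 * hcc + (1 / 2) * h3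

/-- `√(2π) E |(X₀,X₁)| = π`. -/
theorem gauss2_norm' :
    ∫ v : Fin 2 → ℝ, √(v 0 ^ 2 + v 1 ^ 2) ∂(Measure.pi fun _ => gaussianReal 0 1)
      = Real.pi / √(2 * Real.pi) := by
  have hm : Measurable fun v : Fin 2 → ℝ => √(v 0 ^ 2 + v 1 ^ 2) := by fun_prop
  have h0 : ∀ v : Fin 2 → ℝ, 0 ≤ √(v 0 ^ 2 + v 1 ^ 2) := fun v => Real.sqrt_nonneg _
  rw [integral_eq_lintegral_of_nonneg_ae (ae_of_all _ h0) hm.aestronglyMeasurable, norm2_aux,
    ENNReal.toReal_ofReal (by positivity)]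

lemma circle_P0 {Q a : ℝ} (ha : 1 < a) (hQ : 0 ≤ Q) (h : Q ^ 2 / (a ^ 2 - 1) = 1) :
    ∫⁻ φ in Ioo (-Real.pi) Real.pi, ENNReal.ofReal (gf2 Q (1 - 0 * Real.cos φ)) =
    ENNReal.ofReal (2 * Real.pi * phi2 a) := by
  have ha0 : 0 < a := by linarith
  have ha2 : 0 < a ^ 2 - 1 := by nlinarith
  have hQ2 : Q ^ 2 = a ^ 2 - 1 := by rwa [div_eq_one_iff_eq ha2.ne'] at h
  have hQ' : Q = √(a ^ 2 - 1) := by rw [← hQ2, Real.sqrt_sq hQ]
  have e : ∀ φ : ℝ, gf2 Q (1 - 0 * Real.cos φ) = phi2 a := by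
    intro φ
    unfold gf2 phi2
    rw [zero_mul, sub_zero, hQ2, show (1 : ℝ) ^ 2 + (a ^ 2 - 1) = a ^ 2 by ring,
      Real.sqrt_sq ha0.le, hQ', one_mul]
  simp_rw [e]
  rw [lintegral_const, Measure.restrict_apply MeasurableSet.univ, univ_inter, Real.volume_Ioo,
    mul_comm, ← ENNReal.ofReal_mul (by linarith [Real.pi_pos])]
  congr 1
  ring

lemma circle_Q0 {a : ℝ} (ha : 1 < a) :
    ∫⁻ φ in Ioo (-Real.pi) Real.pi, ENNReal.ofReal (gf2 0 (1 - a * Real.cos φ)) =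
    ENNReal.ofReal (2 * Real.pi * phi2 a) := by
  have ha0 : 0 < a := by linarith
  have hgf : ∀ w : ℝ, gf2 0 w = Real.pi * max (-w) 0 := by
    intro w
    unfold gf2
    rw [show w ^ 2 + (0 : ℝ) ^ 2 = w ^ 2 by ring, Real.sqrt_sq_eq_abs]
    rcases lt_trichotomy w 0 with hw | hw | hw
    · rw [abs_of_neg hw, max_eq_left (by linarith), show w / -w = -1 by rw [div_neg, div_self hw.ne],
        Real.arccos_neg_one]
      ring
    · subst hw; simp
    · rw [abs_of_pos hw, max_eq_right (by linarith), div_self hw.ne', Real.arccos_one]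
      ring
  set θ := Real.arccos (1 / a) with hθ
  have h1a : 0 < 1 / a ∧ 1 / a < 1 := ⟨by positivity, (div_lt_one ha0).2 ha⟩
  have hcos : Real.cos θ = 1 / a := Real.cos_arccos (by linarith) (by linarith)
  have hsin : Real.sin θ = √(a ^ 2 - 1) / a := by
    rw [hθ, Real.sin_arccos, show 1 - (1 / a) ^ 2 = (a ^ 2 - 1) / a ^ 2 by field_simp,
      Real.sqrt_div' _ (by positivity), Real.sqrt_sq ha0.le]
  have hθ0 : 0 ≤ θ := Real.arccos_nonneg _
  have hθπ : θ ≤ Real.pi := Real.arccos_le_pi _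
  have hsub : Ioo (-θ) θ ⊆ Ioo (-Real.pi) Real.pi := Ioo_subset_Ioo (by linarith) hθπ
  have hcosabs : ∀ φ : ℝ, Real.cos φ = Real.cos |φ| := fun φ => (Real.cos_abs φ).symm
  have e1 : ∫⁻ φ in Ioo (-Real.pi) Real.pi, ENNReal.ofReal (gf2 0 (1 - a * Real.cos φ)) =
      ∫⁻ φ in Ioo (-θ) θ, ENNReal.ofReal (Real.pi * (a * Real.cos φ - 1)) := by
    have hrr : (volume.restrict (Ioo (-Real.pi) Real.pi)).restrict (Ioo (-θ) θ) =
        volume.restrict (Ioo (-θ) θ) := by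
      rw [Measure.restrict_restrict measurableSet_Ioo, inter_eq_self_of_subset_left hsub]
    rw [← hrr, ← lintegral_indicator (measurableSet_Ioo (a := -θ) (b := θ))]
    refine setLIntegral_congr_fun measurableSet_Ioo fun b hb => ?_
    rw [hgf]
    by_cases hbψ : b ∈ Ioo (-θ) θ
    · rw [indicator_of_mem hbψ]
      have : 1 / a < Real.cos b := by
        rw [← hcos, hcosabs b]
        exact Real.cos_lt_cos_of_nonneg_of_le_pi (abs_nonneg _) hθπ (abs_lt.2 hbψ)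
      rw [div_lt_iff₀ ha0] at this
      rw [max_eq_left (by linarith)]
      congr 1
      ring
    · rw [indicator_of_notMem hbψ]
      apply ENNReal.ofReal_of_nonpos
      have hb' : θ ≤ |b| := by
        by_contra hcon
        exact hbψ (abs_lt.1 (not_le.1 hcon))
      have : Real.cos b ≤ 1 / a := by
        rw [← hcos, hcosabs b]
        exact Real.cos_le_cos_of_nonneg_of_le_pi hθ0 (abs_lt.2 hb).le hb'
      rw [le_div_iff₀ ha0] at this
      rw [max_eq_right (by linarith), mul_zero]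
  rw [e1, lint_Ioo_of_hasDerivAt (by linarith) (fun φ => Real.pi * (a * Real.sin φ - φ))]
  · congr 1
    simp only [Real.sin_neg, hsin]
    unfold phi2
    rw [← hθ]
    field_simp
    ring
  · fun_prop
  · intro x _
    exact ((((Real.hasDerivAt_sin x).const_mul a).sub (hasDerivAt_id' x)).const_mul Real.pi)
  · intro b hb
    have : 1 / a < Real.cos b := by
      rw [← hcos, hcosabs b]
      exact Real.cos_lt_cos_of_nonneg_of_le_pi (abs_nonneg _) hθπ (abs_lt.2 hb)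
    rw [div_lt_iff₀ ha0] at this
    have : 0 ≤ a * Real.cos b - 1 := by linarith
    have := Real.pi_pos
    positivity

/-- from the circle average (real integral) to the `lintegral` form -/
lemma circle_of_avg {P Q a : ℝ} (hQ : 0 < Q)
    (h : (2 * Real.pi)⁻¹ * ∫ φ in (-Real.pi)..Real.pi, (Q - (1 - P * Real.cos φ) *
      Complex.arg (((1 - P * Real.cos φ : ℝ) : ℂ) + Q * Complex.I)) = phi2 a) :
    ∫⁻ φ in Ioo (-Real.pi) Real.pi, ENNReal.ofReal (gf2 Q (1 - P * Real.cos φ)) =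
    ENNReal.ofReal (2 * Real.pi * phi2 a) := by
  have hpi := Real.pi_pos
  have e : ∀ w : ℝ, Complex.arg ((w : ℂ) + Q * Complex.I) = Real.arccos (w / √(w ^ 2 + Q ^ 2)) := by
    intro w
    have him : ((w : ℂ) + Q * Complex.I).im = Q := by simp
    have hre : ((w : ℂ) + Q * Complex.I).re = w := by simp
    rw [Complex.arg_of_im_pos (by rw [him]; exact hQ), hre, Complex.norm_add_mul_I]
  have e2 : ∀ φ : ℝ, Q - (1 - P * Real.cos φ) *
      Complex.arg (((1 - P * Real.cos φ : ℝ) : ℂ) + Q * Complex.I) =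
      gf2 Q (1 - P * Real.cos φ) := by
    intro φ
    rw [e]
    rfl
  simp_rw [e2] at h
  have hcont : Continuous fun φ : ℝ => gf2 Q (1 - P * Real.cos φ) := by
    unfold gf2
    refine Continuous.sub continuous_const (Continuous.mul (by fun_prop)
      (Real.continuous_arccos.comp (Continuous.div (by fun_prop) (by fun_prop) ?_)))
    intro φ
    positivity
  have hint : IntegrableOn (fun φ : ℝ => gf2 Q (1 - P * Real.cos φ)) (Ioo (-Real.pi) Real.pi) :=
    (hcont.continuousOn.integrableOn_compact isCompact_Icc).mono_set Ioo_subset_Icc_self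
  rw [← ofReal_integral_eq_lintegral_ofReal hint (ae_of_all _ fun φ => (lint_angle2 hQ.le _).1)]
  congr 1
  rw [← integral_Ioc_eq_integral_Ioo, ← intervalIntegral.integral_of_le (by linarith), ← h]
  field_simp

theorem gauss2_of_circle {P Q a : ℝ} (hQ : 0 ≤ Q)
    (h : ∫⁻ φ in Ioo (-Real.pi) Real.pi, ENNReal.ofReal (gf2 Q (1 - P * Real.cos φ)) =
    ENNReal.ofReal (2 * Real.pi * phi2 a)) (hphi : 0 ≤ phi2 a) :
    ∫ v : Fin 3 → ℝ, max (P * v 0 + Q * v 2 - √(v 0 ^ 2 + v 1 ^ 2)) 0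
      ∂(Measure.pi fun _ => gaussianReal 0 1) = phi2 a / √(2 * Real.pi) := by
  have hm : Measurable fun v : Fin 3 → ℝ =>
      max (P * v 0 + Q * v 2 - √(v 0 ^ 2 + v 1 ^ 2)) 0 := by fun_prop
  have h0 : ∀ v : Fin 3 → ℝ,
      0 ≤ max (P * v 0 + Q * v 2 - √(v 0 ^ 2 + v 1 ^ 2)) 0 := fun v => le_max_right _ _
  rw [integral_eq_lintegral_of_nonneg_ae (ae_of_all _ h0) hm.aestronglyMeasurable]
  have h1 : ∀ v : Fin 3 → ℝ,
      ENNReal.ofReal (max (P * v 0 + Q * v 2 - √(v 0 ^ 2 + v 1 ^ 2)) 0) =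
      ENNReal.ofReal (P * v 0 + Q * v 2 - √(v 0 ^ 2 + v 1 ^ 2)) := by
    intro v
    rcases le_total (P * v 0 + Q * v 2 - √(v 0 ^ 2 + v 1 ^ 2)) 0 with h | h
    · rw [max_eq_right h, ENNReal.ofReal_zero, ENNReal.ofReal_of_nonpos h]
    · rw [max_eq_left h]
  simp_rw [h1]
  rw [main2 P hQ, h, ← ENNReal.ofReal_mul (by positivity), ENNReal.toReal_ofReal
    (by positivity)]
  field_simp

lemma phi2_nonneg_aux {a : ℝ} (ha : 1 < a) : 0 ≤ phi2 a := by
  have ha0 : 0 < a := by linarith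
  have h1a : 0 < 1 / a ∧ 1 / a < 1 := ⟨by positivity, (div_lt_one ha0).2 ha⟩
  set θ := Real.arccos (1 / a) with hθ
  have hcos : Real.cos θ = 1 / a := Real.cos_arccos (by linarith) (by linarith)
  have hsin : Real.sin θ = √(a ^ 2 - 1) / a := by
    rw [hθ, Real.sin_arccos, show 1 - (1 / a) ^ 2 = (a ^ 2 - 1) / a ^ 2 by field_simp,
      Real.sqrt_div' _ (by positivity), Real.sqrt_sq ha0.le]
  have hθ0 : 0 ≤ θ := Real.arccos_nonneg _
  have hθ2 : θ < Real.pi / 2 := by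
    rw [hθ, Real.arccos_lt_pi_div_two]; exact h1a.1
  have htan : Real.tan θ = √(a ^ 2 - 1) := by
    rw [Real.tan_eq_sin_div_cos, hsin, hcos]
    field_simp
  unfold phi2
  rw [← htan, ← hθ]
  linarith [Real.le_tan hθ0 hθ2]

/-- final assembly modulo the circle average for `P, Q > 0` -/
theorem gauss2_final {P Q a : ℝ} (ha : 1 < a) (hP : 0 ≤ P) (hQ : 0 ≤ Q)
    (h : P ^ 2 / a ^ 2 + Q ^ 2 / (a ^ 2 - 1) = 1)
    (havg : 0 < P → 0 < Q → (2 * Real.pi)⁻¹ * ∫ φ in (-Real.pi)..Real.pi,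
      (Q - (1 - P * Real.cos φ) *
      Complex.arg (((1 - P * Real.cos φ : ℝ) : ℂ) + Q * Complex.I)) = phi2 a) :
    ∫ v : Fin 3 → ℝ, max (P * v 0 + Q * v 2 - √(v 0 ^ 2 + v 1 ^ 2)) 0
      ∂(Measure.pi fun _ => gaussianReal 0 1) = phi2 a / √(2 * Real.pi) := by
  have ha0 : 0 < a := by linarith
  refine gauss2_of_circle hQ ?_ (phi2_nonneg_aux ha)
  rcases eq_or_lt_of_le hP with hP0 | hP0
  · subst hP0
    exact circle_P0 ha hQ (by simpa using h)
  · rcases eq_or_lt_of_le hQ with hQ0 | hQ0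
    · subst hQ0
      have h1 : P ^ 2 / a ^ 2 = 1 := by simpa using h
      rw [div_eq_one_iff_eq (by positivity)] at h1
      have hPa : P = a := by nlinarith
      subst hPa
      exact circle_Q0 ha
    · exact circle_of_avg hQ0 (havg hP0 hQ0)

end Crest.Agent.Propeller
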