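import Crest.Agent.Propeller.Basic
import Crest.Agent.Crz.Avg

/-! Chunk B: the circle average. -/

set_option autoImplicit false

open MeasureTheory Module Set Complex
open scoped RealInnerProductSpace

namespace Crest.Agent.Propeller

namespace CA

/-- `ℓ(z) = log (1 - b z)` -/
noncomputable def ell (b z : ℂ) : ℂ := Complex.log (1 - b * z)

lemma slit {b z : ℂ} (h : ‖b * z‖ < 1) : 1 - b * z ∈ Complex.slitPlane := by
  left
  have : (b * z).re ≤ ‖b * z‖ := Complex.re_le_norm _
  simp only [sub_re, one_re]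
  linarith

lemma ell_diff {b : ℂ} (hb0 : b ≠ 0) :
    DifferentiableOn ℂ (ell b) (Metric.ball 0 (1 / ‖b‖)) := by
  intro z hz
  have hb : 0 < ‖b‖ := norm_pos_iff.2 hb0
  have h1 : ‖b * z‖ < 1 := by
    rw [norm_mul]
    have : ‖z‖ < 1 / ‖b‖ := by simpa using hz
    rw [lt_div_iff₀ hb] at this
    linarith
  unfold ell
  exact (((differentiableAt_id.const_mul b).const_sub 1).clog (slit h1)).differentiableWithinAt

lemma ell_zero (b : ℂ) : ell b 0 = 0 := by simp [ell]

lemma ell_deriv (b : ℂ) : deriv (ell b) 0 = -b := by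
  have h1 : HasDerivAt (fun z : ℂ => 1 - b * z) (-b) 0 := by
    simpa using ((hasDerivAt_id (0 : ℂ)).const_mul b).const_sub 1
  have h2 := h1.clog (by simp : (1 - b * 0 : ℂ) ∈ Complex.slitPlane)
  have h3 : HasDerivAt (fun z => Complex.log (1 - b * z)) (-b) 0 := by
    simpa using h2
  exact h3.deriv

open Crest.Agent.Crz in
lemma av_ell {b : ℂ} (hb0 : b ≠ 0) (hb : ‖b‖ < 1) : av (ell b) = 0 := by
  have hρ : 1 < 1 / ‖b‖ := (one_lt_div (norm_pos_iff.2 hb0)).2 hb
  rw [av_hol hρ (ell_diff hb0), ell_zero]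

open Crest.Agent.Crz in
lemma av_mul_ell {b : ℂ} (hb0 : b ≠ 0) (hb : ‖b‖ < 1) : av (fun z => z * ell b z) = 0 := by
  have hρ : 1 < 1 / ‖b‖ := (one_lt_div (norm_pos_iff.2 hb0)).2 hb
  have h1 : DifferentiableOn ℂ (fun z => z * ell b z) (Metric.ball 0 (1 / ‖b‖)) :=
    differentiableOn_id.mul (ell_diff hb0)
  rw [av_hol hρ h1, ell_zero, mul_zero]

open Crest.Agent.Crz in
lemma av_inv_ell {b : ℂ} (hb0 : b ≠ 0) (hb : ‖b‖ < 1) : av (fun z => z⁻¹ * ell b z) = -b := by
  have hρ : 1 < 1 / ‖b‖ := (one_lt_div (norm_pos_iff.2 hb0)).2 hb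
  have hρ0 : 0 < 1 / ‖b‖ := by linarith
  have h1 : av (fun z => z⁻¹ * ell b z) = av (dslope (ell b) 0) := by
    refine av_congr fun z hz => ?_
    have hz0 : z ≠ 0 := by
      rintro rfl; simp at hz
    rw [dslope_of_ne _ hz0, slope_def_field, ell_zero, sub_zero, sub_zero]
    field_simp
  have h2 : DifferentiableOn ℂ (dslope (ell b) 0) (Metric.ball 0 (1 / ‖b‖)) :=
    (Complex.differentiableOn_dslope (Metric.isOpen_ball.mem_nhds
      (Metric.mem_ball_self hρ0))).2 (ell_diff hb0)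
  rw [h1, av_hol hρ h2, dslope_same, ell_deriv]

/-- interval form -/
lemma int_eq_av (f : ℂ → ℂ) :
    ∫ φ in (-Real.pi)..Real.pi, f (Complex.exp (φ * Complex.I)) =
      2 * Real.pi * Crest.Agent.Crz.av f := by
  rw [Crest.Agent.Crz.av_eq_integral]
  have hper : Function.Periodic (fun φ : ℝ => f (Complex.exp (φ * Complex.I))) (2 * Real.pi) := by
    intro φ
    simp only
    congr 1
    push_cast
    rw [add_mul, Complex.exp_add, Complex.exp_two_pi_mul_I, mul_one]
  have h1 := hper.intervalIntegral_add_eq (-Real.pi) 0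
  rw [show -Real.pi + 2 * Real.pi = Real.pi by ring, zero_add] at h1
  rw [h1]
  have h2 : ∀ φ : ℝ, circleMap 0 1 φ = Complex.exp (φ * Complex.I) := by
    intro φ; simp [circleMap]
  simp_rw [h2]
  rw [real_smul]
  push_cast
  have : (2 * (Real.pi : ℂ)) ≠ 0 := by
    have := Real.pi_pos
    exact_mod_cast (by positivity : (2 * Real.pi : ℝ) ≠ 0)
  rw [mul_inv_cancel_left₀ this]

lemma norm_exp_phi (φ : ℝ) : ‖Complex.exp (φ * Complex.I)‖ = 1 := Complex.norm_exp_ofReal_mul_I φ

/-- `∫ (1 - P cos φ) ℓ(e^{iφ}) = π P b` -/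
lemma int_ell {b : ℂ} (hb0 : b ≠ 0) (hb : ‖b‖ < 1) (P : ℝ) :
    ∫ φ in (-Real.pi)..Real.pi, ((1 - P * Real.cos φ : ℝ) : ℂ) * ell b (Complex.exp (φ * Complex.I)) =
      Real.pi * P * b := by
  have h1 : ∀ φ : ℝ, ((1 - P * Real.cos φ : ℝ) : ℂ) * ell b (Complex.exp (φ * Complex.I)) =
      (fun z : ℂ => ell b z - (P / 2) * (z * ell b z + z⁻¹ * ell b z)) (Complex.exp (φ * Complex.I)) := by
    intro φ
    simp only
    have : (Real.cos φ : ℂ) = (Complex.exp (φ * Complex.I) + (Complex.exp (φ * Complex.I))⁻¹) / 2 := by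
      rw [Complex.ofReal_cos, Complex.cos, ← Complex.exp_neg]
      ring_nf
    push_cast [this]
    ring
  rw [intervalIntegral.integral_congr (fun φ _ => h1 φ),
    int_eq_av (fun z : ℂ => ell b z - (P / 2) * (z * ell b z + z⁻¹ * ell b z))]
  open Crest.Agent.Crz in
  have hc1 : CC (ell b) := by
    have hρ : 1 < 1 / ‖b‖ := (one_lt_div (norm_pos_iff.2 hb0)).2 hb
    refine (ell_diff hb0).continuousOn.mono ?_
    intro z hz
    have : ‖z‖ = 1 := by simpa using hz
    simpa [this] using hρ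
  have hc2 : Crest.Agent.Crz.CC (fun z : ℂ => z * ell b z) := continuousOn_id.mul hc1
  have hc3 : Crest.Agent.Crz.CC (fun z : ℂ => z⁻¹ * ell b z) := by
    refine ContinuousOn.mul (continuousOn_inv₀.mono ?_) hc1
    intro z hz
    have : ‖z‖ = 1 := by simpa using hz
    intro h0
    rw [h0] at this
    simp at this
  have hc4 : Crest.Agent.Crz.CC (fun z : ℂ => (P / 2 : ℂ) * (z * ell b z + z⁻¹ * ell b z)) :=
    continuousOn_const.mul (hc2.add hc3)
  rw [Crest.Agent.Crz.av_sub hc1 hc4,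
    Crest.Agent.Crz.av_const_mul, Crest.Agent.Crz.av_add hc2 hc3, av_ell hb0 hb, av_mul_ell hb0 hb,
    av_inv_ell hb0 hb]
  ring

/-- `arg (c (1-bz)(1-bz'))` splitting -/
lemma arg_split {c u v : ℂ} (hc0 : 0 < c.arg) (hc1 : c.arg < Real.pi / 2)
    (hu : 0 < u.re) (hv : 0 < v.re) (him : 0 < (c * (u * v)).im) :
    (c * (u * v)).arg = c.arg + u.arg + v.arg := by
  have hu' := Complex.abs_arg_lt_pi_div_two_iff.2 (Or.inl hu)
  have hv' := Complex.abs_arg_lt_pi_div_two_iff.2 (Or.inl hv)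
  rw [abs_lt] at hu' hv'
  have hc : c ≠ 0 := by rintro rfl; simp at hc0
  have hu0 : u ≠ 0 := by rintro rfl; simp at hu
  have hv0 : v ≠ 0 := by rintro rfl; simp at hv
  have h1 : (u * v).arg = u.arg + v.arg := by
    rw [Complex.arg_mul_eq_add_arg_iff hu0 hv0]
    constructor <;> linarith [hu'.1, hu'.2, hv'.1, hv'.2]
  have h2 : 0 < Real.sin (c.arg + (u * v).arg) := by
    have e : c * (u * v) = (‖c‖ * ‖u * v‖ : ℝ) * Complex.exp ((c.arg + (u * v).arg : ℝ) * Complex.I) := by
      push_cast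
      rw [add_mul, Complex.exp_add]
      nth_rewrite 1 [← Complex.norm_mul_exp_arg_mul_I c]
      nth_rewrite 1 [← Complex.norm_mul_exp_arg_mul_I (u * v)]
      ring
    rw [e, Complex.im_ofReal_mul, Complex.exp_ofReal_mul_I_im] at him
    have hn : 0 < ‖c‖ * ‖u * v‖ := mul_pos (norm_pos_iff.2 hc) (norm_pos_iff.2 (mul_ne_zero hu0 hv0))
    exact (mul_pos_iff_of_pos_left hn).1 him
  have h3 : c.arg + (u * v).arg ≤ Real.pi := by
    by_contra hcon
    push Not at hcon
    have : Real.sin (c.arg + (u * v).arg) ≤ 0 := by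
      have h4 : Real.sin (c.arg + (u * v).arg) = - Real.sin (c.arg + (u * v).arg - Real.pi) := by
        rw [Real.sin_sub_pi]; ring
      rw [h4]
      have := Real.sin_nonneg_of_nonneg_of_le_pi (x := c.arg + (u * v).arg - Real.pi) (by linarith)
        (by rw [h1]; linarith [hu'.1, hu'.2, hv'.1, hv'.2])
      linarith
    linarith
  rw [add_assoc, ← h1, Complex.arg_mul_eq_add_arg_iff hc (mul_ne_zero hu0 hv0)]
  refine ⟨?_, h3⟩
  rw [h1]
  linarith [hu'.1, hu'.2, hv'.1, hv'.2]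

lemma continuous_ell_exp {b : ℂ} (hb : ‖b‖ < 1) :
    Continuous fun φ : ℝ => ell b (Complex.exp (φ * Complex.I)) := by
  unfold ell
  refine Continuous.clog (by fun_prop) fun φ => slit ?_
  rw [norm_mul, norm_exp_phi, mul_one]
  exact hb

lemma int_im_ell {b : ℂ} (hb0 : b ≠ 0) (hb : ‖b‖ < 1) (P : ℝ) :
    ∫ φ in (-Real.pi)..Real.pi, (1 - P * Real.cos φ) * (ell b (Complex.exp (φ * Complex.I))).im =
      Real.pi * P * b.im := by
  have h1 := int_ell hb0 hb P
  have hcont : Continuous fun φ : ℝ => ((1 - P * Real.cos φ : ℝ) : ℂ) *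
      ell b (Complex.exp (φ * Complex.I)) := by
    have := continuous_ell_exp hb
    fun_prop
  have h2 := Complex.imCLM.intervalIntegral_comp_comm
    (hcont.intervalIntegrable (μ := volume) (-Real.pi) Real.pi)
  rw [h1] at h2
  have h3 : (Real.pi * P * b : ℂ).im = Real.pi * P * b.im := by
    rw [← Complex.ofReal_mul, Complex.im_ofReal_mul]
  have h4 : ∀ φ : ℝ, Complex.imCLM (((1 - P * Real.cos φ : ℝ) : ℂ) *
      ell b (Complex.exp (φ * Complex.I))) =
      (1 - P * Real.cos φ) * (ell b (Complex.exp (φ * Complex.I))).im := by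
    intro φ
    rw [Complex.imCLM_apply, Complex.im_ofReal_mul]
  rw [← h3, ← Complex.imCLM_apply, ← h2]
  exact intervalIntegral.integral_congr (fun φ _ => (h4 φ).symm)

lemma int_im_ell_neg {b : ℂ} (hb0 : b ≠ 0) (hb : ‖b‖ < 1) (P : ℝ) :
    ∫ φ in (-Real.pi)..Real.pi, (1 - P * Real.cos φ) *
      (ell b (Complex.exp (-(φ * Complex.I)))).im = Real.pi * P * b.im := by
  have h1 := intervalIntegral.integral_comp_neg (a := -Real.pi) (b := Real.pi)
    (fun φ : ℝ => (1 - P * Real.cos φ) * (ell b (Complex.exp (φ * Complex.I))).im)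
  rw [neg_neg, int_im_ell hb0 hb P] at h1
  rw [← h1]
  refine intervalIntegral.integral_congr (fun φ _ => ?_)
  simp only [Real.cos_neg, Complex.ofReal_neg, neg_mul]

end CA

open CA in
theorem circle_avg {P Q a : ℝ} (ha : 1 < a) (hP : 0 < P) (hQ : 0 < Q)
    (h : P ^ 2 / a ^ 2 + Q ^ 2 / (a ^ 2 - 1) = 1) :
    (2 * Real.pi)⁻¹ * ∫ φ in (-Real.pi)..Real.pi, (Q - (1 - P * Real.cos φ) *
      Complex.arg (((1 - P * Real.cos φ : ℝ) : ℂ) + Q * Complex.I)) = phi2 a := by
  have hpi := Real.pi_pos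
  have ha0 : 0 < a := by linarith
  have ha2 : 0 < a ^ 2 - 1 := by nlinarith
  have hQ2 : Q ^ 2 = (a ^ 2 - 1) * (1 - P ^ 2 / a ^ 2) := by
    have : Q ^ 2 / (a ^ 2 - 1) = 1 - P ^ 2 / a ^ 2 := by linarith
    rw [← this]; field_simp
  have hPa : P < a := by
    have h1 : P ^ 2 / a ^ 2 < 1 := by
      have : 0 < Q ^ 2 / (a ^ 2 - 1) := by positivity
      linarith
    rw [div_lt_one (by positivity)] at h1
    nlinarith
  obtain ⟨θ, hθ⟩ : ∃ θ, θ = Real.arccos (1 / a) := ⟨_, rfl⟩
  have h1a : 0 < 1 / a ∧ 1 / a < 1 := ⟨by positivity, (div_lt_one ha0).2 ha⟩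
  have hcos : Real.cos θ = 1 / a := by rw [hθ]; exact Real.cos_arccos (by linarith) (by linarith)
  have hsin : Real.sin θ = √(a ^ 2 - 1) / a := by
    rw [hθ, Real.sin_arccos, show 1 - (1 / a) ^ 2 = (a ^ 2 - 1) / a ^ 2 by field_simp,
      Real.sqrt_div' _ (by positivity), Real.sqrt_sq ha0.le]
  have hθ0 : 0 < θ := by rw [hθ]; exact Real.arccos_pos.2 h1a.2
  have hθ2 : θ < Real.pi / 2 := by
    rw [hθ, Real.arccos_lt_pi_div_two]; exact h1a.1
  obtain ⟨κ, hκ⟩ : ∃ κ, κ = √(a ^ 2 - P ^ 2) := ⟨_, rfl⟩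
  have haP : 0 < a ^ 2 - P ^ 2 := by nlinarith
  have hκ0 : 0 < κ := by rw [hκ]; exact Real.sqrt_pos.2 haP
  have hκ2 : κ ^ 2 = a ^ 2 - P ^ 2 := by rw [hκ]; exact Real.sq_sqrt haP.le
  obtain ⟨β, hβ⟩ : ∃ β, β = (a - κ) / P := ⟨_, rfl⟩
  have hκa : κ < a := by nlinarith
  have hβ0 : 0 < β := by rw [hβ]; exact div_pos (by linarith) hP
  have hβ1 : β < 1 := by
    rw [hβ, div_lt_one hP]
    nlinarith
  have hβinv : β * (a + κ) = P := by
    rw [hβ]
    field_simp
    nlinarith
  -- P κ sinθ / P = Q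
  have hQval : κ * Real.sin θ = Q := by
    have h1 : (κ * Real.sin θ) ^ 2 = Q ^ 2 := by
      rw [mul_pow, hκ2, hsin, div_pow, Real.sq_sqrt ha2.le, hQ2]
      field_simp
    have h2 : 0 < κ * Real.sin θ :=
      mul_pos hκ0 (Real.sin_pos_of_pos_of_lt_pi hθ0 (by linarith))
    nlinarith
  obtain ⟨b, hb⟩ : ∃ b : ℂ, b = (β : ℂ) * Complex.exp ((-θ : ℝ) * Complex.I) := ⟨_, rfl⟩
  obtain ⟨c, hc⟩ : ∃ c : ℂ, c = ((P / (2 * β) : ℝ) : ℂ) * Complex.exp ((θ : ℝ) * Complex.I) :=
    ⟨_, rfl⟩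
  have hbn : ‖b‖ = β := by
    rw [hb, norm_mul, Complex.norm_exp_ofReal_mul_I, mul_one, Complex.norm_real,
      Real.norm_of_nonneg hβ0.le]
  have hb0 : b ≠ 0 := by rw [← norm_pos_iff, hbn]; exact hβ0
  have hb1 : ‖b‖ < 1 := by rw [hbn]; exact hβ1
  have hbim : b.im = -(β * Real.sin θ) := by
    rw [hb, Complex.im_ofReal_mul, Complex.exp_ofReal_mul_I_im, Real.sin_neg]
    ring
  have hcarg : c.arg = θ := by
    rw [hc, Complex.exp_mul_I, ← Complex.ofReal_cos, ← Complex.ofReal_sin]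
    have := Complex.arg_mul_cos_add_sin_mul_I (r := P / (2 * β)) (by positivity)
      (θ := θ) ⟨by linarith, by linarith⟩
    simpa using this
  have hcb : c * b = (P / 2 : ℝ) := by
    rw [hc, hb]
    have : Complex.exp ((θ : ℝ) * Complex.I) * Complex.exp ((-θ : ℝ) * Complex.I) = 1 := by
      rw [← Complex.exp_add]
      simp
    calc ((P / (2 * β) : ℝ) : ℂ) * Complex.exp ((θ : ℝ) * Complex.I) *
          ((β : ℂ) * Complex.exp ((-θ : ℝ) * Complex.I))
        = ((P / (2 * β) : ℝ) : ℂ) * (β : ℂ) * (Complex.exp ((θ : ℝ) * Complex.I) *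
          Complex.exp ((-θ : ℝ) * Complex.I)) := by ring
      _ = ((P / 2 : ℝ) : ℂ) := by
          rw [this, mul_one, ← Complex.ofReal_mul]
          congr 1
          field_simp
  have hsum : c + (P / 2 : ℝ) * b = 1 + Q * Complex.I := by
    apply Complex.ext
    · have : c.re = P / (2 * β) * Real.cos θ := by
        rw [hc, Complex.re_ofReal_mul, Complex.exp_ofReal_mul_I_re]
      have h2 : b.re = β * Real.cos θ := by
        rw [hb, Complex.re_ofReal_mul, Complex.exp_ofReal_mul_I_re, Real.cos_neg]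
      rw [Complex.add_re, Complex.re_ofReal_mul, this, h2, hcos]
      simp
      have h3 : β⁻¹ = (a + κ) / P := by
        rw [inv_eq_one_div, div_eq_div_iff hβ0.ne' hP.ne']; linarith
      have h4 : P / (2 * β) = (a + κ) / 2 := by
        rw [div_eq_div_iff (by positivity) (by norm_num)]; linarith
      have h5 : P * β = a - κ := by rw [hβ]; field_simp
      rw [h4]
      field_simp
      linarith
    · have : c.im = P / (2 * β) * Real.sin θ := by
        rw [hc, Complex.im_ofReal_mul, Complex.exp_ofReal_mul_I_im]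
      rw [Complex.add_im, Complex.im_ofReal_mul, this, hbim]
      simp
      have h4 : P / (2 * β) = (a + κ) / 2 := by
        rw [div_eq_div_iff (by positivity) (by norm_num)]; linarith
      have h5 : P * β = a - κ := by rw [hβ]; field_simp
      rw [h4, ← hQval]
      linear_combination (-Real.sin θ / 2) * h5
  have hfac : ∀ φ : ℝ, ((1 - P * Real.cos φ : ℝ) : ℂ) + Q * Complex.I =
      c * ((1 - b * Complex.exp (φ * Complex.I)) * (1 - b * Complex.exp (-(φ * Complex.I)))) := by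
    intro φ
    have h1 : Complex.exp (φ * Complex.I) * Complex.exp (-(φ * Complex.I)) = 1 := by
      rw [← Complex.exp_add]; simp
    have h2 : (Real.cos φ : ℂ) = (Complex.exp (φ * Complex.I) + Complex.exp (-(φ * Complex.I))) / 2 := by
      rw [Complex.ofReal_cos, Complex.cos]
      ring_nf
    push_cast at hsum hcb h2 ⊢
    rw [h2]
    linear_combination (-1 : ℂ) * hsum + (Complex.exp (φ * Complex.I) +
      Complex.exp (-(φ * Complex.I)) - b) * hcb - c * b ^ 2 * h1
  have hre : ∀ z : ℂ, ‖z‖ = 1 → 0 < (1 - b * z).re := by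
    intro z hz
    have h1 : (b * z).re ≤ ‖b * z‖ := Complex.re_le_norm _
    rw [norm_mul, hz, mul_one] at h1
    simp only [sub_re, one_re]
    linarith
  have harg : ∀ φ : ℝ, Complex.arg (((1 - P * Real.cos φ : ℝ) : ℂ) + Q * Complex.I) =
      θ + (ell b (Complex.exp (φ * Complex.I))).im + (ell b (Complex.exp (-(φ * Complex.I)))).im := by
    intro φ
    have hn1 : ‖Complex.exp (φ * Complex.I)‖ = 1 := norm_exp_phi φ
    have hn2 : ‖Complex.exp (-(φ * Complex.I))‖ = 1 := by
      rw [Complex.exp_neg, norm_inv, hn1, inv_one]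
    rw [hfac, arg_split (by rw [hcarg]; exact hθ0) (by rw [hcarg]; exact hθ2) (hre _ hn1)
      (hre _ hn2) (by rw [← hfac]; simpa using hQ), hcarg]
    simp only [ell, Complex.log_im]
  have hce := continuous_ell_exp hb1
  have hce' : Continuous fun φ : ℝ => ell b (Complex.exp (-(φ * Complex.I))) := by
    have := hce.comp (continuous_neg (G := ℝ))
    refine this.congr fun φ => ?_
    simp
  have i1 : IntervalIntegrable (fun φ : ℝ => Q - (1 - P * Real.cos φ) * θ) volume
      (-Real.pi) Real.pi := (by fun_prop : Continuous _).intervalIntegrable _ _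
  have i2 : IntervalIntegrable (fun φ : ℝ => (1 - P * Real.cos φ) *
      (ell b (Complex.exp (φ * Complex.I))).im) volume (-Real.pi) Real.pi :=
    (Continuous.mul (by fun_prop) (Complex.continuous_im.comp hce)).intervalIntegrable _ _
  have i3 : IntervalIntegrable (fun φ : ℝ => (1 - P * Real.cos φ) *
      (ell b (Complex.exp (-(φ * Complex.I)))).im) volume (-Real.pi) Real.pi :=
    (Continuous.mul (by fun_prop) (Complex.continuous_im.comp hce')).intervalIntegrable _ _
  have hI : ∫ φ in (-Real.pi)..Real.pi, (Q - (1 - P * Real.cos φ) *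
      Complex.arg (((1 - P * Real.cos φ : ℝ) : ℂ) + Q * Complex.I)) =
      2 * Real.pi * (Q - θ + P * β * Real.sin θ) := by
    have e : ∀ φ : ℝ, (Q - (1 - P * Real.cos φ) *
      Complex.arg (((1 - P * Real.cos φ : ℝ) : ℂ) + Q * Complex.I)) =
      (Q - (1 - P * Real.cos φ) * θ) - (1 - P * Real.cos φ) *
      (ell b (Complex.exp (φ * Complex.I))).im - (1 - P * Real.cos φ) *
      (ell b (Complex.exp (-(φ * Complex.I)))).im := by
      intro φ
      rw [harg]
      ring
    rw [intervalIntegral.integral_congr (fun φ _ => e φ),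
      intervalIntegral.integral_sub (i1.sub i2) i3, intervalIntegral.integral_sub i1 i2,
      int_im_ell hb0 hb1, int_im_ell_neg hb0 hb1, hbim]
    have e2 : ∫ φ in (-Real.pi)..Real.pi, (Q - (1 - P * Real.cos φ) * θ) = 2 * Real.pi * (Q - θ) := by
      have : ∀ φ ∈ Set.uIcc (-Real.pi) Real.pi, HasDerivAt (fun φ => Q * φ - (φ - P * Real.sin φ) * θ)
          (Q - (1 - P * Real.cos φ) * θ) φ := by
        intro φ _
        have h1 := (((hasDerivAt_id' φ).sub ((Real.hasDerivAt_sin φ).const_mul P)).mul_const θ)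
        have h2 := ((hasDerivAt_id' φ).const_mul Q).sub h1
        exact h2.congr_deriv (by ring)
      rw [intervalIntegral.integral_eq_sub_of_hasDerivAt this i1]
      simp
      ring
    rw [e2]
    ring
  rw [hI]
  unfold phi2
  rw [← hθ]
  have h5 : P * β = a - κ := by rw [hβ]; field_simp
  have h6 : a * Real.sin θ = √(a ^ 2 - 1) := by rw [hsin]; field_simp
  rw [← h6, h5, ← hQval]
  field_simp
  ring

end Crest.Agent.Propeller
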