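import Crest.Agent.Propeller.Gauss3

/-! Chunk B: reduction of the 2-dimensional Gaussian integral to a circle average. -/

set_option autoImplicit false

open MeasureTheory ProbabilityTheory Module Set
open scoped RealInnerProductSpace ENNReal

namespace Crest.Agent.Propeller

/-- polar coordinates in the plane -/
lemma lintegral_plane (G : ℝ → ℝ → ℝ≥0∞) (hG : Measurable (Function.uncurry G)) :
    ∫⁻ x : ℝ, ∫⁻ y : ℝ, G x y =
      ∫⁻ ρ in Ioi (0 : ℝ), ∫⁻ φ in Ioo (-Real.pi) Real.pi,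
        ENNReal.ofReal ρ * G (ρ * Real.cos φ) (ρ * Real.sin φ) := by
  have h1 : ∫⁻ x : ℝ, ∫⁻ y : ℝ, G x y = ∫⁻ p : ℝ × ℝ, Function.uncurry G p := by
    rw [Measure.volume_eq_prod, lintegral_prod _ hG.aemeasurable]
    rfl
  rw [h1, ← lintegral_comp_polarCoord_symm, polarCoord_target, volume_restrict_prod]
  rw [lintegral_prod]
  · refine lintegral_congr fun ρ => lintegral_congr fun φ => ?_
    simp only [polarCoord_symm_apply, smul_eq_mul, Function.uncurry]
  · refine Measurable.aemeasurable ?_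
    exact (ENNReal.measurable_ofReal.comp measurable_fst).smul
      (hG.comp continuous_polarCoord_symm.measurable)

/-- `Q - w arg(w+iQ)` -/
noncomputable def gf2 (Q w : ℝ) : ℝ := Q - w * Real.arccos (w / √(w ^ 2 + Q ^ 2))

/-- the angular integral, `d = 2` -/
lemma lint_angle2 {Q : ℝ} (hQ : 0 ≤ Q) (w : ℝ) :
    0 ≤ gf2 Q w ∧ ∫⁻ b in Ioo (0 : ℝ) Real.pi,
      ENNReal.ofReal (Real.sin b * (Q * Real.cos b - w * Real.sin b)) =
    ENNReal.ofReal (gf2 Q w / 2) := by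
  rcases eq_or_lt_of_le (show 0 ≤ w ^ 2 + Q ^ 2 by positivity) with h | h
  · have hw : w = 0 := by nlinarith [sq_nonneg w, sq_nonneg Q]
    have hQ0 : Q = 0 := by nlinarith [sq_nonneg w, sq_nonneg Q]
    subst hw; subst hQ0
    simp [gf2]
  · set D := √(w ^ 2 + Q ^ 2) with hDdef
    have hD : 0 < D := Real.sqrt_pos.2 h
    have hD2 : D ^ 2 = w ^ 2 + Q ^ 2 := Real.sq_sqrt h.le
    have hwD : |w| ≤ D := by
      rw [hDdef]; apply Real.abs_le_sqrt; nlinarith [sq_nonneg Q]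
    have hwD' : -1 ≤ w / D ∧ w / D ≤ 1 := by
      rw [le_div_iff₀ hD, div_le_iff₀ hD]
      have := abs_le.1 hwD
      constructor <;> linarith
    set ψ := Real.arccos (w / D) with hψ
    have hcos : Real.cos ψ = w / D := Real.cos_arccos hwD'.1 hwD'.2
    have hsin : Real.sin ψ = Q / D := by
      rw [hψ, Real.sin_arccos]
      have : 1 - (w / D) ^ 2 = (Q / D) ^ 2 := by
        field_simp; linarith
      rw [this, Real.sqrt_sq (by positivity)]
    have hψ0 : 0 ≤ ψ := Real.arccos_nonneg _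
    have hψπ : ψ ≤ Real.pi := Real.arccos_le_pi _
    have hid : ∀ b, Q * Real.cos b - w * Real.sin b = D * Real.sin (ψ - b) := by
      intro b
      rw [Real.sin_sub, hsin, hcos]
      field_simp
    have hsub : Ioo (0 : ℝ) ψ ⊆ Ioo (0 : ℝ) Real.pi := Ioo_subset_Ioo_right hψπ
    have e1 : ∫⁻ b in Ioo (0 : ℝ) Real.pi,
        ENNReal.ofReal (Real.sin b * (Q * Real.cos b - w * Real.sin b)) =
        ∫⁻ b in Ioo (0 : ℝ) ψ,
        ENNReal.ofReal (Real.sin b * (Q * Real.cos b - w * Real.sin b)) := by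
      have hrr : (volume.restrict (Ioo (0 : ℝ) Real.pi)).restrict (Ioo (0 : ℝ) ψ) =
          volume.restrict (Ioo (0 : ℝ) ψ) := by
        rw [Measure.restrict_restrict measurableSet_Ioo, inter_eq_self_of_subset_left hsub]
      rw [← hrr, ← lintegral_indicator (measurableSet_Ioo (a := (0 : ℝ)) (b := ψ))]
      refine setLIntegral_congr_fun measurableSet_Ioo fun b hb => ?_
      by_cases hbψ : b ∈ Ioo 0 ψ
      · rw [indicator_of_mem hbψ]
      · rw [indicator_of_notMem hbψ]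
        apply ENNReal.ofReal_of_nonpos
        have hb' : ψ ≤ b := by
          by_contra hcon
          exact hbψ ⟨hb.1, not_le.1 hcon⟩
        rw [hid]
        apply mul_nonpos_of_nonneg_of_nonpos (Real.sin_pos_of_pos_of_lt_pi hb.1 hb.2).le
        apply mul_nonpos_of_nonneg_of_nonpos hD.le
        apply Real.sin_nonpos_of_nonpos_of_neg_pi_le (by linarith)
        linarith [hb.2]
    have hFc : ContinuousOn (fun b => Q * Real.sin b ^ 2 / 2 - w * (b - Real.sin b * Real.cos b) / 2)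
        (Icc 0 ψ) := by fun_prop
    have hd : ∀ x ∈ Ioo (0 : ℝ) ψ, HasDerivAt
        (fun b => Q * Real.sin b ^ 2 / 2 - w * (b - Real.sin b * Real.cos b) / 2)
        (Real.sin x * (Q * Real.cos x - w * Real.sin x)) x := by
      intro x _
      have h1 := (((Real.hasDerivAt_sin x).pow 2).const_mul Q).div_const 2
      have h2 := (((hasDerivAt_id' x).sub ((Real.hasDerivAt_sin x).mul
        (Real.hasDerivAt_cos x))).const_mul w).div_const 2
      have h3 := h1.sub h2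
      have hc : Real.cos x ^ 2 = 1 - Real.sin x ^ 2 := by linarith [Real.sin_sq_add_cos_sq x]
      refine h3.congr_deriv ?_
      push_cast
      linear_combination (w / 2) * hc
    have hnn : ∀ x ∈ Ioo (0 : ℝ) ψ, 0 ≤ Real.sin x * (Q * Real.cos x - w * Real.sin x) := by
      intro x hx
      rw [hid]
      have h1 : 0 < Real.sin (ψ - x) := Real.sin_pos_of_pos_of_lt_pi (by linarith [hx.2])
        (by linarith [hx.1])
      have h2 : 0 < Real.sin x := Real.sin_pos_of_pos_of_lt_pi hx.1 (by linarith [hx.2])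
      positivity
    have hval : Q * Real.sin ψ ^ 2 / 2 - w * (ψ - Real.sin ψ * Real.cos ψ) / 2 = gf2 Q w / 2 := by
      unfold gf2
      rw [← hDdef, ← hψ, hsin, hcos]
      field_simp
      linear_combination (-Q) * hD2
    constructor
    · have hmono : MonotoneOn (fun b => Q * Real.sin b ^ 2 / 2 -
          w * (b - Real.sin b * Real.cos b) / 2) (Icc 0 ψ) := by
        apply monotoneOn_of_deriv_nonneg (convex_Icc 0 ψ) hFc
        · intro x hx
          rw [interior_Icc] at hx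
          exact (hd x hx).differentiableAt.differentiableWithinAt
        · intro x hx
          rw [interior_Icc] at hx
          rw [(hd x hx).deriv]
          exact hnn x hx
      have := hmono (left_mem_Icc.2 hψ0) (right_mem_Icc.2 hψ0) hψ0
      simp only [hval, Real.sin_zero, Real.cos_zero] at this
      linarith
    · rw [e1, lint_Ioo_of_hasDerivAt hψ0 _ _ hFc hd hnn]
      congr 1
      simp only [hval, Real.sin_zero, Real.cos_zero]
      ring

/-- the innermost double integral -/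
lemma inner2 {Q : ℝ} (hQ : 0 ≤ Q) (w c : ℝ) (hc : 0 ≤ c) :
    ∫⁻ t : ℝ, ∫⁻ ρ in Ioi (0 : ℝ), ENNReal.ofReal (c * (ρ * Real.exp (-(ρ ^ 2 + t ^ 2) / 2))) *
      ENNReal.ofReal (Q * t - w * ρ) =
    ENNReal.ofReal (c * gf2 Q w) := by
  rw [lintegral_halfplane (fun t ρ => ENNReal.ofReal (c * (ρ * Real.exp (-(ρ ^ 2 + t ^ 2) / 2))) *
      ENNReal.ofReal (Q * t - w * ρ)) (by unfold Function.uncurry; fun_prop)]
  have hg := (lint_angle2 hQ w).1
  have h1 : ∀ R ∈ Ioi (0 : ℝ), ∫⁻ φ in Ioo (0 : ℝ) Real.pi, ENNReal.ofReal R *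
      (ENNReal.ofReal (c * ((R * Real.sin φ) *
        Real.exp (-((R * Real.sin φ) ^ 2 + (R * Real.cos φ) ^ 2) / 2))) *
      ENNReal.ofReal (Q * (R * Real.cos φ) - w * (R * Real.sin φ))) =
      ENNReal.ofReal (R ^ 3 * Real.exp (-R ^ 2 / 2)) * ENNReal.ofReal (c * (gf2 Q w / 2)) := by
    intro R hR
    have hR : 0 < R := hR
    have h2 : ∀ φ ∈ Ioo (0 : ℝ) Real.pi, ENNReal.ofReal R *
      (ENNReal.ofReal (c * ((R * Real.sin φ) *
        Real.exp (-((R * Real.sin φ) ^ 2 + (R * Real.cos φ) ^ 2) / 2))) *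
      ENNReal.ofReal (Q * (R * Real.cos φ) - w * (R * Real.sin φ))) =
      ENNReal.ofReal (c * (R ^ 3 * Real.exp (-R ^ 2 / 2))) *
        ENNReal.ofReal (Real.sin φ * (Q * Real.cos φ - w * Real.sin φ)) := by
      intro φ hφ
      have hs : 0 < Real.sin φ := Real.sin_pos_of_pos_of_lt_pi hφ.1 hφ.2
      have e1 : (R * Real.sin φ) ^ 2 + (R * Real.cos φ) ^ 2 = R ^ 2 := by
        linear_combination R ^ 2 * Real.sin_sq_add_cos_sq φ
      rw [e1, ← ENNReal.ofReal_mul (by positivity), ← ENNReal.ofReal_mul (by positivity),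
        ← ENNReal.ofReal_mul (by positivity)]
      congr 1
      ring
    rw [setLIntegral_congr_fun measurableSet_Ioo h2, lintegral_const_mul _ (by fun_prop),
      (lint_angle2 hQ w).2, ← ENNReal.ofReal_mul (by positivity), ← ENNReal.ofReal_mul (by positivity)]
    congr 1
    ring
  rw [setLIntegral_congr_fun measurableSet_Ioi h1, lintegral_mul_const _ (by fun_prop), lint_R3,
    ← ENNReal.ofReal_mul (by positivity)]
  congr 1
  ring

set_option maxHeartbeats 1000000 in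
theorem main2 (P : ℝ) {Q : ℝ} (hQ : 0 ≤ Q) :
    ∫⁻ v : Fin 3 → ℝ, ENNReal.ofReal (P * v 0 + Q * v 2 - √(v 0 ^ 2 + v 1 ^ 2))
      ∂(Measure.pi fun _ => gaussianReal 0 1) =
    ENNReal.ofReal (1 / (2 * Real.pi * √(2 * Real.pi))) *
      ∫⁻ φ in Ioo (-Real.pi) Real.pi, ENNReal.ofReal (gf2 Q (1 - P * Real.cos φ)) := by
  obtain ⟨c, hc⟩ : ∃ c : ℝ, c = (√(2 * Real.pi))⁻¹ := ⟨_, rfl⟩
  have hc0 : 0 < c := by rw [hc]; positivity
  have hpd : ∀ x, pd x = c * Real.exp (-x ^ 2 / 2) := fun x => by rw [hc]; rfl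
  obtain ⟨Φ, hΦ⟩ : ∃ Φ : ℝ → ℝ → ℝ≥0∞, Φ = fun x y =>
    ∫⁻ t, ENNReal.ofReal (pd t) * ENNReal.ofReal (P * x + Q * t - √(x ^ 2 + y ^ 2)) := ⟨_, rfl⟩
  have hΦm : Measurable (Function.uncurry Φ) := by
    have : Measurable fun q : (ℝ × ℝ) × ℝ => ENNReal.ofReal (pd q.2) *
        ENNReal.ofReal (P * q.1.1 + Q * q.2 - √(q.1.1 ^ 2 + q.1.2 ^ 2)) := by fun_prop
    rw [hΦ]
    exact this.lintegral_prod_right'
  have hΦm1 : ∀ x, Measurable (Φ x) := fun x => hΦm.of_uncurry_left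
  -- step 1
  have s1 : ∫⁻ v : Fin 3 → ℝ, ENNReal.ofReal (P * v 0 + Q * v 2 - √(v 0 ^ 2 + v 1 ^ 2))
      ∂(Measure.pi fun _ => gaussianReal 0 1) =
      ∫⁻ x, ENNReal.ofReal (pd x) * ∫⁻ y, ENNReal.ofReal (pd y) * Φ x y := by
    refine (pi3_gaussian (fun x y t => ENNReal.ofReal (P * x + Q * t - √(x ^ 2 + y ^ 2)))
      (by fun_prop)).trans ?_
    simp only [hΦ]
  obtain ⟨H, hH⟩ : ∃ H : ℝ → ℝ → ℝ≥0∞,
    H = fun x y => ENNReal.ofReal (pd x) * (ENNReal.ofReal (pd y) * Φ x y) := ⟨_, rfl⟩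
  have hHm : Measurable (Function.uncurry H) := by
    have : Function.uncurry H = fun q : ℝ × ℝ => ENNReal.ofReal (pd q.1) *
      (ENNReal.ofReal (pd q.2) * Function.uncurry Φ q) := by funext q; rw [hH]; rfl
    rw [this]
    exact Measurable.mul (by fun_prop) (Measurable.mul (by fun_prop) hΦm)
  have s2 : ∫⁻ x, ENNReal.ofReal (pd x) * ∫⁻ y, ENNReal.ofReal (pd y) * Φ x y =
      ∫⁻ x, ∫⁻ y, H x y := by
    refine lintegral_congr fun x => ?_
    have hm : Measurable fun y : ℝ => ENNReal.ofReal (pd y) * Φ x y :=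
      Measurable.mul (by fun_prop) (hΦm1 x)
    rw [hH]
    exact (lintegral_const_mul _ hm).symm
  obtain ⟨L, hL⟩ : ∃ L : ℝ → ℝ → ℝ → ℝ≥0∞, L = fun φ t ρ =>
    ENNReal.ofReal (c ^ 3 * (ρ * Real.exp (-(ρ ^ 2 + t ^ 2) / 2))) *
      ENNReal.ofReal (Q * t - (1 - P * Real.cos φ) * ρ) := ⟨_, rfl⟩
  have s5 : ∀ ρ ∈ Ioi (0 : ℝ), ∀ φ ∈ Ioo (-Real.pi) Real.pi,
      ENNReal.ofReal ρ * H (ρ * Real.cos φ) (ρ * Real.sin φ) = ∫⁻ t, L φ t ρ := by
    intro ρ hρ φ _
    have hρ : 0 < ρ := hρ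
    have hsq : √((ρ * Real.cos φ) ^ 2 + (ρ * Real.sin φ) ^ 2) = ρ := by
      rw [show (ρ * Real.cos φ) ^ 2 + (ρ * Real.sin φ) ^ 2 = ρ ^ 2 by
        linear_combination ρ ^ 2 * Real.sin_sq_add_cos_sq φ]
      exact Real.sqrt_sq hρ.le
    simp only [hH, hΦ, hL]
    rw [hsq]
    have hm : Measurable fun t : ℝ => ENNReal.ofReal (pd t) *
        ENNReal.ofReal (P * (ρ * Real.cos φ) + Q * t - ρ) := by fun_prop
    have e1 : ENNReal.ofReal ρ * (ENNReal.ofReal (pd (ρ * Real.cos φ)) *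
        (ENNReal.ofReal (pd (ρ * Real.sin φ)) * ∫⁻ t, ENNReal.ofReal (pd t) *
        ENNReal.ofReal (P * (ρ * Real.cos φ) + Q * t - ρ))) =
        ENNReal.ofReal (c ^ 2 * (ρ * Real.exp (-ρ ^ 2 / 2))) *
        ∫⁻ t, ENNReal.ofReal (pd t) * ENNReal.ofReal (P * (ρ * Real.cos φ) + Q * t - ρ) := by
      generalize (∫⁻ t, ENNReal.ofReal (pd t) *
        ENNReal.ofReal (P * (ρ * Real.cos φ) + Q * t - ρ)) = I
      have e2 : ENNReal.ofReal ρ * (ENNReal.ofReal (pd (ρ * Real.cos φ)) *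
        (ENNReal.ofReal (pd (ρ * Real.sin φ)) * I)) =
          (ENNReal.ofReal ρ * ENNReal.ofReal (pd (ρ * Real.cos φ)) *
        ENNReal.ofReal (pd (ρ * Real.sin φ))) * I := by ring
      have hps := pd_nonneg (ρ * Real.cos φ)
      rw [e2, ← ENNReal.ofReal_mul hρ.le,
        ← ENNReal.ofReal_mul (mul_nonneg hρ.le hps)]
      congr 2
      rw [hpd, hpd]
      have : Real.exp (-ρ ^ 2 / 2) = Real.exp (-(ρ * Real.cos φ) ^ 2 / 2) *
          Real.exp (-(ρ * Real.sin φ) ^ 2 / 2) := by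
        rw [← Real.exp_add]
        congr 1
        linear_combination (ρ ^ 2 / 2) * Real.sin_sq_add_cos_sq φ
      rw [this]
      ring
    rw [e1, ← lintegral_const_mul _ hm]
    refine lintegral_congr fun t => ?_
    rw [← mul_assoc, ← ENNReal.ofReal_mul (by positivity), hpd]
    congr 2
    · rw [show -(ρ ^ 2 + t ^ 2) / 2 = -ρ ^ 2 / 2 + -t ^ 2 / 2 by ring, Real.exp_add]
      ring
    · ring
  have hLm : Measurable fun q : (ℝ × ℝ) × ℝ => L q.1.2 q.2 q.1.1 := by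
    simp only [hL]; fun_prop
  have hLm' : Measurable (Function.uncurry fun ρ φ : ℝ => ∫⁻ t, L φ t ρ) := by
    have h1 : Measurable fun p : ℝ × ℝ => ∫⁻ t, L p.2 t p.1 := hLm.lintegral_prod_right'
    exact h1
  have hLm2 : ∀ φ, Measurable fun q : ℝ × ℝ => L φ q.2 q.1 := by
    intro φ
    simp only [hL]; fun_prop
  have s7 : ∀ φ, ∫⁻ ρ in Ioi (0 : ℝ), ∫⁻ t, L φ t ρ =
        ENNReal.ofReal (c ^ 3 * gf2 Q (1 - P * Real.cos φ)) := by
    intro φ
    rw [lintegral_lintegral_swap (hLm2 φ).aemeasurable, hL]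
    exact inner2 hQ (1 - P * Real.cos φ) (c ^ 3) (by positivity)
  have t2 : ∫⁻ ρ in Ioi (0 : ℝ), ∫⁻ φ in Ioo (-Real.pi) Real.pi,
      ENNReal.ofReal ρ * H (ρ * Real.cos φ) (ρ * Real.sin φ) =
      ∫⁻ ρ in Ioi (0 : ℝ), ∫⁻ φ in Ioo (-Real.pi) Real.pi, ∫⁻ t, L φ t ρ := by
    refine setLIntegral_congr_fun measurableSet_Ioi fun ρ hρ => ?_
    exact setLIntegral_congr_fun measurableSet_Ioo fun φ hφ => s5 ρ hρ φ hφ
  have t3 : ∫⁻ ρ in Ioi (0 : ℝ), ∫⁻ φ in Ioo (-Real.pi) Real.pi, ∫⁻ t, L φ t ρ =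
      ∫⁻ φ in Ioo (-Real.pi) Real.pi, ∫⁻ ρ in Ioi (0 : ℝ), ∫⁻ t, L φ t ρ :=
    lintegral_lintegral_swap hLm'.aemeasurable
  have t4 : ∫⁻ φ in Ioo (-Real.pi) Real.pi, ∫⁻ ρ in Ioi (0 : ℝ), ∫⁻ t, L φ t ρ =
      ∫⁻ φ in Ioo (-Real.pi) Real.pi,
        ENNReal.ofReal (c ^ 3 * gf2 Q (1 - P * Real.cos φ)) :=
    lintegral_congr fun φ => s7 φ
  rw [s1, s2, lintegral_plane H hHm, t2, t3, t4]
  clear s1 s2 s5 s7 t2 t3 t4
  have hgm : Measurable fun φ : ℝ => gf2 Q (1 - P * Real.cos φ) := by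
    unfold gf2
    exact Measurable.sub (by fun_prop) (Measurable.mul (by fun_prop)
      (Real.continuous_arccos.measurable.comp (by fun_prop)))
  rw [← lintegral_const_mul _ (by fun_prop)]
  refine lintegral_congr fun φ => ?_
  rw [← ENNReal.ofReal_mul (by positivity)]
  congr 2
  rw [hc]
  have h3 : √(2 * Real.pi) ^ 2 = 2 * Real.pi := Real.sq_sqrt (by positivity)
  rw [one_div, inv_pow]
  congr 1
  rw [pow_succ, h3]

end Crest.Agent.Propeller
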