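import Crest.Agent.Propeller.PolarAux

/-! Chunk A helpers: one-variable integrals. -/

set_option autoImplicit false

open MeasureTheory ProbabilityTheory Module Set
open scoped RealInnerProductSpace ENNReal

namespace Crest.Agent.Propeller

/-- `∫₀^∞ R⁴ e^{-R²/2} dR = 3√(π/2) = (3/2) √(2π)` -/
lemma lint_R4 : ∫⁻ R in Ioi (0 : ℝ), ENNReal.ofReal (R ^ 4 * Real.exp (-R ^ 2 / 2)) =
    ENNReal.ofReal (3 / 2 * √(2 * Real.pi)) := by
  have h1 : IntegrableOn (fun x : ℝ => x ^ (4 : ℝ) * Real.exp (-(1 / 2) * x ^ (2 : ℝ))) (Ioi 0) :=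
    integrableOn_rpow_mul_exp_neg_mul_rpow (by norm_num) (by norm_num) (by norm_num)
  have h2 : ∫ x in Ioi (0 : ℝ), x ^ (4 : ℝ) * Real.exp (-(1 / 2) * x ^ (2 : ℝ)) =
      3 / 2 * √(2 * Real.pi) := by
    rw [integral_rpow_mul_exp_neg_mul_rpow (by norm_num) (by norm_num) (by norm_num)]
    have hG : Real.Gamma ((4 + 1) / 2) = 3 / 4 * √Real.pi := by
      rw [show ((4 : ℝ) + 1) / 2 = (1 / 2 + 1) + 1 by norm_num, Real.Gamma_add_one (by norm_num),
        Real.Gamma_add_one (by norm_num), Real.Gamma_one_half_eq]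
      ring
    rw [hG]
    have h3 : ((1 : ℝ) / 2) ^ (-(4 + 1) / 2 : ℝ) = 4 * √2 := by
      rw [one_div, Real.inv_rpow (by norm_num), ← Real.rpow_neg (by norm_num),
        show (-(-(4 + 1) / 2) : ℝ) = 2 + 1 / 2 by norm_num, Real.rpow_add (by norm_num),
        ← Real.sqrt_eq_rpow]
      norm_num
    rw [h3, Real.sqrt_mul (by norm_num)]
    ring
  have h3 : ∀ x ∈ Ioi (0 : ℝ), ENNReal.ofReal (x ^ 4 * Real.exp (-x ^ 2 / 2)) =
      ENNReal.ofReal (x ^ (4 : ℝ) * Real.exp (-(1 / 2) * x ^ (2 : ℝ))) := by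
    intro x hx
    have e4 : x ^ (4 : ℝ) = x ^ 4 := by
      rw [show (4 : ℝ) = ((4 : ℕ) : ℝ) by norm_num, Real.rpow_natCast]
    have e2 : x ^ (2 : ℝ) = x ^ 2 := by
      rw [show (2 : ℝ) = ((2 : ℕ) : ℝ) by norm_num, Real.rpow_natCast]
    rw [e4, e2, show -x ^ 2 / 2 = -(1 / 2) * x ^ 2 by ring]
  rw [setLIntegral_congr_fun measurableSet_Ioi h3, ← ofReal_integral_eq_lintegral_ofReal h1, h2]
  refine (ae_restrict_iff' measurableSet_Ioi).2 (ae_of_all _ fun x hx => ?_)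
  have hx : 0 < x := hx
  positivity

/-- `g(w) = (2w²+Q²)/√(w²+Q²) - 2w` -/
noncomputable def gf (Q w : ℝ) : ℝ := (2 * w ^ 2 + Q ^ 2) / √(w ^ 2 + Q ^ 2) - 2 * w

lemma gf_nonneg (Q w : ℝ) : 0 ≤ gf Q w := by
  unfold gf
  rcases eq_or_lt_of_le (show 0 ≤ w ^ 2 + Q ^ 2 by positivity) with h | h
  · have hw : w = 0 := by nlinarith [sq_nonneg w, sq_nonneg Q]
    rw [← h, hw]; simp
  · have hD : 0 < √(w ^ 2 + Q ^ 2) := Real.sqrt_pos.2 h
    rw [sub_nonneg, le_div_iff₀ hD]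
    have h2 : √(w ^ 2 + Q ^ 2) ^ 2 = w ^ 2 + Q ^ 2 := Real.sq_sqrt h.le
    nlinarith [sq_nonneg (√(w ^ 2 + Q ^ 2) - w)]

/-- the angular integral -/
lemma lint_angle {Q : ℝ} (hQ : 0 ≤ Q) (w : ℝ) :
    ∫⁻ b in Ioo (0 : ℝ) Real.pi,
      ENNReal.ofReal (Real.sin b ^ 2 * (Q * Real.cos b - w * Real.sin b)) =
    ENNReal.ofReal (gf Q w / 3) := by
  rcases eq_or_lt_of_le (show 0 ≤ w ^ 2 + Q ^ 2 by positivity) with h | h
  · have hw : w = 0 := by nlinarith [sq_nonneg w, sq_nonneg Q]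
    have hQ0 : Q = 0 := by nlinarith [sq_nonneg w, sq_nonneg Q]
    subst hw; subst hQ0
    simp [gf]
  · set D := √(w ^ 2 + Q ^ 2) with hDdef
    have hD : 0 < D := Real.sqrt_pos.2 h
    have hD2 : D ^ 2 = w ^ 2 + Q ^ 2 := Real.sq_sqrt h.le
    have hwD : |w| ≤ D := by
      rw [hDdef]; apply Real.abs_le_sqrt; nlinarith [sq_nonneg Q]
    have hwD' : -1 ≤ w / D ∧ w / D ≤ 1 := by
      rw [le_div_iff₀ hD, div_le_iff₀ hD]
      have := abs_le.1 hwD
      constructor <;> linarith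
    set ψ := Real.arccos (w / D) with hψ
    have hcos : Real.cos ψ = w / D := Real.cos_arccos hwD'.1 hwD'.2
    have hsin : Real.sin ψ = Q / D := by
      rw [hψ, Real.sin_arccos]
      have : 1 - (w / D) ^ 2 = (Q / D) ^ 2 := by
        field_simp; linarith
      rw [this, Real.sqrt_sq (by positivity)]
    have hψ0 : 0 ≤ ψ := Real.arccos_nonneg _
    have hψπ : ψ ≤ Real.pi := Real.arccos_le_pi _
    have hid : ∀ b, Q * Real.cos b - w * Real.sin b = D * Real.sin (ψ - b) := by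
      intro b
      rw [Real.sin_sub, hsin, hcos]
      field_simp
    have hsub : Ioo (0 : ℝ) ψ ⊆ Ioo (0 : ℝ) Real.pi := Ioo_subset_Ioo_right hψπ
    have e1 : ∫⁻ b in Ioo (0 : ℝ) Real.pi,
        ENNReal.ofReal (Real.sin b ^ 2 * (Q * Real.cos b - w * Real.sin b)) =
        ∫⁻ b in Ioo (0 : ℝ) ψ,
        ENNReal.ofReal (Real.sin b ^ 2 * (Q * Real.cos b - w * Real.sin b)) := by
      have hrr : (volume.restrict (Ioo (0 : ℝ) Real.pi)).restrict (Ioo (0 : ℝ) ψ) =
          volume.restrict (Ioo (0 : ℝ) ψ) := by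
        rw [Measure.restrict_restrict measurableSet_Ioo, inter_eq_self_of_subset_left hsub]
      rw [← hrr, ← lintegral_indicator (measurableSet_Ioo (a := (0 : ℝ)) (b := ψ))]
      refine setLIntegral_congr_fun measurableSet_Ioo fun b hb => ?_
      by_cases hbψ : b ∈ Ioo 0 ψ
      · rw [indicator_of_mem hbψ]
      · rw [indicator_of_notMem hbψ]
        apply ENNReal.ofReal_of_nonpos
        have hb' : ψ ≤ b := by
          by_contra hcon
          exact hbψ ⟨hb.1, not_le.1 hcon⟩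
        rw [hid]
        apply mul_nonpos_of_nonneg_of_nonpos (sq_nonneg _)
        apply mul_nonpos_of_nonneg_of_nonpos hD.le
        apply Real.sin_nonpos_of_nonpos_of_neg_pi_le (by linarith)
        linarith [hb.2]
    rw [e1]
    rw [lint_Ioo_of_hasDerivAt hψ0
      (fun b => Q * Real.sin b ^ 3 / 3 - w * (Real.cos b ^ 3 / 3 - Real.cos b))]
    · congr 1
      simp only [Real.sin_zero, Real.cos_zero, hsin, hcos]
      unfold gf
      rw [← hDdef]
      have hQ2 : Q ^ 2 = D ^ 2 - w ^ 2 := by linarith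
      field_simp
      have : Q ^ 4 = (D ^ 2 - w ^ 2) ^ 2 := by rw [← hQ2]; ring
      rw [this, hQ2]
      ring
    · fun_prop
    · intro x _
      have h1 := (((Real.hasDerivAt_sin x).pow 3).const_mul Q).div_const 3
      have h2 := ((((Real.hasDerivAt_cos x).pow 3).div_const 3).sub (Real.hasDerivAt_cos x)).const_mul w
      have h3 := h1.sub h2
      have hc : Real.cos x ^ 2 = 1 - Real.sin x ^ 2 := by linarith [Real.sin_sq_add_cos_sq x]
      refine h3.congr_deriv ?_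
      push_cast
      linear_combination (w * Real.sin x) * hc
    · intro x hx
      rw [hid]
      have : 0 < Real.sin (ψ - x) := Real.sin_pos_of_pos_of_lt_pi (by linarith [hx.2])
        (by linarith [hx.1])
      positivity

/-- antiderivative of `gf Q` -/
noncomputable def Mf (Q w : ℝ) : ℝ := w * √(w ^ 2 + Q ^ 2) - w ^ 2

lemma hasDerivAt_Mf (Q w : ℝ) : HasDerivAt (Mf Q) (gf Q w) w := by
  rcases eq_or_lt_of_le (show 0 ≤ w ^ 2 + Q ^ 2 by positivity) with h | h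
  · have hw : w = 0 := by nlinarith [sq_nonneg w, sq_nonneg Q]
    have hQ0 : Q = 0 := by nlinarith [sq_nonneg w, sq_nonneg Q]
    subst hw; subst hQ0
    have hg : gf 0 0 = 0 := by simp [gf]
    rw [hg, hasDerivAt_iff_tendsto_slope]
    have h1 : ∀ x : ℝ, x ≠ 0 → slope (Mf 0) 0 x = |x| - x := by
      intro x hx
      rw [slope_def_field]
      simp only [Mf]
      rw [show x ^ 2 + (0:ℝ) ^ 2 = x ^ 2 by ring, Real.sqrt_sq_eq_abs]
      field_simp
      ring
    have h2 : Filter.Tendsto (fun x : ℝ => |x| - x) (nhdsWithin 0 {0}ᶜ) (nhds 0) := by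
      have : Filter.Tendsto (fun x : ℝ => |x| - x) (nhds 0) (nhds (|0| - 0)) :=
        (Continuous.tendsto (by fun_prop) 0)
      simp only [abs_zero, sub_zero] at this
      exact this.mono_left nhdsWithin_le_nhds
    refine h2.congr' ?_
    filter_upwards [self_mem_nhdsWithin] with x hx
    exact (h1 x hx).symm
  · have hD : 0 < √(w ^ 2 + Q ^ 2) := Real.sqrt_pos.2 h
    have hD2 : √(w ^ 2 + Q ^ 2) ^ 2 = w ^ 2 + Q ^ 2 := Real.sq_sqrt h.le
    have h1 : HasDerivAt (fun w : ℝ => w ^ 2 + Q ^ 2) (2 * w) w := by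
      simpa using (hasDerivAt_pow 2 w).add_const (Q ^ 2)
    have h2 := (hasDerivAt_id' w).mul (h1.sqrt h.ne')
    have h3 := h2.sub (hasDerivAt_pow 2 w)
    refine h3.congr_deriv ?_
    unfold gf
    push_cast
    field_simp
    rw [hD2]
    ring

/-- the geometry of the ellipse -/
lemma ellipse_facts {P Q a : ℝ} (ha : 1 < a) (hP : 0 ≤ P)
    (h : P ^ 2 / a ^ 2 + Q ^ 2 / (a ^ 2 - 1) = 1) :
    √((1 + P) ^ 2 + Q ^ 2) = a + P / a ∧ √((1 - P) ^ 2 + Q ^ 2) = a - P / a := by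
  have ha0 : 0 < a := by linarith
  have ha2 : 0 < a ^ 2 - 1 := by nlinarith
  have hQ2 : Q ^ 2 = (a ^ 2 - 1) * (1 - P ^ 2 / a ^ 2) := by
    have : Q ^ 2 / (a ^ 2 - 1) = 1 - P ^ 2 / a ^ 2 := by linarith
    rw [← this]; field_simp
  have hPa : P ≤ a := by
    have h1 : P ^ 2 / a ^ 2 ≤ 1 := by
      have : 0 ≤ Q ^ 2 / (a ^ 2 - 1) := by positivity
      linarith
    rw [div_le_one (by positivity)] at h1
    nlinarith
  have hPa1 : P / a ≤ 1 := (div_le_one ha0).2 hPa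
  constructor
  · rw [hQ2, show (1 + P) ^ 2 + (a ^ 2 - 1) * (1 - P ^ 2 / a ^ 2) = (a + P / a) ^ 2 by
      field_simp; ring]
    exact Real.sqrt_sq (by positivity)
  · rw [hQ2, show (1 - P) ^ 2 + (a ^ 2 - 1) * (1 - P ^ 2 / a ^ 2) = (a - P / a) ^ 2 by
      field_simp; ring]
    exact Real.sqrt_sq (by linarith)

lemma lint_phi {P Q a : ℝ} (ha : 1 < a) (hP : 0 ≤ P)
    (h : P ^ 2 / a ^ 2 + Q ^ 2 / (a ^ 2 - 1) = 1) :
    ∫⁻ φ in Ioo (0 : ℝ) Real.pi, ENNReal.ofReal (Real.sin φ * gf Q (1 - P * Real.cos φ)) =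
    ENNReal.ofReal (2 * phi3 a) := by
  have ha0 : 0 < a := by linarith
  have ha2 : 0 < a ^ 2 - 1 := by nlinarith
  have hnn : ∀ φ ∈ Ioo (0 : ℝ) Real.pi, 0 ≤ Real.sin φ * gf Q (1 - P * Real.cos φ) := by
    intro φ hφ
    exact mul_nonneg (Real.sin_pos_of_pos_of_lt_pi hφ.1 hφ.2).le (gf_nonneg _ _)
  rcases eq_or_lt_of_le hP with hP0 | hP0
  · subst hP0
    rw [lint_Ioo_of_hasDerivAt Real.pi_pos.le (fun φ => -Real.cos φ * gf Q 1)]
    · congr 1
      have hQ2 : Q ^ 2 = a ^ 2 - 1 := by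
        have : Q ^ 2 / (a ^ 2 - 1) = 1 := by simpa using h
        rwa [div_eq_one_iff_eq ha2.ne'] at this
      simp only [Real.cos_pi, Real.cos_zero]
      unfold gf phi3
      rw [hQ2, show (1:ℝ) ^ 2 + (a ^ 2 - 1) = a ^ 2 by ring, Real.sqrt_sq ha0.le]
      field_simp
      ring
    · fun_prop
    · intro x _
      refine (((Real.hasDerivAt_cos x).neg).mul_const (gf Q 1)).congr_deriv ?_
      simp
    · exact hnn
  · obtain ⟨hA, hB⟩ := ellipse_facts ha hP h
    rw [lint_Ioo_of_hasDerivAt Real.pi_pos.le (fun φ => (1 / P) * Mf Q (1 - P * Real.cos φ))]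
    · congr 1
      simp only [Real.cos_pi, Real.cos_zero]
      unfold Mf phi3
      rw [show 1 - P * -1 = 1 + P by ring, show 1 - P * 1 = 1 - P by ring, hA, hB]
      field_simp
      ring
    · unfold Mf
      fun_prop
    · intro x _
      have h1 : HasDerivAt (fun φ => 1 - P * Real.cos φ) (P * Real.sin x) x := by
        refine (((Real.hasDerivAt_cos x).const_mul P).const_sub 1).congr_deriv ?_
        ring
      have h2 := ((hasDerivAt_Mf Q (1 - P * Real.cos x)).comp x h1).const_mul (1 / P)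
      refine h2.congr_deriv ?_
      field_simp
    · exact hnn

end Crest.Agent.Propeller
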