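import Crest.Agent.Propeller.ScalarCAux

/-! Chunk F2: scalar inequality, case (C) (3-dimensional `V`). -/

set_option autoImplicit false

namespace Crest.Agent.Propeller

universe w

set_option maxHeartbeats 4000000 in
/-- See `ideas` row 215 for the case analysis. -/
theorem scalarC {κ : Type w} [Fintype κ] (s : Fin 4 → ℝ) (t : κ → ℝ)
    (hs0 : ∀ j, 0 < s j) (hs1 : ∀ j, s j < 1) (ht0 : ∀ k, 0 < t k)
    (h01 : s 1 ≤ s 0) (h12 : s 2 ≤ s 1) (h23 : s 3 ≤ s 2) (ht : ∀ k, t k ≤ s 3)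
    (hsum : ∑ j, s j ^ 2 + ∑ k, t k ^ 2 = 9 / 4) (hA : 49 / 400 ≤ s 3 ^ 2 + ∑ k, t k ^ 2) :
    (∑ k, t k ^ 2 ≤ (∑ j, s j / √(1 - s j)) ^ 2 ∧
      4 ≤ ∑ j, rf (s j) + ∑ k, Rf (t k)
        + √((∑ j, s j / √(1 - s j)) ^ 2 - ∑ k, t k ^ 2) - ∑ j, s j / √(1 - s j)) ∨
    4 ≤ rf (s 0) + rf (s 1) + rf (s 2) + Rf (s 3) + ∑ k, Rf (t k) := by
  set x : ℝ := ∑ k, t k ^ 2 with hx
  set L : ℝ := ∑ j, s j / √(1 - s j) with hL
  have hx0 : 0 ≤ x := Finset.sum_nonneg fun k _ => by positivity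
  have hLx : 5 / 2 * (9 / 4 - x) ≤ L := by
    have : 9 / 4 - x = ∑ j, s j ^ 2 := by linarith
    rw [this, hL, Finset.mul_sum]
    exact Finset.sum_le_sum fun j _ => div_sqrt_ge (hs0 j) (hs1 j)
  have hL0 : 0 ≤ L := Finset.sum_nonneg fun j _ => div_nonneg (hs0 j).le (Real.sqrt_nonneg _)
  rw [Fin.sum_univ_four] at hsum
  rw [Fin.sum_univ_four (fun j => rf (s j))]
  have p0 := hs0 0
  have p1 := hs0 1
  have p2 := hs0 2
  have p3 := hs0 3
  have q0 := hs1 0
  have q1 := hs1 1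
  have q2 := hs1 2
  have q3 := hs1 3
  -- tail bound with a constant
  have tail : ∀ c : ℝ, (∀ k, c * t k ^ 2 ≤ Rf (t k)) → c * x ≤ ∑ k, Rf (t k) := by
    intro c hc
    rw [hx, Finset.mul_sum]
    exact Finset.sum_le_sum fun k _ => hc k
  by_cases hC2 : s 2 < 1 / 5
  · -- case C2
    right
    have h1 := rf_line0 p0.le q0.le
    have h2 := rf_line0 p1.le q1.le
    have h3 := rf_ge_self p2.le q2.le
    have h4 := Rf_ge_25 p3.le (by linarith)
    have h5 := tail (5 / 2) fun k => Rf_ge_25 (ht0 k).le (by linarith [ht k])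
    have h6 : s 0 ^ 2 ≤ 1 := pow_le_one₀ p0.le q0.le
    have h7 : s 1 ^ 2 ≤ 1 := pow_le_one₀ p1.le q1.le
    have h8 : 5 / 2 * s 2 ^ 2 ≤ s 2 := by
      have := mul_nonneg p2.le (sub_nonneg.2 hC2.le)
      linarith [sq (s 2), mul_sub (s 2) (1 / 5) (s 2)]
    linarith
  have hC2' : 1 / 5 ≤ s 2 := not_lt.1 hC2
  by_cases hT : s 3 ≤ 39 / 100
  · have h1 := rf_line2 (by linarith : 1 / 5 ≤ s 0) q0.le
    have h2 := rf_line2 (by linarith : 1 / 5 ≤ s 1) q1.le
    have h3 := rf_line2 (by linarith : 1 / 5 ≤ s 2) q2.le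
    by_cases hT1 : s 3 ≤ 13 / 100
    · -- case C3a'
      right
      have h4 := Rf_ge_32 p3.le hT1
      have h5 := tail (16 / 5) fun k => Rf_ge_32 (ht0 k).le (by linarith [ht k])
      linarith
    have hT1' := not_le.1 hT1
    by_cases hA4 : 71 / 100 ≤ s 3 ^ 2 + x
    · -- case C3a
      right
      have h4 := Rf_ge_1773 p3.le hT
      have h5 := tail (1773 / 1000) fun k => Rf_ge_1773 (ht0 k).le (by linarith [ht k])
      linarith
    have hA4' := not_le.1 hA4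
    -- case C4a
    left
    have hs3 : 0 ≤ s 3 ^ 2 := sq_nonneg _
    have hx1 : x ≤ 71 / 100 := by linarith
    obtain ⟨hxL, hloss⟩ := loss_le (l := 132 / 1000) hL0 hx0 (by norm_num) (by linarith)
    refine ⟨hxL, ?_⟩
    by_cases hT2 : 35 / 100 ≤ s 3
    · have h4 := c4a_i hT2 hT
      have h5 := tail (1773 / 1000) fun k => Rf_ge_1773 (ht0 k).le (by linarith [ht k])
      linarith
    · have hT2' := (not_le.1 hT2).le
      have h4 := c4a_ii hT1'.le hT2'
      have h5 := tail (61 / 20 - 7 / 2 * s 3) fun k => by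
        refine le_trans ?_ (Rf_ge_lin (ht0 k).le (by linarith [ht k]))
        have h8 : 0 ≤ t k ^ 2 := by positivity
        exact mul_le_mul_of_nonneg_right (by linarith [ht k]) h8
      have h6 : 0 ≤ (61 / 20 - 7 / 2 * s 3 - 125 / 84 - 132 / 1000) * (x - (49 / 400 - s 3 ^ 2)) := by
        apply mul_nonneg
        · linarith
        · linarith
      linarith
  have hT' := (not_le.1 hT).le
  by_cases hT3 : s 3 ≤ 19 / 40
  · have h1 := rf_line3 (by linarith : 7 / 20 ≤ s 0) q0.le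
    have h2 := rf_line3 (by linarith : 7 / 20 ≤ s 1) q1.le
    have h3 := rf_line3 (by linarith : 7 / 20 ≤ s 2) q2.le
    have h5 := tail (81 / 50) fun k => Rf_ge_162 (ht0 k).le (by linarith [ht k])
    by_cases hA4 : 1 ≤ s 3 ^ 2 + x
    · -- case C3b
      right
      have h4 := Rf_ge_162 p3.le hT3
      linarith
    · -- case C4b
      have hA4' := not_le.1 hA4
      left
      have hx1 : x ≤ 848 / 1000 := by
        have h8 : (39 / 100) ^ 2 ≤ s 3 ^ 2 := by gcongr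
        linarith
      obtain ⟨hxL, hloss⟩ := loss_le (l := 146 / 1000) hL0 hx0 (by norm_num) (by linarith)
      refine ⟨hxL, ?_⟩
      have h4 := c4b hT' hT3
      linarith
  · -- case C4c
    have hT3' := (not_le.1 hT3).le
    left
    have h0 := rf_line1 (by linarith : 19 / 40 ≤ s 0) q0.le
    have h1 := rf_line1 (by linarith : 19 / 40 ≤ s 1) q1.le
    have h2 := rf_line1 (by linarith : 19 / 40 ≤ s 2) q2.le
    have h3 := rf_line1 hT3' q3.le
    set T := s 3 with hTdef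
    have hT2 : 0 < T ^ 2 := by positivity
    have hq2 : T ^ 2 ≤ s 2 ^ 2 := pow_le_pow_left₀ p3.le h23 2
    have hq1 : s 2 ^ 2 ≤ s 1 ^ 2 := pow_le_pow_left₀ p2.le h12 2
    have hq0 : s 1 ^ 2 ≤ s 0 ^ 2 := pow_le_pow_left₀ p1.le h01 2
    have hxT : x ≤ 9 / 4 - 4 * T ^ 2 := by linarith
    have hLT : 10 * T ^ 2 ≤ L := by linarith
    have hT34 : T ≤ 3 / 4 := by
      have h9 : T ^ 2 ≤ (3 / 4) ^ 2 := by linarith
      exact (sq_le_sq₀ p3.le (by norm_num)).1 h9
    have hl : 0 < 54 / 1000 / T ^ 2 := by positivity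
    obtain ⟨hxL, hloss⟩ := loss_le (l := 54 / 1000 / T ^ 2) hL0 hx0 hl (by
      have e1 : 2 * L * (54 / 1000 / T ^ 2) = (108 / 1000 * L) / T ^ 2 := by ring
      have e2 : (54 / 1000 / T ^ 2) ^ 2 * x = (54 / 1000) ^ 2 * x / T ^ 4 := by
        field_simp
      rw [e1, e2]
      have h5 : 108 / 100 ≤ (108 / 1000 * L) / T ^ 2 := by
        rw [le_div_iff₀ hT2]; linarith
      have h6 : (54 / 1000) ^ 2 * x / T ^ 4 ≤ 8 / 100 := by
        rw [div_le_iff₀ (by positivity)]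
        have h7 : (19 / 40) ^ 2 ≤ T ^ 2 := by gcongr
        have h8 : T ^ 4 = T ^ 2 * T ^ 2 := by ring
        rw [h8]
        clear_value x L T
        nlinarith [mul_nonneg (sub_nonneg.2 h7) (sub_nonneg.2 h7)]
      linarith)
    refine ⟨hxL, ?_⟩
    have h5 := tail (4 / 3 + 54 / 1000 / T ^ 2) fun k => by
      have hk := ht k
      have hk0 := ht0 k
      by_cases hk1 : 19 / 40 ≤ t k
      · have h6 := Rf_sub_ge hk1 (by linarith)
        have h7 : 54 / 1000 / T ^ 2 * t k ^ 2 ≤ 54 / 1000 := by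
          rw [div_mul_eq_mul_div, div_le_iff₀ hT2]
          have := pow_le_pow_left₀ hk0.le hk 2
          linarith
        linarith [add_mul (4 / 3) (54 / 1000 / T ^ 2) (t k ^ 2)]
      · have h6 := Rf_ge_162 hk0.le (not_le.1 hk1).le
        have h7 : 54 / 1000 / T ^ 2 ≤ 81 / 50 - 4 / 3 := by
          rw [div_le_iff₀ hT2]
          have h8 : (19 / 40) ^ 2 ≤ T ^ 2 := by gcongr
          linarith
        have h8 := mul_le_mul_of_nonneg_right h7 (sq_nonneg (t k))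
        linarith [add_mul (4 / 3) (54 / 1000 / T ^ 2) (t k ^ 2)]
    have e3 : (4 / 3 + 54 / 1000 / T ^ 2) * x = 4 / 3 * x + 54 / 1000 / T ^ 2 * x := by ring
    rw [e3] at h5
    linarith

end Crest.Agent.Propeller
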