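import Crest.Agent.Propeller.Basic

/-! Chunk F1: scalar inequality, case (P) (plane). -/

set_option autoImplicit false

namespace Crest.Agent.Propeller

universe w

/-! ### elementary trigonometric bounds -/

theorem scalarP_cos_le {x : ℝ} (h0 : 0 ≤ x) (h1 : x ≤ 1) :
    Real.cos x ≤ 1 - x ^ 2 / 2 + x ^ 4 / 24 := by
  have h2 : x / 2 - (x / 2) ^ 3 / 6 ≤ Real.sin (x / 2) := Real.sin_ge_sub_cube (by linarith)
  have h3 : 0 ≤ x / 2 - (x / 2) ^ 3 / 6 := by nlinarith [sq_nonneg x, mul_nonneg h0 h0]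
  have h4 : Real.cos x = 1 - 2 * Real.sin (x / 2) ^ 2 := by
    have := Real.cos_two_mul (x / 2)
    have h5 := Real.sin_sq_add_cos_sq (x / 2)
    rw [show 2 * (x / 2) = x by ring] at this
    linarith
  have h6 : (x / 2 - (x / 2) ^ 3 / 6) ^ 2 ≤ Real.sin (x / 2) ^ 2 := pow_le_pow_left₀ h3 h2 2
  rw [h4]
  nlinarith [pow_nonneg h0 6]

theorem scalarP_sin_le {x : ℝ} (h0 : 0 ≤ x) (h1 : x ≤ 1) :
    Real.sin x ≤ x - x ^ 3 / 6 + x ^ 5 / 120 := by
  have hm : MonotoneOn (fun y : ℝ => y - y ^ 3 / 6 + y ^ 5 / 120 - Real.sin y) (Set.Icc 0 1) := by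
    refine monotoneOn_of_deriv_nonneg (convex_Icc 0 1) (by fun_prop) (by fun_prop) ?_
    intro y hy
    rw [interior_Icc] at hy
    have hd : HasDerivAt (fun y : ℝ => y - y ^ 3 / 6 + y ^ 5 / 120 - Real.sin y)
        (1 - (3 * y ^ 2) / 6 + (5 * y ^ 4) / 120 - Real.cos y) y := by
      refine ((((hasDerivAt_id y).sub ?_).add ?_).sub (Real.hasDerivAt_sin y))
      · simpa using (hasDerivAt_pow 3 y).div_const 6
      · simpa using (hasDerivAt_pow 5 y).div_const 120
    rw [hd.deriv]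
    have := scalarP_cos_le hy.1.le hy.2.le
    linarith
  have := hm (Set.left_mem_Icc.2 zero_le_one) ⟨h0, h1⟩ h0
  simp only [Real.sin_zero] at this
  norm_num at this
  linarith

/-! ### lower bound for `hf` -/

/-- derivative of `hf` minus a quadratic -/
theorem scalarP_hasDeriv {κ t : ℝ} (h0 : 0 < t) (h1 : t < 1) :
    HasDerivAt (fun t => hf t - κ * t ^ 2) (√t / √(1 - t) - 2 * κ * t) t := by
  have h01 : 0 < 1 - t := by linarith
  have hs : √t < 1 := by
    rw [Real.sqrt_lt' one_pos]; simpa using h1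
  have hs0 : 0 < √t := Real.sqrt_pos.2 h0
  have hc0 : 0 < √(1 - t) := Real.sqrt_pos.2 h01
  have ha : HasDerivAt (fun t => Real.arcsin √t) (1 / √(1 - √t ^ 2) * (1 / (2 * √t))) t :=
    (Real.hasDerivAt_arcsin (by linarith) hs.ne).comp t (Real.hasDerivAt_sqrt h0.ne')
  have hb : HasDerivAt (fun t => √(t * (1 - t))) ((1 * (1 - t) + t * (-1)) / (2 * √(t * (1 - t)))) t := by
    have hm : HasDerivAt (fun t : ℝ => t * (1 - t)) (1 * (1 - t) + t * (-1)) t := by
      exact (hasDerivAt_id' t).fun_mul ((hasDerivAt_id' t).const_sub 1)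
    exact hm.sqrt (by positivity)
  have hc : HasDerivAt (fun t : ℝ => κ * t ^ 2) (κ * (2 * t)) t := by
    simpa using (hasDerivAt_pow 2 t).const_mul κ
  have := (ha.sub hb).sub hc
  refine this.congr_deriv ?_
  rw [Real.sq_sqrt h0.le, Real.sqrt_mul h0.le]
  have e1 := Real.sq_sqrt h0.le
  have e2 := Real.sq_sqrt h01.le
  field_simp
  nlinarith [e1, e2]

theorem scalarP_cont {κ : ℝ} : Continuous (fun t => hf t - κ * t ^ 2) := by
  unfold hf
  exact ((Real.continuous_arcsin.comp Real.continuous_sqrt).sub (by fun_prop)).sub (by fun_prop)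

/-- end point value -/
theorem scalarP_end : 253 / 200 * (7 / 20 : ℝ) ^ 2 ≤ hf (7 / 20) := by
  have h1 : √((7 / 20 : ℝ) * (1 - 7 / 20)) ≤ 477 / 1000 := by
    rw [Real.sqrt_le_left (by norm_num)]; norm_num
  have h2 : (5916 / 10000 : ℝ) ≤ √(7 / 20) := by
    apply Real.le_sqrt_of_sq_le; norm_num
  have h3 : (6320 / 10000 : ℝ) ≤ Real.arcsin √(7 / 20) := by
    rw [Real.le_arcsin_iff_sin_le']
    · refine (scalarP_sin_le (by norm_num) (by norm_num)).trans (le_trans ?_ h2)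
      norm_num
    · constructor
      · have := Real.pi_gt_three; linarith
      · have := Real.pi_gt_three; linarith
  rw [hf]
  nlinarith

theorem scalarP_hf {t : ℝ} (h0 : 0 ≤ t) (h1 : t ≤ 7 / 20) : 253 / 200 * t ^ 2 ≤ hf t := by
  rcases h0.eq_or_lt with rfl | h0
  · simp [hf]
  by_cases hc : t * (1 - t) * (253 / 100) ^ 2 ≤ 1
  · -- monotone on `[0, t]`
    have hm : MonotoneOn (fun t => hf t - 253 / 200 * t ^ 2) (Set.Icc 0 t) := by
      refine monotoneOn_of_deriv_nonneg (convex_Icc 0 t) scalarP_cont.continuousOn ?_ ?_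
      · rw [interior_Icc]
        intro u hu
        exact (scalarP_hasDeriv hu.1 (by linarith [hu.2])).differentiableAt.differentiableWithinAt
      · rw [interior_Icc]
        intro u hu
        have hu0 := hu.1
        have hut := hu.2
        rw [(scalarP_hasDeriv hu.1 (by linarith [hu.2])).deriv]
        have hp : 0 < √(1 - u) := Real.sqrt_pos.2 (by linarith)
        have e1 := Real.sq_sqrt hu.1.le
        have e2 := Real.sq_sqrt (show (0:ℝ) ≤ 1 - u by linarith)
        have hq : 0 < √u := Real.sqrt_pos.2 hu.1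
        rw [sub_nonneg, le_div_iff₀ hp]
        have hk : √u * √(1 - u) * (253 / 100) ≤ 1 := by
          have : (√u * √(1 - u) * (253 / 100)) ^ 2 ≤ 1 ^ 2 := by
            rw [mul_pow, mul_pow, e1, e2]
            nlinarith
          exact (pow_le_pow_iff_left₀ (by positivity) zero_le_one two_ne_zero).1 this
        calc 2 * (253 / 200) * u * √(1 - u) = √u ^ 2 * √(1 - u) * (253 / 100) := by rw [e1]; ring
          _ = √u * (√u * √(1 - u) * (253 / 100)) := by ring
          _ ≤ √u * 1 := by gcongr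
          _ = √u := mul_one _
    have := hm (Set.left_mem_Icc.2 h0.le) (Set.right_mem_Icc.2 h0.le) h0.le
    simp [hf] at this
    rw [hf]
    linarith
  · -- antitone on `[t, 7/20]`
    push Not at hc
    have hm : AntitoneOn (fun t => hf t - 253 / 200 * t ^ 2) (Set.Icc t (7 / 20)) := by
      refine antitoneOn_of_deriv_nonpos (convex_Icc t _) scalarP_cont.continuousOn ?_ ?_
      · rw [interior_Icc]
        intro u hu
        exact (scalarP_hasDeriv (by linarith [hu.1])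
          (by linarith [hu.2])).differentiableAt.differentiableWithinAt
      · rw [interior_Icc]
        intro u hu
        have hu0 : 0 < u := by linarith [hu.1]
        have hut := hu.1
        have hu1 := hu.2
        rw [(scalarP_hasDeriv hu0 (by linarith [hu.2])).deriv]
        have hp : 0 < √(1 - u) := Real.sqrt_pos.2 (by linarith)
        have e1 := Real.sq_sqrt hu0.le
        have e2 := Real.sq_sqrt (show (0:ℝ) ≤ 1 - u by linarith)
        have hq : 0 < √u := Real.sqrt_pos.2 hu0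
        rw [sub_nonpos, div_le_iff₀ hp]
        have hk : 1 ≤ √u * √(1 - u) * (253 / 100) := by
          have : 1 ^ 2 ≤ (√u * √(1 - u) * (253 / 100)) ^ 2 := by
            rw [mul_pow, mul_pow, e1, e2]
            nlinarith
          exact (pow_le_pow_iff_left₀ zero_le_one (by positivity) two_ne_zero).1 this
        calc √u = √u * 1 := (mul_one _).symm
          _ ≤ √u * (√u * √(1 - u) * (253 / 100)) := by gcongr
          _ = √u ^ 2 * √(1 - u) * (253 / 100) := by ring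
          _ = 2 * (253 / 200) * u * √(1 - u) := by rw [e1]; ring
    have := hm (Set.left_mem_Icc.2 h1) (Set.right_mem_Icc.2 h1) h1
    have he := scalarP_end
    simp only at this
    linarith

/-! ### the tangent line for `arcsin` -/

theorem scalarP_arcsin {s : ℝ} (h0 : 7 / 20 ≤ s) (h1 : s ≤ 1) :
    Real.pi / 3 + 2 / √3 * (s ^ 2 - 3 / 4) ≤ Real.arcsin s := by
  have h3 : √3 ^ 2 = 3 := Real.sq_sqrt (by norm_num)
  have h3p : 0 < √3 := Real.sqrt_pos.2 (by norm_num)
  have h3l : (173 / 100 : ℝ) ≤ √3 := by apply Real.le_sqrt_of_sq_le; norm_num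
  have h3u : √3 ≤ 1733 / 1000 := by rw [Real.sqrt_le_left (by norm_num)]; norm_num
  have e3 : 2 / √3 = 2 * √3 / 3 := by
    field_simp; linarith
  have hpi := Real.pi_lt_d2
  rcases le_or_gt s (1 / 2) with hs | hs
  · have ha : s ≤ Real.arcsin s := by
      have := Real.sin_le (Real.arcsin_nonneg.2 (by linarith : 0 ≤ s))
      rwa [Real.sin_arcsin (by linarith) (by linarith)] at this
    refine le_trans ?_ ha
    rw [e3]
    have h5 : 0 ≤ (s - 7 / 20) * (1 / 2 - s) := mul_nonneg (by linarith) (by linarith)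
    nlinarith
  · -- `s = sin (π/3 + δ)`
    set φ := Real.arcsin s with hφ
    have hsφ : Real.sin φ = s := Real.sin_arcsin (by linarith) (by linarith)
    have hφ2 : φ ≤ Real.pi / 2 := Real.arcsin_le_pi_div_two s
    have hφ1 : Real.pi / 6 ≤ φ := by
      rw [hφ, Real.le_arcsin_iff_sin_le' ⟨by linarith [Real.pi_pos], by linarith [Real.pi_pos]⟩,
        Real.sin_pi_div_six]
      linarith
    have hid : 2 * √3 / 3 * (s ^ 2 - 3 / 4) =
        Real.sin (φ - Real.pi / 3) * Real.cos (φ - Real.pi / 3)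
          - √3 / 3 * Real.sin (φ - Real.pi / 3) ^ 2 := by
      have h5 := Real.sin_add (φ - Real.pi / 3) (Real.pi / 3)
      rw [sub_add_cancel, hsφ, Real.cos_pi_div_three, Real.sin_pi_div_three] at h5
      have h6 := Real.sin_sq_add_cos_sq (φ - Real.pi / 3)
      rw [h5]
      set S := Real.sin (φ - Real.pi / 3)
      set C := Real.cos (φ - Real.pi / 3)
      have h7 : (S * (1 / 2) + C * (√3 / 2)) ^ 2 - 3 / 4 = -S ^ 2 / 2 + √3 / 2 * S * C := by
        have : C ^ 2 = 1 - S ^ 2 := by linarith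
        linear_combination (1 / 4) * C ^ 2 * h3 + (3 / 4) * this
      rw [h7]
      linear_combination (1 / 3) * S * C * h3
    rw [e3, hid]
    rcases le_or_gt 0 (φ - Real.pi / 3) with hδ | hδ
    · have h5 := Real.sin_le hδ
      have h6 : 0 ≤ Real.sin (φ - Real.pi / 3) :=
        Real.sin_nonneg_of_nonneg_of_le_pi hδ (by linarith [Real.pi_pos])
      have h7 := Real.cos_le_one (φ - Real.pi / 3)
      have h8 : 0 ≤ √3 / 3 * Real.sin (φ - Real.pi / 3) ^ 2 := by positivity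
      nlinarith
    · obtain ⟨ε, hε⟩ : ∃ ε, φ - Real.pi / 3 = -ε := ⟨-(φ - Real.pi / 3), by ring⟩
      have hε0 : 0 ≤ ε := by linarith
      have hε1 : ε ≤ 21 / 40 := by linarith
      have h5 := Real.sin_ge_sub_cube hε0
      have h6 := Real.one_sub_sq_div_two_le_cos (x := ε)
      have hφe : φ = Real.pi / 3 - ε := by linarith
      rw [hε, Real.sin_neg, Real.cos_neg, hφe]
      have h7 : (577 / 1000 : ℝ) ≤ √3 / 3 := by
        have : (1731 / 1000 : ℝ) ≤ √3 := by apply Real.le_sqrt_of_sq_le; norm_num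
        linarith
      have hl : 0 ≤ ε - ε ^ 3 / 6 := by nlinarith [mul_nonneg hε0 hε0]
      have h8 : (ε - ε ^ 3 / 6) * (1 - ε ^ 2 / 2 + 577 / 1000 * (ε - ε ^ 3 / 6)) ≤
          Real.sin ε * (Real.cos ε + √3 / 3 * Real.sin ε) := by
        have h9 : 577 / 1000 * (ε - ε ^ 3 / 6) ≤ √3 / 3 * Real.sin ε :=
          mul_le_mul h7 h5 hl (by positivity)
        refine mul_le_mul h5 (by linarith) ?_ (hl.trans h5)
        nlinarith [mul_nonneg hε0 hε0]
      have h10 : ε ≤ (ε - ε ^ 3 / 6) * (1 - ε ^ 2 / 2 + 577 / 1000 * (ε - ε ^ 3 / 6)) := by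
        have h11 : 0 ≤ ε ^ 2 * (577 / 1000 - 2 / 3 * ε - 5771 / 30000 * ε ^ 2 + ε ^ 3 / 12) := by
          refine mul_nonneg (by positivity) ?_
          have : 0 ≤ ε ^ 3 := by positivity
          nlinarith
        nlinarith [pow_nonneg hε0 6, pow_nonneg hε0 4]
      have h12 : Real.sin ε * (Real.cos ε + √3 / 3 * Real.sin ε) =
          Real.sin ε * Real.cos ε + √3 / 3 * Real.sin ε ^ 2 := by ring
      have h13 : -Real.sin ε * Real.cos ε - √3 / 3 * (-Real.sin ε) ^ 2 =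
          -(Real.sin ε * Real.cos ε + √3 / 3 * Real.sin ε ^ 2) := by ring
      rw [h13]
      linarith

/-- `s/√(1-s²) ≥ (8 s² - 3)/√3` -/
theorem scalarP_m {s : ℝ} (h0 : 0 < s) (h1 : s < 1) :
    (8 * s ^ 2 - 3) / √3 ≤ s / √(1 - s ^ 2) := by
  have h3 : √3 ^ 2 = 3 := Real.sq_sqrt (by norm_num)
  have h3p : 0 < √3 := Real.sqrt_pos.2 (by norm_num)
  have hq : 0 < 1 - s ^ 2 := by nlinarith
  have hp : 0 < √(1 - s ^ 2) := Real.sqrt_pos.2 hq
  have e2 := Real.sq_sqrt hq.le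
  rcases le_or_gt (8 * s ^ 2) 3 with h | h
  · exact (div_nonpos_of_nonpos_of_nonneg (by linarith) h3p.le).trans (by positivity)
  · rw [div_le_div_iff₀ h3p hp]
    refine (pow_le_pow_iff_left₀ (by nlinarith) (by positivity) two_ne_zero).1 ?_
    rw [mul_pow, mul_pow, e2, h3]
    nlinarith [mul_nonneg (sq_nonneg (4 * s ^ 2 - 3)) (show 0 ≤ 4 * s ^ 2 - 1 by linarith)]

/-- loss bound -/
theorem scalarP_loss {L x l : ℝ} (hx : 0 ≤ x) (hl : 0 < l)
    (h : 1 + l ^ 2 * x ≤ 2 * L * l) : x ≤ L ^ 2 ∧ L - √(L ^ 2 - x) ≤ l * x := by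
  have h1 : x ≤ L ^ 2 := by
    have h2 : 4 * (l ^ 2 * x) ≤ (1 + l ^ 2 * x) ^ 2 := by nlinarith [sq_nonneg (1 - l ^ 2 * x)]
    have h3 : (1 + l ^ 2 * x) ^ 2 ≤ (2 * L * l) ^ 2 :=
      pow_le_pow_left₀ (by positivity) h 2
    have h4 : l ^ 2 * x ≤ l ^ 2 * L ^ 2 := by nlinarith
    exact le_of_mul_le_mul_left h4 (by positivity)
  refine ⟨h1, ?_⟩
  rcases le_or_gt (L - l * x) 0 with h5 | h5
  · linarith [Real.sqrt_nonneg (L ^ 2 - x)]
  · have : L - l * x ≤ √(L ^ 2 - x) := by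
      apply Real.le_sqrt_of_sq_le
      nlinarith [mul_nonneg hx (sub_nonneg.2 h)]
    linarith

/-- Proof: each `t k ≤ 0.35`; `hf t ≥ 1.265 t²` on `[0,0.35]`; `s j ≥ 0.35`;
`arcsin s ≥ π/3 + (2/√3)(s²-3/4)` on `[0.35,1]`; `Λ = ∑ s/√(1-s²) ≥ (9 - 8 A)/√3`,
`Λ-√(Λ²-A) ≤ 0.1085 A`; and `1.265 ≥ 2/√3 + 0.1085`. -/
theorem scalarP {κ : Type w} [Fintype κ] (s : Fin 3 → ℝ) (t : κ → ℝ)
    (hs0 : ∀ j, 0 < s j) (hs1 : ∀ j, s j < 1) (ht0 : ∀ k, 0 < t k)
    (hsum : ∑ j, s j ^ 2 + ∑ k, t k ^ 2 = 9 / 4) (hA : ∑ k, t k ^ 2 ≤ 49 / 400) :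
    ∑ k, t k ^ 2 ≤ (∑ j, s j / √(1 - s j ^ 2)) ^ 2 ∧
    Real.pi ≤ ∑ j, Real.arcsin (s j) + ∑ k, hf (t k)
      + √((∑ j, s j / √(1 - s j ^ 2)) ^ 2 - ∑ k, t k ^ 2) - ∑ j, s j / √(1 - s j ^ 2) := by
  have h3 : √3 ^ 2 = 3 := Real.sq_sqrt (by norm_num)
  have h3p : 0 < √3 := Real.sqrt_pos.2 (by norm_num)
  have h3u : √3 ≤ 17321 / 10000 := by rw [Real.sqrt_le_left (by norm_num)]; norm_num
  have e3 : 2 / √3 = 2 * √3 / 3 := by
    field_simp; linarith
  set A := ∑ k, t k ^ 2 with hAdef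
  have hA0 : 0 ≤ A := Finset.sum_nonneg fun k _ => by positivity
  -- tails
  have htail : 253 / 200 * A ≤ ∑ k, hf (t k) := by
    rw [hAdef, Finset.mul_sum]
    refine Finset.sum_le_sum fun k _ => scalarP_hf (ht0 k).le ?_
    have h1 : t k ^ 2 ≤ A := Finset.single_le_sum (f := fun k => t k ^ 2)
      (fun i _ => by positivity) (Finset.mem_univ k)
    have h2 := ht0 k
    nlinarith
  -- big ones
  have hbig : ∀ j, 7 / 20 ≤ s j := by
    intro j
    have h1 : s j ^ 2 = 9 / 4 - A - ∑ i ∈ Finset.univ.erase j, s i ^ 2 := by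
      have := Finset.add_sum_erase Finset.univ (fun i => s i ^ 2) (Finset.mem_univ j)
      linarith
    have h2 : ∑ i ∈ Finset.univ.erase j, s i ^ 2 ≤ 2 := by
      have : ∑ i ∈ Finset.univ.erase j, s i ^ 2 ≤ ∑ i ∈ Finset.univ.erase j, (1:ℝ) := by
        refine Finset.sum_le_sum fun i _ => ?_
        have := hs0 i
        have := hs1 i
        nlinarith
      refine this.trans ?_
      simp
    have := hs0 j
    nlinarith
  have harc : Real.pi - 2 / √3 * A ≤ ∑ j, Real.arcsin (s j) := by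
    have h1 : ∑ j, (Real.pi / 3 + 2 / √3 * (s j ^ 2 - 3 / 4)) ≤ ∑ j, Real.arcsin (s j) :=
      Finset.sum_le_sum fun j _ => scalarP_arcsin (hbig j) (hs1 j).le
    refine le_trans (le_of_eq ?_) h1
    rw [Finset.sum_add_distrib, ← Finset.mul_sum, Finset.sum_sub_distrib]
    have : ∑ j, s j ^ 2 = 9 / 4 - A := by linarith
    rw [this]
    simp
    ring
  set Λ := ∑ j, s j / √(1 - s j ^ 2) with hΛ
  have hΛl : (9 - 8 * A) / √3 ≤ Λ := by
    have h1 : ∑ j, (8 * s j ^ 2 - 3) / √3 ≤ Λ :=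
      Finset.sum_le_sum fun j _ => scalarP_m (hs0 j) (hs1 j)
    refine le_trans (le_of_eq ?_) h1
    rw [← Finset.sum_div, Finset.sum_sub_distrib, ← Finset.mul_sum]
    have : ∑ j, s j ^ 2 = 9 / 4 - A := by linarith
    rw [this]
    simp
    ring
  have hΛn : (463 / 100 : ℝ) ≤ Λ := by
    refine le_trans ?_ hΛl
    rw [le_div_iff₀ h3p]
    nlinarith
  obtain ⟨h5, h6⟩ := scalarP_loss (L := Λ) (x := A) (l := 1085 / 10000) hA0
    (by norm_num) (by nlinarith)
  refine ⟨h5, ?_⟩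
  have h7 : 2 / √3 * A ≤ (1155 / 1000) * A := by
    refine mul_le_mul_of_nonneg_right ?_ hA0
    rw [e3]; linarith
  nlinarith

end Crest.Agent.Propeller
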