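import Crest.Agent.Propeller.Basic

/-! Chunk D: pure linear algebra: choice of `V`. -/

set_option autoImplicit false

open Module
open scoped RealInnerProductSpace

namespace Crest.Agent.Propeller

universe u v w

variable {E : Type u} [NormedAddCommGroup E] [InnerProductSpace ℝ E] [FiniteDimensional ℝ E]

/-- pairwise strictly obtuse vectors: at most `dim + 1` many -/
theorem card_le_finrank_add_one {ι : Type v} [Fintype ι] (Z : ι → E)
    (h : ∀ i j, i ≠ j → ⟪Z i, Z j⟫ < 0) : Fintype.card ι ≤ finrank ℝ E + 1 := by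
  classical
  rcases isEmpty_or_nonempty ι with hι | ⟨⟨i0⟩⟩
  · simp
  have hli : LinearIndependent ℝ (fun i : {i : ι // i ≠ i0} => Z i) := by
    rw [Fintype.linearIndependent_iff]
    intro g hg
    set p : E := ∑ i : {i : ι // i ≠ i0}, max (g i) 0 • Z i with hp
    set n : E := ∑ i : {i : ι // i ≠ i0}, max (-g i) 0 • Z i with hn
    have hpn : p = n := by
      rw [← sub_eq_zero, hp, hn, ← Finset.sum_sub_distrib, ← hg]
      refine Finset.sum_congr rfl fun i _ => ?_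
      rw [← sub_smul]
      congr 1
      rcases le_total 0 (g i) with h0 | h0
      · rw [max_eq_left h0, max_eq_right (by linarith)]; ring
      · rw [max_eq_right h0, max_eq_left (by linarith)]; ring
    have hpp : ⟪p, p⟫ ≤ 0 := by
      nth_rewrite 2 [hpn]
      rw [hp, hn, sum_inner]
      refine Finset.sum_nonpos fun i _ => ?_
      rw [inner_sum]
      refine Finset.sum_nonpos fun j _ => ?_
      rw [real_inner_smul_left, real_inner_smul_right]
      by_cases hij : i = j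
      · subst hij
        rcases le_total 0 (g i) with h0 | h0
        · rw [max_eq_right (by linarith : -g i ≤ 0)]; simp
        · rw [max_eq_right h0]; simp
      · have h1 := h i j (fun hc => hij (Subtype.ext hc))
        have h2 : 0 ≤ max (g i) 0 := le_max_right _ _
        have h3 : 0 ≤ max (-g j) 0 := le_max_right _ _
        have := mul_nonneg h2 h3
        nlinarith
    have hp0 : p = 0 := by
      have := real_inner_self_nonneg (x := p)
      exact inner_self_eq_zero (𝕜 := ℝ).1 (le_antisymm hpp this)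
    have hn0 : n = 0 := by rw [← hpn, hp0]
    have key : ∀ c : {i : ι // i ≠ i0} → ℝ, (∀ i, 0 ≤ c i) →
        ∑ i : {i : ι // i ≠ i0}, c i • Z i = 0 → ∀ i, c i = 0 := by
      intro c hc hsum i
      have h1 : ∑ j : {i : ι // i ≠ i0}, c j * (-⟪Z j, Z i0⟫) = 0 := by
        have : ⟪∑ i : {i : ι // i ≠ i0}, c i • Z i, Z i0⟫ = 0 := by rw [hsum, inner_zero_left]
        rw [sum_inner] at this
        simp only [real_inner_smul_left] at this
        simp only [mul_neg, Finset.sum_neg_distrib, this, neg_zero]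
      have h2 := (Finset.sum_eq_zero_iff_of_nonneg (fun j _ => mul_nonneg (hc j)
        (by have := h j i0 j.2; linarith))).1 h1 i (Finset.mem_univ i)
      have h3 := h i i0 i.2
      rcases mul_eq_zero.1 h2 with h4 | h4
      · exact h4
      · exfalso; linarith
    intro i
    have a1 := key (fun i => max (g i) 0) (fun i => le_max_right _ _) hp0 i
    have a2 := key (fun i => max (-g i) 0) (fun i => le_max_right _ _) hn0 i
    have b1 : g i ≤ 0 := by simpa using a1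
    have b2 : 0 ≤ g i := by simpa using a2
    exact le_antisymm b1 b2
  have h1 := hli.fintype_card_le_finrank
  have h2 : Fintype.card {i : ι // i ≠ i0} = Fintype.card ι - 1 := by
    rw [Fintype.card_subtype_compl, Fintype.card_subtype_eq]
  omega

/-- enlarge a subspace to a prescribed dimension -/
theorem exists_submodule_finrank_eq (U : Submodule ℝ E) {d : ℕ} (hU : finrank ℝ U ≤ d)
    (hd : d ≤ finrank ℝ E) : ∃ V : Submodule ℝ E, U ≤ V ∧ finrank ℝ V = d := by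
  induction d, hU using Nat.le_induction with
  | base => exact ⟨U, le_rfl, rfl⟩
  | succ n hn ih =>
    obtain ⟨V, hUV, hV⟩ := ih (by omega)
    have hne : V ≠ ⊤ := by
      rintro rfl
      rw [finrank_top] at hV
      omega
    obtain ⟨v, hv⟩ : ∃ v, v ∉ V := by
      by_contra hc
      push_neg at hc
      exact hne (Submodule.eq_top_iff'.2 hc)
    refine ⟨V ⊔ Submodule.span ℝ {v}, le_trans hUV le_sup_left, ?_⟩
    have hv0 : v ≠ 0 := fun h => hv (h ▸ V.zero_mem)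
    have h1 := Submodule.finrank_sup_add_finrank_inf_eq V (Submodule.span ℝ {v})
    have h2 : V ⊓ Submodule.span ℝ {v} = ⊥ :=
      disjoint_iff.1 ((Submodule.disjoint_span_singleton' hv0).2 hv)
    rw [h2, finrank_bot, finrank_span_singleton hv0, hV] at h1
    omega

/-- vectors summing to zero -/
theorem finrank_span_le_of_sum_eq_zero {d : ℕ} (v : Fin (d + 1) → E) (hv : ∑ j, v j = 0) :
    finrank ℝ (Submodule.span ℝ (Set.range v)) ≤ d := by
  have h1 : Submodule.span ℝ (Set.range v) ≤ Submodule.span ℝ (Set.range (fun j : Fin d => v j.succ)) := by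
    rw [Submodule.span_le]
    rintro x ⟨j, rfl⟩
    refine Fin.cases ?_ (fun i => ?_) j
    · have : v 0 = -∑ i : Fin d, v i.succ := by
        rw [Fin.sum_univ_succ] at hv
        exact eq_neg_of_add_eq_zero_left hv
      rw [this]
      exact Submodule.neg_mem _ (Submodule.sum_mem _ fun i _ => Submodule.subset_span ⟨i, rfl⟩)
    · exact Submodule.subset_span ⟨i, rfl⟩
  calc finrank ℝ (Submodule.span ℝ (Set.range v))
      ≤ finrank ℝ (Submodule.span ℝ (Set.range (fun j : Fin d => v j.succ))) :=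
        Submodule.finrank_mono h1
    _ ≤ Fintype.card (Fin d) := finrank_range_le_card _
    _ = d := Fintype.card_fin d

theorem norm_sub_starProjection_le (V : Submodule ℝ E) (x : E) :
    ‖x - V.starProjection x‖ ≤ ‖x‖ := by
  have h : x - V.starProjection x = Vᗮ.starProjection x := by
    rw [Submodule.starProjection_orthogonal']
    simp
  rw [h]
  exact Submodule.norm_starProjection_apply_le _ _

theorem tail_term_le (V : Submodule ℝ E) (z : E) {a : ℝ} (ha : 1 < a) :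
    √(a ^ 2 - 1) * ‖z‖ ≤ √(a ^ 2 * ‖z‖ ^ 2 - ‖z - V.starProjection z‖ ^ 2) := by
  have h1 := norm_sub_starProjection_le V z
  have h2 : 0 ≤ a ^ 2 - 1 := by nlinarith
  have h3 : ‖z - V.starProjection z‖ ^ 2 ≤ ‖z‖ ^ 2 := by
    have := norm_nonneg (z - V.starProjection z)
    gcongr
  apply Real.le_sqrt_of_sq_le
  rw [mul_pow, Real.sq_sqrt h2]
  nlinarith

theorem norm_sum_sq_le {κ : Type w} [Fintype κ] (Zt : κ → E)
    (hobt : ∀ k l, k ≠ l → ⟪Zt k, Zt l⟫ ≤ 0) : ‖∑ k, Zt k‖ ^ 2 ≤ ∑ k, ‖Zt k‖ ^ 2 := by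
  classical
  rw [← real_inner_self_eq_norm_sq, sum_inner]
  refine Finset.sum_le_sum fun k _ => ?_
  rw [inner_sum, ← Finset.add_sum_erase _ _ (Finset.mem_univ k), real_inner_self_eq_norm_sq]
  have : ∑ l ∈ Finset.univ.erase k, ⟪Zt k, Zt l⟫ ≤ 0 :=
    Finset.sum_nonpos fun l hl => hobt k l (Finset.ne_of_mem_erase hl).symm
  linarith

/-- (G): `d+1` big vectors.  Put `w = ∑ Zt`, `m_j = ab j * ‖Zb j‖`, `Λ = ∑ m_j`,
`v_j = Zb j + (m_j/Λ) • w`; they sum to `0`, hence lie in some `V` with `finrank V = d`. -/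
theorem G_ineq {κ : Type w} [Fintype κ] {d : ℕ} (hd : d ≤ finrank ℝ E) (φ : ℝ → ℝ) (W : ℝ)
    (Zb : Fin (d + 1) → E) (Zt : κ → E)
    (hsum : ∑ j, Zb j + ∑ k, Zt k = 0)
    (hobt : ∀ k l, k ≠ l → ⟪Zt k, Zt l⟫ ≤ 0)
    (ab : Fin (d + 1) → ℝ) (at' : κ → ℝ) (hab : ∀ j, 1 < ab j) (hat : ∀ k, 1 < at' k)
    (H : ∀ V : Submodule ℝ E, finrank ℝ V = d →
      ∑ j, (√(ab j ^ 2 * ‖Zb j‖ ^ 2 - ‖Zb j - V.starProjection (Zb j)‖ ^ 2) - φ (ab j))
      + ∑ k, (√(at' k ^ 2 * ‖Zt k‖ ^ 2 - ‖Zt k - V.starProjection (Zt k)‖ ^ 2) - φ (at' k)) ≤ W)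
    (hΛ : 0 < ∑ j, ab j * ‖Zb j‖)
    (hx : ∑ k, ‖Zt k‖ ^ 2 ≤ (∑ j, ab j * ‖Zb j‖) ^ 2) :
    √((∑ j, ab j * ‖Zb j‖) ^ 2 - ∑ k, ‖Zt k‖ ^ 2) - ∑ j, φ (ab j)
      + ∑ k, (√(at' k ^ 2 - 1) * ‖Zt k‖ - φ (at' k)) ≤ W := by
  set L : ℝ := ∑ j, ab j * ‖Zb j‖ with hL
  set x : ℝ := ∑ k, ‖Zt k‖ ^ 2 with hxdef
  set w : E := ∑ k, Zt k with hw
  set m : Fin (d + 1) → ℝ := fun j => ab j * ‖Zb j‖ with hm
  have hLm : L = ∑ j, m j := rfl
  set v : Fin (d + 1) → E := fun j => Zb j + (m j / L) • w with hv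
  have hvsum : ∑ j, v j = 0 := by
    simp only [hv, Finset.sum_add_distrib, ← Finset.sum_smul, ← Finset.sum_div]
    rw [← hLm, div_self hΛ.ne', one_smul, hsum]
  obtain ⟨V, hVle, hVd⟩ := exists_submodule_finrank_eq _ (finrank_span_le_of_sum_eq_zero v hvsum) hd
  have hvV : ∀ j, v j ∈ V := fun j => hVle (Submodule.subset_span ⟨j, rfl⟩)
  have hwx : ‖w‖ ^ 2 ≤ x := norm_sum_sq_le Zt hobt
  have hx0 : 0 ≤ x := Finset.sum_nonneg fun k _ => by positivity
  have hm0 : ∀ j, 0 ≤ m j := fun j => mul_nonneg (by linarith [hab j]) (norm_nonneg _)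
  have hbig : ∀ j, m j / L * √(L ^ 2 - x) ≤
      √(ab j ^ 2 * ‖Zb j‖ ^ 2 - ‖Zb j - V.starProjection (Zb j)‖ ^ 2) := by
    intro j
    have h1 : Zb j - V.starProjection (Zb j) = -((m j / L) • (w - V.starProjection w)) := by
      have h2 : Zb j = v j - (m j / L) • w := by simp [hv]
      have h3 : V.starProjection (v j) = v j := Submodule.starProjection_eq_self_iff.2 (hvV j)
      rw [h2, map_sub, map_smul, h3, smul_sub]
      abel
    have h4 : ‖Zb j - V.starProjection (Zb j)‖ ≤ m j / L * ‖w‖ := by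
      rw [h1, norm_neg, norm_smul, Real.norm_of_nonneg (div_nonneg (hm0 j) hΛ.le)]
      exact mul_le_mul_of_nonneg_left (norm_sub_starProjection_le V w) (div_nonneg (hm0 j) hΛ.le)
    have h5 : ‖Zb j - V.starProjection (Zb j)‖ ^ 2 ≤ (m j / L) ^ 2 * x := by
      calc ‖Zb j - V.starProjection (Zb j)‖ ^ 2 ≤ (m j / L * ‖w‖) ^ 2 := by gcongr
        _ = (m j / L) ^ 2 * ‖w‖ ^ 2 := by ring
        _ ≤ (m j / L) ^ 2 * x := by gcongr
    apply Real.le_sqrt_of_sq_le
    rw [mul_pow, Real.sq_sqrt (by linarith)]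
    have h6 : ab j ^ 2 * ‖Zb j‖ ^ 2 = (m j / L) ^ 2 * L ^ 2 := by
      rw [div_pow, div_mul_cancel₀ _ (pow_ne_zero 2 hΛ.ne')]
      simp only [hm]; ring
    rw [h6]
    linarith [mul_sub ((m j / L) ^ 2) (L ^ 2) x]
  have hsumbig : √(L ^ 2 - x) ≤
      ∑ j, √(ab j ^ 2 * ‖Zb j‖ ^ 2 - ‖Zb j - V.starProjection (Zb j)‖ ^ 2) := by
    calc √(L ^ 2 - x) = ∑ j, m j / L * √(L ^ 2 - x) := by
          rw [← Finset.sum_mul, ← Finset.sum_div, ← hLm, div_self hΛ.ne', one_mul]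
      _ ≤ _ := Finset.sum_le_sum fun j _ => hbig j
  have hVmain := H V hVd
  rw [Finset.sum_sub_distrib] at hVmain
  have htail : ∑ k, (√(at' k ^ 2 - 1) * ‖Zt k‖ - φ (at' k)) ≤
      ∑ k, (√(at' k ^ 2 * ‖Zt k‖ ^ 2 - ‖Zt k - V.starProjection (Zt k)‖ ^ 2) - φ (at' k)) :=
    Finset.sum_le_sum fun k _ => sub_le_sub_right (tail_term_le V (Zt k) (hat k)) _
  linarith

/-- (G'): at most `d` big vectors, contained in `V`. -/
theorem G'_ineq {κ : Type w} [Fintype κ] {d m : ℕ} (hd : d ≤ finrank ℝ E) (hm : m ≤ d)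
    (φ : ℝ → ℝ) (W : ℝ)
    (Zb : Fin m → E) (Zt : κ → E)
    (ab : Fin m → ℝ) (at' : κ → ℝ) (hab : ∀ j, 1 < ab j) (hat : ∀ k, 1 < at' k)
    (H : ∀ V : Submodule ℝ E, finrank ℝ V = d →
      ∑ j, (√(ab j ^ 2 * ‖Zb j‖ ^ 2 - ‖Zb j - V.starProjection (Zb j)‖ ^ 2) - φ (ab j))
      + ∑ k, (√(at' k ^ 2 * ‖Zt k‖ ^ 2 - ‖Zt k - V.starProjection (Zt k)‖ ^ 2) - φ (at' k)) ≤ W) :
    ∑ j, (ab j * ‖Zb j‖ - φ (ab j))
      + ∑ k, (√(at' k ^ 2 - 1) * ‖Zt k‖ - φ (at' k)) ≤ W := by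
  have h1 : finrank ℝ (Submodule.span ℝ (Set.range Zb)) ≤ d :=
    le_trans (finrank_range_le_card _) (by rwa [Fintype.card_fin])
  obtain ⟨V, hVle, hVd⟩ := exists_submodule_finrank_eq _ h1 hd
  have hZV : ∀ j, V.starProjection (Zb j) = Zb j := fun j =>
    Submodule.starProjection_eq_self_iff.2 (hVle (Submodule.subset_span ⟨j, rfl⟩))
  have hVmain := H V hVd
  have hbig : ∑ j, (ab j * ‖Zb j‖ - φ (ab j)) ≤
      ∑ j, (√(ab j ^ 2 * ‖Zb j‖ ^ 2 - ‖Zb j - V.starProjection (Zb j)‖ ^ 2) - φ (ab j)) := by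
    refine Finset.sum_le_sum fun j _ => sub_le_sub_right ?_ _
    rw [hZV, sub_self, norm_zero]
    apply Real.le_sqrt_of_sq_le
    nlinarith
  have htail : ∑ k, (√(at' k ^ 2 - 1) * ‖Zt k‖ - φ (at' k)) ≤
      ∑ k, (√(at' k ^ 2 * ‖Zt k‖ ^ 2 - ‖Zt k - V.starProjection (Zt k)‖ ^ 2) - φ (at' k)) :=
    Finset.sum_le_sum fun k _ => sub_le_sub_right (tail_term_le V (Zt k) (hat k)) _
  linarith

end Crest.Agent.Propeller
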