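import Crest.Agent.Propeller.Cell
import Crest.Agent.Propeller.Vec
import Crest.Agent.Propeller.ScalarP
import Crest.Agent.Propeller.ScalarC

/-! Assembly. -/

set_option autoImplicit false

open MeasureTheory ProbabilityTheory Module
open scoped RealInnerProductSpace

namespace Crest.Agent.Propeller

universe u v w

/-! ### optimal parameters -/

theorem one_lt_inv_sqrt {s : ℝ} (h0 : 0 < s) (h1 : s < 1) : 1 < 1 / √(1 - s) := by
  have h2 : 0 < √(1 - s) := Real.sqrt_pos.2 (by linarith)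
  rw [one_lt_div h2]
  rw [Real.sqrt_lt' one_pos]
  linarith

theorem big2 {s : ℝ} (h0 : 0 < s) (h1 : s < 1) :
    s / √(1 - s ^ 2) - phi2 (1 / √(1 - s ^ 2)) = Real.arcsin s := by
  have h2 : 0 < 1 - s ^ 2 := by nlinarith
  have h3 : 0 < √(1 - s ^ 2) := Real.sqrt_pos.2 h2
  have h4 : √((1 / √(1 - s ^ 2)) ^ 2 - 1) = s / √(1 - s ^ 2) := by
    rw [← Real.sqrt_sq (div_nonneg h0.le h3.le)]
    congr 1
    rw [div_pow, div_pow, Real.sq_sqrt h2.le]
    field_simp
    ring
  have h5 : Real.arccos (1 / (1 / √(1 - s ^ 2))) = Real.arcsin s := by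
    rw [one_div_one_div, Real.arccos_eq_arcsin (Real.sqrt_nonneg _), Real.sq_sqrt h2.le]
    congr 1
    rw [sub_sub_cancel, Real.sqrt_sq h0.le]
  rw [phi2, h4, h5]
  ring

theorem tail2 {s : ℝ} (h0 : 0 < s) (h1 : s < 1) :
    √((1 / √(1 - s)) ^ 2 - 1) * s - phi2 (1 / √(1 - s)) = hf s := by
  have h2 : 0 < 1 - s := by linarith
  have h3 : 0 < √(1 - s) := Real.sqrt_pos.2 h2
  have h4 : √((1 / √(1 - s)) ^ 2 - 1) = √s / √(1 - s) := by
    rw [← Real.sqrt_div h0.le]
    congr 1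
    rw [div_pow, Real.sq_sqrt h2.le]
    field_simp
    ring
  have h5 : Real.arccos (1 / (1 / √(1 - s))) = Real.arcsin √s := by
    rw [one_div_one_div, Real.arccos_eq_arcsin (Real.sqrt_nonneg _), Real.sq_sqrt h2.le]
    congr 2
    ring
  have h6 : √(s * (1 - s)) = √s * √(1 - s) := Real.sqrt_mul h0.le _
  rw [phi2, h4, h5, hf, h6]
  have h7 : √s / √(1 - s) * s - √s / √(1 - s) = - (√s * √(1 - s)) := by
    field_simp
    rw [Real.sq_sqrt h2.le]
    ring
  linarith

theorem big3 {s : ℝ} (h0 : 0 < s) (h1 : s < 1) :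
    s / √(1 - s) - phi3 (1 / √(1 - s)) = rf s := by
  have h2 : 0 < 1 - s := by linarith
  have h3 : 0 < √(1 - s) := Real.sqrt_pos.2 h2
  have h4 := Real.sq_sqrt h2.le
  rw [phi3, rf, one_div_one_div]
  have h5 : s / √(1 - s) - 1 / √(1 - s) = -√(1 - s) := by
    field_simp
    rw [h4]
    ring
  linarith

theorem cc_pos {s : ℝ} (h0 : 0 < s) (h1 : s < 1) : 0 < cc s := by
  rw [cc]
  apply Real.sqrt_pos.2
  have := Real.rpow_lt_one h0.le h1 (by norm_num : (0:ℝ) < 2 / 3)
  linarith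

theorem cc_lt_one {s : ℝ} (h0 : 0 < s) (h1 : s < 1) : cc s < 1 := by
  rw [cc, Real.sqrt_lt' one_pos]
  have := Real.rpow_pos_of_pos h0 (2 / 3 : ℝ)
  linarith

theorem cc_spec {s : ℝ} (h0 : 0 < s) (h1 : s < 1) : s = √(1 - cc s ^ 2) ^ 3 := by
  have h2 : 0 ≤ 1 - s ^ (2 / 3 : ℝ) := by
    have := Real.rpow_lt_one h0.le h1 (by norm_num : (0:ℝ) < 2 / 3)
    linarith
  rw [cc, Real.sq_sqrt h2, sub_sub_cancel, Real.sqrt_eq_rpow, ← Real.rpow_natCast,
    ← Real.rpow_mul h0.le, ← Real.rpow_mul h0.le]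
  norm_num

theorem tail3 {s : ℝ} (h0 : 0 < s) (h1 : s < 1) :
    √((1 / cc s) ^ 2 - 1) * s - phi3 (1 / cc s) = Rf s := by
  have hc0 := cc_pos h0 h1
  have hc1 := cc_lt_one h0 h1
  have hs := cc_spec h0 h1
  rw [Rf, phi3, one_div_one_div]
  set c := cc s with hc
  have h2 : 0 ≤ 1 - c ^ 2 := by nlinarith
  have h4 : √((1 / c) ^ 2 - 1) = √(1 - c ^ 2) / c := by
    have h6 : (1 / c) ^ 2 - 1 = (1 - c ^ 2) / c ^ 2 := by field_simp
    rw [h6, Real.sqrt_div h2, Real.sqrt_sq hc0.le]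
  rw [h4, hs]
  have h5 : √(1 - c ^ 2) / c * √(1 - c ^ 2) ^ 3 = (1 - c ^ 2) ^ 2 / c := by
    have := Real.sq_sqrt h2
    calc √(1 - c ^ 2) / c * √(1 - c ^ 2) ^ 3 = (√(1 - c ^ 2) ^ 2) ^ 2 / c := by ring
      _ = _ := by rw [this]
  rw [h5]
  field_simp
  ring

theorem phi2_nonneg_m {a : ℝ} (ha : 1 < a) : 0 ≤ phi2 a := by
  have h0 : 0 < a := by linarith
  rw [phi2, sub_nonneg]
  have h1 : Real.arccos (1 / a) ≤ Real.tan (Real.arccos (1 / a)) := by
    apply Real.le_tan (Real.arccos_nonneg _)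
    rw [Real.arccos_lt_pi_div_two]
    positivity
  rw [Real.tan_arccos] at h1
  have h2 : √(1 - (1 / a) ^ 2) / (1 / a) = √(a ^ 2 - 1) := by
    rw [div_div_eq_mul_div, div_one]
    have : √(1 - (1 / a) ^ 2) * a = √((1 - (1 / a) ^ 2) * a ^ 2) := by
      rw [Real.sqrt_mul' _ (by positivity), Real.sqrt_sq h0.le]
    rw [this]
    congr 1
    field_simp
  rwa [h2] at h1

theorem phi3_nonneg_m {a : ℝ} (ha : 1 < a) : 0 ≤ phi3 a := by
  have h0 : 0 < a := by linarith
  have : phi3 a = (a - 1) ^ 2 / a := by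
    rw [phi3]; field_simp; ring
  rw [this]
  positivity

/-! ### scaling -/

/-- scaling argument for (G) -/
theorem scale_G {L x T Φ W t : ℝ} (ht : 1 < t) (hW : 0 < W) (hΦ : 0 ≤ Φ)
    (h1 : √((t * L) ^ 2 - t ^ 2 * x) + t * T - Φ ≤ W) (h2 : W ≤ √(L ^ 2 - x) + T - Φ) : False := by
  have h3 : √((t * L) ^ 2 - t ^ 2 * x) = t * √(L ^ 2 - x) := by
    rw [show (t * L) ^ 2 - t ^ 2 * x = t ^ 2 * (L ^ 2 - x) by ring,
      Real.sqrt_mul (by positivity), Real.sqrt_sq (by linarith)]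
  rw [h3] at h1
  nlinarith [mul_pos (sub_pos.2 ht) (show 0 < √(L ^ 2 - x) + T by linarith)]

theorem scale_G' {T Φ W t : ℝ} (ht : 1 < t) (hW : 0 < W) (hΦ : 0 ≤ Φ)
    (h1 : t * T - Φ ≤ W) (h2 : W ≤ T - Φ) : False := by
  nlinarith [mul_pos (sub_pos.2 ht) (show 0 < T by linarith)]

variable {E : Type u} [NormedAddCommGroup E] [InnerProductSpace ℝ E] [FiniteDimensional ℝ E]
    [MeasurableSpace E] [BorelSpace E]

/-- a finite measurable partition -/
structure IsPart {ι : Type v} (A : ι → Set E) : Prop where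
  meas : ∀ i, MeasurableSet (A i)
  disj : Pairwise fun i j => Disjoint (A i) (A j)
  cov : ⋃ i, A i = Set.univ

theorem bary_ne_zero {ι : Type v} {A : ι → Set E}
    (hneg : ∀ i j, i ≠ j → ⟪bary (A i), bary (A j)⟫ < 0) {i j : ι} (hij : i ≠ j) :
    bary (A i) ≠ 0 := by
  intro h
  have := hneg i j hij
  rw [h, inner_zero_left] at this
  exact lt_irrefl _ this

theorem core3 {κ : Type w} [Fintype κ] (B : Fin 3 ⊕ κ → Set E) (hB : IsPart B)
    (hneg : ∀ i j, i ≠ j → ⟪bary (B i), bary (B j)⟫ < 0) {t : ℝ} (ht : 1 < t)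
    (htot : ∑ i, ‖bary (B i)‖ ^ 2 = t ^ 2 * (9 / 4))
    (h3 : 9 / 4 - 49 / 400 ≤ ∑ j : Fin 3, (‖bary (B (Sum.inl j))‖ / t) ^ 2) : False := by
  classical
  have ht0 : 0 < t := by linarith
  set s : Fin 3 → ℝ := fun j => ‖bary (B (Sum.inl j))‖ / t with hs
  set r : κ → ℝ := fun k => ‖bary (B (Sum.inr k))‖ / t with hr
  have hsb : ∀ j, ‖bary (B (Sum.inl j))‖ = t * s j := fun j => by
    simp only [hs]; field_simp
  have hrb : ∀ k, ‖bary (B (Sum.inr k))‖ = t * r k := fun k => by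
    simp only [hr]; field_simp
  have hs0 : ∀ j, 0 < s j := by
    intro j
    refine div_pos (norm_pos_iff.2 ?_) ht0
    have hne : Sum.inl j ≠ (Sum.inl (j + 1) : Fin 3 ⊕ κ) := by
      intro h
      have h' := Sum.inl_injective h
      revert h'
      fin_cases j <;> decide
    exact bary_ne_zero hneg hne
  have hs1 : ∀ j, s j < 1 := fun j => by
    rw [hs, div_lt_one ht0]
    exact lt_of_le_of_lt (norm_bary_le_one (hB.meas _)) ht
  have hr0 : ∀ k, 0 < r k := by
    intro k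
    refine div_pos (norm_pos_iff.2 ?_) ht0
    exact bary_ne_zero hneg (i := Sum.inr k) (j := Sum.inl 0) (by simp)
  have hr1 : ∀ k, r k < 1 := fun k => by
    rw [hr, div_lt_one ht0]
    exact lt_of_le_of_lt (norm_bary_le_one (hB.meas _)) ht
  have hsum : ∑ j, s j ^ 2 + ∑ k, r k ^ 2 = 9 / 4 := by
    rw [Fintype.sum_sum_type] at htot
    simp only [hsb, hrb, mul_pow, ← Finset.mul_sum, ← mul_add] at htot
    exact mul_left_cancel₀ (by positivity) htot
  have hA : ∑ k, r k ^ 2 ≤ 49 / 400 := by linarith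
  obtain ⟨h1, h2⟩ := scalarP s r hs0 hs1 hr0 hsum hA
  have hd : 2 ≤ finrank ℝ E := by
    have := card_le_finrank_add_one (fun i => bary (B i)) hneg
    rw [Fintype.card_sum, Fintype.card_fin] at this
    omega
  have hs2 : ∀ j, s j ^ 2 < 1 := fun j => by nlinarith [hs0 j, hs1 j]
  set ab : Fin 3 → ℝ := fun j => 1 / √(1 - s j ^ 2) with hab
  set at' : κ → ℝ := fun k => 1 / √(1 - r k) with hat
  have hab1 : ∀ j, 1 < ab j := fun j => one_lt_inv_sqrt (pow_pos (hs0 j) 2) (hs2 j)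
  have hat1 : ∀ k, 1 < at' k := fun k => one_lt_inv_sqrt (hr0 k) (hr1 k)
  set L : ℝ := ∑ j, s j / √(1 - s j ^ 2) with hL
  have hL0 : 0 < L := Finset.sum_pos (fun j _ => div_pos (hs0 j)
    (Real.sqrt_pos.2 (by linarith [hs2 j]))) ⟨0, Finset.mem_univ _⟩
  have hLt : ∑ j, ab j * ‖bary (B (Sum.inl j))‖ = t * L := by
    rw [hL, Finset.mul_sum]
    refine Finset.sum_congr rfl fun j _ => ?_
    rw [hsb, hab]; ring
  have hxt : ∑ k, ‖bary (B (Sum.inr k))‖ ^ 2 = t ^ 2 * ∑ k, r k ^ 2 := by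
    rw [Finset.mul_sum]
    refine Finset.sum_congr rfl fun k _ => ?_
    rw [hrb]; ring
  have hG := G_ineq (d := 2) hd phi2 Real.pi (fun j => bary (B (Sum.inl j)))
    (fun k => bary (B (Sum.inr k)))
    (by
      have := sum_bary B hB.meas hB.disj hB.cov
      rwa [Fintype.sum_sum_type] at this)
    (fun k l hkl => (hneg _ _ (by simpa using hkl)).le)
    ab at' hab1 hat1
    (fun V hV => by
      have := resource2 B hB.meas hB.disj hB.cov V hV (Sum.elim ab at')
        (by rintro (j | k); exacts [hab1 j, hat1 k])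
      rw [Fintype.sum_sum_type] at this
      simpa using this)
    (by rw [hLt]; positivity)
    (by rw [hLt, hxt, mul_pow]; gcongr)
  rw [hLt, hxt] at hG
  refine scale_G (L := L) (x := ∑ k, r k ^ 2) (T := ∑ k, √(at' k ^ 2 - 1) * r k)
    (Φ := ∑ j, phi2 (ab j) + ∑ k, phi2 (at' k)) (W := Real.pi) ht Real.pi_pos
    (add_nonneg (Finset.sum_nonneg fun j _ => phi2_nonneg_m (hab1 j))
      (Finset.sum_nonneg fun k _ => phi2_nonneg_m (hat1 k))) ?_ ?_
  · have e1 : ∑ k, (√(at' k ^ 2 - 1) * ‖bary (B (Sum.inr k))‖ - phi2 (at' k)) =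
        t * ∑ k, √(at' k ^ 2 - 1) * r k - ∑ k, phi2 (at' k) := by
      rw [Finset.sum_sub_distrib, Finset.mul_sum]
      congr 1
      refine Finset.sum_congr rfl fun k _ => ?_
      rw [hrb]; ring
    rw [e1] at hG
    linarith
  · have e2 : ∑ j, Real.arcsin (s j) = L - ∑ j, phi2 (ab j) := by
      rw [hL, ← Finset.sum_sub_distrib]
      exact Finset.sum_congr rfl fun j _ => (big2 (hs0 j) (hs1 j)).symm
    have e3 : ∑ k, hf (r k) = ∑ k, √(at' k ^ 2 - 1) * r k - ∑ k, phi2 (at' k) := by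
      rw [← Finset.sum_sub_distrib]
      exact Finset.sum_congr rfl fun k _ => (tail2 (hr0 k) (hr1 k)).symm
    rw [e2, e3] at h2
    linarith

theorem core4 {κ : Type w} [Fintype κ] (B : Fin 4 ⊕ κ → Set E) (hB : IsPart B)
    (hneg : ∀ i j, i ≠ j → ⟪bary (B i), bary (B j)⟫ < 0) {t : ℝ} (ht : 1 < t)
    (htot : ∑ i, ‖bary (B i)‖ ^ 2 = t ^ 2 * (9 / 4))
    (h01 : ‖bary (B (Sum.inl 1))‖ ≤ ‖bary (B (Sum.inl 0))‖)
    (h12 : ‖bary (B (Sum.inl 2))‖ ≤ ‖bary (B (Sum.inl 1))‖)
    (h23 : ‖bary (B (Sum.inl 3))‖ ≤ ‖bary (B (Sum.inl 2))‖)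
    (htl : ∀ k, ‖bary (B (Sum.inr k))‖ ≤ ‖bary (B (Sum.inl 3))‖)
    (h3 : (‖bary (B (Sum.inl 0))‖ / t) ^ 2 + (‖bary (B (Sum.inl 1))‖ / t) ^ 2
      + (‖bary (B (Sum.inl 2))‖ / t) ^ 2 ≤ 9 / 4 - 49 / 400) : False := by
  classical
  have ht0 : 0 < t := by linarith
  set s : Fin 4 → ℝ := fun j => ‖bary (B (Sum.inl j))‖ / t with hs
  set r : κ → ℝ := fun k => ‖bary (B (Sum.inr k))‖ / t with hr
  have hsb : ∀ j, ‖bary (B (Sum.inl j))‖ = t * s j := fun j => by
    simp only [hs]; field_simp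
  have hrb : ∀ k, ‖bary (B (Sum.inr k))‖ = t * r k := fun k => by
    simp only [hr]; field_simp
  have hs0 : ∀ j, 0 < s j := by
    intro j
    refine div_pos (norm_pos_iff.2 ?_) ht0
    have hne : Sum.inl j ≠ (Sum.inl (j + 1) : Fin 4 ⊕ κ) := by
      intro h
      have h' := Sum.inl_injective h
      revert h'
      fin_cases j <;> decide
    exact bary_ne_zero hneg hne
  have hs1 : ∀ j, s j < 1 := fun j => by
    rw [hs, div_lt_one ht0]
    exact lt_of_le_of_lt (norm_bary_le_one (hB.meas _)) ht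
  have hr0 : ∀ k, 0 < r k := by
    intro k
    refine div_pos (norm_pos_iff.2 ?_) ht0
    exact bary_ne_zero hneg (i := Sum.inr k) (j := Sum.inl 0) (by simp)
  have hr1 : ∀ k, r k < 1 := fun k => by
    rw [hr, div_lt_one ht0]
    exact lt_of_le_of_lt (norm_bary_le_one (hB.meas _)) ht
  have hsum : ∑ j, s j ^ 2 + ∑ k, r k ^ 2 = 9 / 4 := by
    rw [Fintype.sum_sum_type] at htot
    simp only [hsb, hrb, mul_pow, ← Finset.mul_sum, ← mul_add] at htot
    exact mul_left_cancel₀ (by positivity) htot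
  have hA : 49 / 400 ≤ s 3 ^ 2 + ∑ k, r k ^ 2 := by
    rw [Fin.sum_univ_four] at hsum
    have : s 0 ^ 2 + s 1 ^ 2 + s 2 ^ 2 ≤ 9 / 4 - 49 / 400 := h3
    linarith
  have hmono : ∀ {a b : ℝ}, a ≤ b → a / t ≤ b / t := fun h => by gcongr
  have hSC := scalarC s r hs0 hs1 hr0 (hmono h01) (hmono h12) (hmono h23)
    (fun k => hmono (htl k)) hsum hA
  have hd : 3 ≤ finrank ℝ E := by
    have := card_le_finrank_add_one (fun i => bary (B i)) hneg
    rw [Fintype.card_sum, Fintype.card_fin] at this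
    omega
  have hcr0 : ∀ k, 0 < cc (r k) := fun k => cc_pos (hr0 k) (hr1 k)
  set at' : κ → ℝ := fun k => 1 / cc (r k) with hat
  have hat1 : ∀ k, 1 < at' k := fun k => by
    rw [hat, one_lt_div (hcr0 k)]
    exact cc_lt_one (hr0 k) (hr1 k)
  have e1 : ∑ k, (√(at' k ^ 2 - 1) * ‖bary (B (Sum.inr k))‖ - phi3 (at' k)) =
      t * ∑ k, √(at' k ^ 2 - 1) * r k - ∑ k, phi3 (at' k) := by
    rw [Finset.sum_sub_distrib, Finset.mul_sum]
    congr 1
    refine Finset.sum_congr rfl fun k _ => ?_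
    rw [hrb]; ring
  have e3 : ∑ k, Rf (r k) = ∑ k, √(at' k ^ 2 - 1) * r k - ∑ k, phi3 (at' k) := by
    rw [← Finset.sum_sub_distrib]
    exact Finset.sum_congr rfl fun k _ => (tail3 (hr0 k) (hr1 k)).symm
  have hres : ∀ (ab : Fin 4 → ℝ), (∀ j, 1 < ab j) → ∀ V : Submodule ℝ E, finrank ℝ V = 3 →
      ∑ j, (√(ab j ^ 2 * ‖bary (B (Sum.inl j))‖ ^ 2
        - ‖bary (B (Sum.inl j)) - V.starProjection (bary (B (Sum.inl j)))‖ ^ 2) - phi3 (ab j))
      + ∑ k, (√(at' k ^ 2 * ‖bary (B (Sum.inr k))‖ ^ 2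
        - ‖bary (B (Sum.inr k)) - V.starProjection (bary (B (Sum.inr k)))‖ ^ 2)
          - phi3 (at' k)) ≤ 4 := by
    intro ab hab1 V hV
    have := resource3 B hB.meas hB.disj hB.cov V hV (Sum.elim ab at')
      (by rintro (j | k); exacts [hab1 j, hat1 k])
    rw [Fintype.sum_sum_type] at this
    simpa using this
  rcases hSC with ⟨h1, h2⟩ | h2
  · set ab : Fin 4 → ℝ := fun j => 1 / √(1 - s j) with hab
    have hab1 : ∀ j, 1 < ab j := fun j => one_lt_inv_sqrt (hs0 j) (hs1 j)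
    set L : ℝ := ∑ j, s j / √(1 - s j) with hL
    have hL0 : 0 < L := Finset.sum_pos (fun j _ => div_pos (hs0 j)
      (Real.sqrt_pos.2 (by linarith [hs1 j]))) ⟨0, Finset.mem_univ _⟩
    have hLt : ∑ j, ab j * ‖bary (B (Sum.inl j))‖ = t * L := by
      rw [hL, Finset.mul_sum]
      refine Finset.sum_congr rfl fun j _ => ?_
      rw [hsb, hab]; ring
    have hxt : ∑ k, ‖bary (B (Sum.inr k))‖ ^ 2 = t ^ 2 * ∑ k, r k ^ 2 := by
      rw [Finset.mul_sum]
      refine Finset.sum_congr rfl fun k _ => ?_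
      rw [hrb]; ring
    have hG := G_ineq (d := 3) hd phi3 4 (fun j => bary (B (Sum.inl j)))
      (fun k => bary (B (Sum.inr k)))
      (by
        have := sum_bary B hB.meas hB.disj hB.cov
        rwa [Fintype.sum_sum_type] at this)
      (fun k l hkl => (hneg _ _ (by simpa using hkl)).le)
      ab at' hab1 hat1 (hres ab hab1)
      (by rw [hLt]; positivity)
      (by rw [hLt, hxt, mul_pow]; gcongr)
    rw [hLt, hxt] at hG
    refine scale_G (L := L) (x := ∑ k, r k ^ 2) (T := ∑ k, √(at' k ^ 2 - 1) * r k)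
      (Φ := ∑ j, phi3 (ab j) + ∑ k, phi3 (at' k)) (W := 4) ht (by norm_num)
      (add_nonneg (Finset.sum_nonneg fun j _ => phi3_nonneg_m (hab1 j))
        (Finset.sum_nonneg fun k _ => phi3_nonneg_m (hat1 k))) ?_ ?_
    · rw [e1] at hG
      linarith
    · have e2 : ∑ j, rf (s j) = L - ∑ j, phi3 (ab j) := by
        rw [hL, ← Finset.sum_sub_distrib]
        exact Finset.sum_congr rfl fun j _ => (big3 (hs0 j) (hs1 j)).symm
      rw [e2, e3] at h2
      linarith
  · -- (G') with three big vectors; the fourth is treated as a tail vector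
    set ab : Fin 4 → ℝ := fun j => if j = 3 then 1 / cc (s 3) else 1 / √(1 - s j) with hab
    have hab1 : ∀ j, 1 < ab j := fun j => by
      simp only [hab]
      split_ifs with hj
      · rw [one_lt_div (cc_pos (hs0 3) (hs1 3))]
        exact cc_lt_one (hs0 3) (hs1 3)
      · exact one_lt_inv_sqrt (hs0 j) (hs1 j)
    have hG := G'_ineq (E := E) (d := 3) (m := 3) hd le_rfl phi3 4
      (fun j : Fin 3 => bary (B (Sum.inl j.castSucc)))
      (fun k : Unit ⊕ κ => bary (B (Sum.elim (fun _ => Sum.inl 3) Sum.inr k)))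
      (fun j : Fin 3 => ab j.castSucc) (Sum.elim (fun _ => ab 3) at')
      (fun j => hab1 _) (by rintro (_ | k); exacts [hab1 3, hat1 k])
      (fun V hV => by
        have := hres ab hab1 V hV
        rw [Fin.sum_univ_castSucc] at this
        rw [Fintype.sum_sum_type]
        simp only [Sum.elim_inl, Sum.elim_inr, Finset.univ_unique, Finset.sum_singleton]
        have h3l : (Fin.last 3 : Fin 4) = 3 := rfl
        rw [h3l] at this
        linarith)
    rw [Fintype.sum_sum_type] at hG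
    simp only [Sum.elim_inl, Sum.elim_inr, Finset.univ_unique, Finset.sum_singleton] at hG
    rw [e1, Finset.sum_sub_distrib] at hG
    have hLt : ∑ j : Fin 3, ab j.castSucc * ‖bary (B (Sum.inl j.castSucc))‖ =
        t * ∑ j : Fin 3, ab j.castSucc * s j.castSucc := by
      rw [Finset.mul_sum]
      refine Finset.sum_congr rfl fun j _ => ?_
      rw [hsb]; ring
    rw [hLt, hsb 3] at hG
    refine scale_G' (T := ∑ j : Fin 3, ab j.castSucc * s j.castSucc
        + √(ab 3 ^ 2 - 1) * s 3 + ∑ k, √(at' k ^ 2 - 1) * r k)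
      (Φ := ∑ j : Fin 3, phi3 (ab j.castSucc) + phi3 (ab 3) + ∑ k, phi3 (at' k)) (W := 4)
      ht (by norm_num)
      (add_nonneg (add_nonneg (Finset.sum_nonneg fun j _ => phi3_nonneg_m (hab1 _))
        (phi3_nonneg_m (hab1 3))) (Finset.sum_nonneg fun k _ => phi3_nonneg_m (hat1 k))) ?_ ?_
    · linarith
    · have e2 : ∀ j : Fin 3, ab j.castSucc * s j.castSucc - phi3 (ab j.castSucc)
          = rf (s j.castSucc) := by
        intro j
        have hj : (j.castSucc : Fin 4) ≠ 3 := by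
          intro h
          revert h
          fin_cases j <;> decide
        have : ab j.castSucc = 1 / √(1 - s j.castSucc) := by simp only [hab, if_neg hj]
        rw [this, ← big3 (hs0 _) (hs1 _)]
        ring
      have e4 : √(ab 3 ^ 2 - 1) * s 3 - phi3 (ab 3) = Rf (s 3) := by
        have : ab 3 = 1 / cc (s 3) := by simp only [hab, if_true]
        rw [this]
        exact tail3 (hs0 3) (hs1 3)
      have e5 : ∑ j : Fin 3, ab j.castSucc * s j.castSucc - ∑ j : Fin 3, phi3 (ab j.castSucc)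
          = rf (s 0) + rf (s 1) + rf (s 2) := by
        rw [← Finset.sum_sub_distrib, Finset.sum_congr rfl fun j _ => e2 j, Fin.sum_univ_three]
        rfl
      rw [e3] at h2
      linarith

theorem IsPart.comp {ι : Type v} {κ : Type w} {A : ι → Set E} (hA : IsPart A) (e : κ ≃ ι) :
    IsPart (fun x => A (e x)) where
  meas := fun _ => hA.meas _
  disj := fun _ _ h => hA.disj (e.injective.ne h)
  cov := by rw [← hA.cov]; exact e.surjective.iUnion_comp A

theorem core {n : ℕ} (A : Fin n → Set E) (hA : IsPart A)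
    (hneg : ∀ i j, i ≠ j → ⟪bary (A i), bary (A j)⟫ < 0)
    (hanti : Antitone fun i => ‖bary (A i)‖) : ∑ i, ‖bary (A i)‖ ^ 2 ≤ 9 / 4 := by
  by_contra hcon
  have hN : 9 / 4 < ∑ i, ‖bary (A i)‖ ^ 2 := not_le.1 hcon
  set N : ℝ := ∑ i, ‖bary (A i)‖ ^ 2 with hNdef
  have hn : 3 ≤ n := by
    by_contra hlt
    have h1 : N ≤ ∑ _i : Fin n, (1 : ℝ) := Finset.sum_le_sum fun i _ => by
      have := norm_bary_le_one (hA.meas i)
      have h0 := norm_nonneg (bary (A i))
      nlinarith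
    rw [Finset.sum_const, Finset.card_univ, Fintype.card_fin, nsmul_eq_mul, mul_one] at h1
    have h2 : (n : ℝ) ≤ 2 := by exact_mod_cast (by omega : n ≤ 2)
    linarith
  set t : ℝ := √(N / (9 / 4)) with ht
  have ht2 : t ^ 2 = N / (9 / 4) := Real.sq_sqrt (by positivity)
  have ht1 : 1 < t := by
    rw [ht, Real.lt_sqrt one_pos.le]
    rw [one_pow, one_lt_div (by norm_num)]
    exact hN
  have ht0 : 0 < t := by linarith
  have htN : N = t ^ 2 * (9 / 4) := by rw [ht2]; ring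
  obtain ⟨m, rfl⟩ : ∃ m, n = 3 + m := Nat.exists_eq_add_of_le hn
  by_cases h3 : 9 / 4 - 49 / 400 ≤ ∑ j : Fin 3, (‖bary (A (Fin.castAdd m j))‖ / t) ^ 2
  · refine core3 (fun x : Fin 3 ⊕ Fin m => A (finSumFinEquiv x)) (hA.comp finSumFinEquiv)
      (fun i j hij => hneg _ _ (finSumFinEquiv.injective.ne hij)) ht1 ?_ ?_
    · rw [← htN, hNdef]
      exact Equiv.sum_comp finSumFinEquiv (fun i => ‖bary (A i)‖ ^ 2)
    · simpa using h3
  · have hm : m ≠ 0 := by
      rintro rfl
      apply h3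
      have : ∑ j : Fin 3, (‖bary (A (Fin.castAdd 0 j))‖ / t) ^ 2 = N / t ^ 2 := by
        rw [hNdef, Finset.sum_div]
        refine Finset.sum_congr rfl fun j _ => ?_
        rw [div_pow]
        rfl
      rw [this, htN]
      rw [mul_div_cancel_left₀ _ (pow_ne_zero 2 ht0.ne')]
      norm_num
    obtain ⟨m', rfl⟩ : ∃ m', m = m' + 1 := Nat.exists_eq_succ_of_ne_zero hm
    set e : Fin 4 ⊕ Fin m' ≃ Fin (3 + (m' + 1)) :=
      finSumFinEquiv.trans (finCongr (by omega)) with he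
    have hel : ∀ j : Fin 4, ((e (Sum.inl j) : Fin (3 + (m' + 1))) : ℕ) = j := fun j => by
      simp [he]
    have her : ∀ k : Fin m', ((e (Sum.inr k) : Fin (3 + (m' + 1))) : ℕ) = 4 + k := fun k => by
      simp [he]
    refine core4 (fun x => A (e x)) (hA.comp e)
      (fun i j hij => hneg _ _ (e.injective.ne hij)) ht1 ?_ ?_ ?_ ?_ ?_ ?_
    · rw [← htN, hNdef]
      exact Equiv.sum_comp e (fun i => ‖bary (A i)‖ ^ 2)
    · apply hanti; rw [Fin.le_def, hel, hel]; decide
    · apply hanti; rw [Fin.le_def, hel, hel]; decide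
    · apply hanti; rw [Fin.le_def, hel, hel]; decide
    · intro k
      apply hanti; rw [Fin.le_def, hel, her]
      have : ((3 : Fin 4) : ℕ) = 3 := rfl
      omega
    · have h3' := (not_le.1 h3).le
      rw [Fin.sum_univ_three] at h3'
      have e0 : e (Sum.inl 0) = Fin.castAdd (m' + 1) (0 : Fin 3) := Fin.ext (by rw [hel]; rfl)
      have e1 : e (Sum.inl 1) = Fin.castAdd (m' + 1) (1 : Fin 3) := Fin.ext (by rw [hel]; rfl)
      have e2 : e (Sum.inl 2) = Fin.castAdd (m' + 1) (2 : Fin 3) := Fin.ext (by rw [hel]; rfl)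
      simp only [e0, e1, e2]
      exact h3'

theorem sum_sq_bary_le (n : ℕ) : ∀ (ι : Type v) [Fintype ι] (A : ι → Set E),
    Fintype.card ι = n → IsPart A → ∑ i, ‖bary (A i)‖ ^ 2 ≤ 9 / 4 := by
  induction n with
  | zero =>
    intro ι _ A hc _
    rw [Fintype.card_eq_zero_iff] at hc
    simp only [Finset.univ_eq_empty, Finset.sum_empty]
    norm_num
  | succ n ih =>
    intro ι _ A hc hA
    classical
    by_cases h : ∃ i j, i ≠ j ∧ 0 ≤ ⟪bary (A i), bary (A j)⟫
    · obtain ⟨i, j, hij, hnn⟩ := h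
      set A' : {k : ι // k ≠ j} → Set E := fun k => if (k : ι) = i then A i ∪ A j else A k with hA'
      have hcard : Fintype.card {k : ι // k ≠ j} = n := by
        rw [Fintype.card_subtype_compl, Fintype.card_subtype_eq, hc]
        rfl
      have hpart : IsPart A' := by
        constructor
        · intro k
          simp only [hA']
          split_ifs
          · exact (hA.meas i).union (hA.meas j)
          · exact hA.meas k
        · intro k l hkl
          have hkl' : (k : ι) ≠ l := fun h => hkl (Subtype.ext h)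
          simp only [hA']
          split_ifs with h1 h2 h2
          · exact absurd (h1.trans h2.symm) hkl'
          · exact Disjoint.union_left (hA.disj (h1 ▸ hkl')) (hA.disj l.2.symm)
          · exact Disjoint.union_right (hA.disj (h2 ▸ hkl')) (hA.disj k.2)
          · exact hA.disj hkl'
        · rw [Set.eq_univ_iff_forall]
          intro x
          have hx : x ∈ ⋃ i, A i := by rw [hA.cov]; trivial
          obtain ⟨k, hk⟩ := Set.mem_iUnion.1 hx
          rw [Set.mem_iUnion]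
          by_cases hkj : k = j
          · refine ⟨⟨i, hij⟩, ?_⟩
            simp only [hA', if_true]
            exact Or.inr (hkj ▸ hk)
          · refine ⟨⟨k, hkj⟩, ?_⟩
            simp only [hA']
            split_ifs with h1
            · exact Or.inl (h1 ▸ hk)
            · exact hk
      have hle := ih {k : ι // k ≠ j} A' hcard hpart
      refine le_trans ?_ hle
      have h1 : ∑ k, ‖bary (A k)‖ ^ 2 = ‖bary (A j)‖ ^ 2
          + ∑ k : {k : ι // k ≠ j}, ‖bary (A k)‖ ^ 2 :=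
        Fintype.sum_eq_add_sum_subtype_ne (fun k => ‖bary (A k)‖ ^ 2) j
      have h2 : ∑ k : {k : ι // k ≠ j}, (‖bary (A' k)‖ ^ 2 - ‖bary (A k)‖ ^ 2) =
          ‖bary (A' ⟨i, hij⟩)‖ ^ 2 - ‖bary (A i)‖ ^ 2 := by
        rw [Finset.sum_eq_single (⟨i, hij⟩ : {k : ι // k ≠ j})]
        · intro k _ hk
          have : (k : ι) ≠ i := fun h => hk (Subtype.ext h)
          simp only [hA', if_neg this, sub_self]
        · intro h; exact absurd (Finset.mem_univ _) h
      have h3 : bary (A' ⟨i, hij⟩) = bary (A i) + bary (A j) := by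
        simp only [hA', if_true]
        exact bary_union (hA.meas i) (hA.meas j) (hA.disj hij)
      rw [h3, Finset.sum_sub_distrib, norm_add_sq_real] at h2
      linarith
    · have hneg : ∀ i j, i ≠ j → ⟪bary (A i), bary (A j)⟫ < 0 := by
        intro i j hij
        by_contra hc'
        exact h ⟨i, j, hij, not_lt.1 hc'⟩
      set e0 : Fin (n + 1) ≃ ι := (Fintype.equivFinOfCardEq hc).symm
      set σ := Tuple.sort (fun i => -‖bary (A (e0 i))‖) with hσ
      have hmono := Tuple.monotone_sort (fun i => -‖bary (A (e0 i))‖)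
      set e : Fin (n + 1) ≃ ι := σ.trans e0 with he
      have := core (fun i => A (e i)) (hA.comp e)
        (fun i j hij => hneg _ _ (e.injective.ne hij))
        (fun i j hij => by
          have := hmono hij
          simp only [Function.comp] at this
          exact neg_le_neg_iff.1 this)
      rwa [Equiv.sum_comp e (fun i => ‖bary (A i)‖ ^ 2)] at this

theorem main {ι : Type v} [Fintype ι] (A : ι → Set E)
    (hA : ∀ i, MeasurableSet (A i))
    (hdisj : Pairwise fun i j => Disjoint (A i) (A j))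
    (hcov : ⋃ i, A i = Set.univ) :
    ∑ i, ‖∫ x in A i, x ∂stdGaussian E‖ ^ 2 ≤ 9 / (8 * Real.pi) := by
  have h := sum_sq_bary_le (E := E) _ ι A rfl ⟨hA, hdisj, hcov⟩
  have h1 : ∀ i, ‖bary (A i)‖ ^ 2 = (2 * Real.pi) * ‖∫ x in A i, x ∂stdGaussian E‖ ^ 2 := by
    intro i
    rw [bary, norm_smul, mul_pow, Real.norm_of_nonneg (Real.sqrt_nonneg _),
      Real.sq_sqrt (by positivity)]
  simp only [h1, ← Finset.mul_sum] at h
  rw [le_div_iff₀ (by positivity)]
  linarith

end Crest.Agent.Propeller
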