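import Crest.Agent.Propeller.Basic

/-! Common helpers for the Gaussian integrals (chunks A and B): iterated integrals, polar coordinates
for `ℝ≥0∞`-valued functions. -/

set_option autoImplicit false

open MeasureTheory ProbabilityTheory Module Set
open scoped RealInnerProductSpace ENNReal

namespace Crest.Agent.Propeller

/-- `∫⁻` over `Fin (n+1) → ℝ` as an iterated integral. -/
lemma lintegral_pi_succ {n : ℕ} (μ : Measure ℝ) [SigmaFinite μ] (f : (Fin (n + 1) → ℝ) → ℝ≥0∞)
    (hf : Measurable f) :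
    ∫⁻ v, f v ∂(Measure.pi fun _ => μ) =
      ∫⁻ x, ∫⁻ w, f (Fin.cons x w) ∂(Measure.pi fun _ : Fin n => μ) ∂μ := by
  have h := (measurePreserving_piFinSuccAbove (fun _ : Fin (n + 1) => μ) 0).symm
  rw [← h.lintegral_comp hf]
  have hm : Measurable fun a : ℝ × (Fin n → ℝ) =>
      f ((MeasurableEquiv.piFinSuccAbove (fun _ : Fin (n + 1) => ℝ) 0).symm a) :=
    hf.comp (MeasurableEquiv.measurable _)
  rw [lintegral_prod _ hm.aemeasurable]
  refine lintegral_congr fun x => lintegral_congr fun w => ?_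
  rw [MeasurableEquiv.piFinSuccAbove_symm_apply]
  congr 1
  exact Fin.insertNth_zero (α := fun _ => ℝ) x w

lemma lintegral_pi_zero (μ : Measure ℝ) [SigmaFinite μ] (f : (Fin 0 → ℝ) → ℝ≥0∞) :
    ∫⁻ v, f v ∂(Measure.pi fun _ => μ) = f Fin.elim0 := by
  rw [Measure.pi_of_empty, lintegral_dirac]
  exact congrArg f (Subsingleton.elim _ _)

/-- gaussian integral as a Lebesgue integral with a density -/
lemma lintegral_gaussian (f : ℝ → ℝ≥0∞) (hf : Measurable f) :
    ∫⁻ x, f x ∂(gaussianReal 0 1) =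
      ∫⁻ x, ENNReal.ofReal ((√(2 * Real.pi))⁻¹ * Real.exp (-x ^ 2 / 2)) * f x := by
  rw [gaussianReal_of_var_ne_zero _ one_ne_zero,
    lintegral_withDensity_eq_lintegral_mul _ (measurable_gaussianPDF 0 1) hf]
  refine lintegral_congr fun x => ?_
  simp [gaussianPDF, gaussianPDFReal]

lemma volume_restrict_prod (s t : Set ℝ) :
    (volume : Measure (ℝ × ℝ)).restrict (s ×ˢ t) = (volume.restrict s).prod (volume.restrict t) := by
  rw [Measure.volume_eq_prod, Measure.prod_restrict]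

/-- radial functions in the plane -/
lemma lintegral_radial (G : ℝ → ℝ≥0∞) (hG : Measurable G) :
    ∫⁻ x : ℝ, ∫⁻ y : ℝ, G (x ^ 2 + y ^ 2) =
      ENNReal.ofReal (2 * Real.pi) * ∫⁻ r in Ioi (0 : ℝ), ENNReal.ofReal r * G (r ^ 2) := by
  have hm : Measurable fun p : ℝ × ℝ => G (p.1 ^ 2 + p.2 ^ 2) := hG.comp (by fun_prop)
  have h1 : ∫⁻ x : ℝ, ∫⁻ y : ℝ, G (x ^ 2 + y ^ 2) = ∫⁻ p : ℝ × ℝ, G (p.1 ^ 2 + p.2 ^ 2) := by
    rw [Measure.volume_eq_prod, lintegral_prod _ hm.aemeasurable]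
  rw [h1, ← lintegral_comp_polarCoord_symm, polarCoord_target, volume_restrict_prod]
  have h2 : ∀ p : ℝ × ℝ, ENNReal.ofReal p.1 • G ((polarCoord.symm p).1 ^ 2 + (polarCoord.symm p).2 ^ 2)
      = ENNReal.ofReal p.1 * G (p.1 ^ 2) := by
    intro p
    rw [smul_eq_mul]
    congr 2
    rw [polarCoord_symm_apply]
    have := Real.cos_sq_add_sin_sq p.2
    simp only
    linear_combination p.1 ^ 2 * this
  simp_rw [h2]
  rw [lintegral_prod _ (by fun_prop)]
  simp only [lintegral_const]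
  rw [← lintegral_const_mul _ (by fun_prop)]
  refine lintegral_congr fun r => ?_
  rw [mul_comm]
  congr 1
  rw [Measure.restrict_apply MeasurableSet.univ, univ_inter, Real.volume_Ioo]
  congr 1; ring

/-- polar coordinates in the upper half plane: `x = ρ cos φ`, `r = ρ sin φ`. -/
lemma lintegral_halfplane (G : ℝ → ℝ → ℝ≥0∞) (hG : Measurable (Function.uncurry G)) :
    ∫⁻ x : ℝ, ∫⁻ r in Ioi (0 : ℝ), G x r =
      ∫⁻ ρ in Ioi (0 : ℝ), ∫⁻ φ in Ioo (0 : ℝ) Real.pi,
        ENNReal.ofReal ρ * G (ρ * Real.cos φ) (ρ * Real.sin φ) := by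
  set f : ℝ × ℝ → ℝ≥0∞ := fun p => (Ioi (0 : ℝ)).indicator (fun r => G p.1 r) p.2 with hf
  have hfm : Measurable f := by
    have : f = ((Prod.snd : ℝ × ℝ → ℝ) ⁻¹' Ioi (0 : ℝ)).indicator (Function.uncurry G) := by
      funext p
      simp only [hf, Set.indicator, mem_preimage, Function.uncurry]
    rw [this]
    exact hG.indicator (measurable_snd measurableSet_Ioi)
  have h1 : ∫⁻ x : ℝ, ∫⁻ r in Ioi (0 : ℝ), G x r = ∫⁻ p : ℝ × ℝ, f p := by
    rw [Measure.volume_eq_prod, lintegral_prod _ hfm.aemeasurable]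
    refine lintegral_congr fun x => ?_
    rw [← lintegral_indicator measurableSet_Ioi]
  rw [h1, ← lintegral_comp_polarCoord_symm, polarCoord_target, volume_restrict_prod]
  rw [lintegral_prod]
  · refine setLIntegral_congr_fun measurableSet_Ioi fun ρ hρ => ?_
    have hρ : 0 < ρ := hρ
    have hsub : Ioo (0 : ℝ) Real.pi ⊆ Ioo (-Real.pi) Real.pi :=
      Ioo_subset_Ioo_left (by linarith [Real.pi_pos])
    calc ∫⁻ y in Ioo (-Real.pi) Real.pi, ENNReal.ofReal (ρ, y).1 • f (polarCoord.symm (ρ, y))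
        = ∫⁻ y in Ioo (-Real.pi) Real.pi, (Ioo (0:ℝ) Real.pi).indicator
            (fun y => ENNReal.ofReal ρ * G (ρ * Real.cos y) (ρ * Real.sin y)) y := by
          refine setLIntegral_congr_fun measurableSet_Ioo fun y hy => ?_
          simp only [hf, polarCoord_symm_apply, smul_eq_mul]
          by_cases hy0 : 0 < y
          · have hs : 0 < Real.sin y := Real.sin_pos_of_pos_of_lt_pi hy0 hy.2
            rw [indicator_of_mem (show ρ * Real.sin y ∈ Ioi (0:ℝ) from mul_pos hρ hs),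
              indicator_of_mem (show y ∈ Ioo (0:ℝ) Real.pi from ⟨hy0, hy.2⟩)]
          · have hs : Real.sin y ≤ 0 := Real.sin_nonpos_of_nonpos_of_neg_pi_le (not_lt.1 hy0) hy.1.le
            rw [indicator_of_notMem (show ρ * Real.sin y ∉ Ioi (0:ℝ) from
                not_lt.2 (mul_nonpos_of_nonneg_of_nonpos hρ.le hs)),
              indicator_of_notMem (show y ∉ Ioo (0:ℝ) Real.pi from fun h => hy0 h.1), mul_zero]
      _ = ∫⁻ φ in Ioo (0 : ℝ) Real.pi,
            ENNReal.ofReal ρ * G (ρ * Real.cos φ) (ρ * Real.sin φ) := by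
          rw [lintegral_indicator measurableSet_Ioo, Measure.restrict_restrict measurableSet_Ioo,
            inter_eq_self_of_subset_left hsub]
  · refine Measurable.aemeasurable ?_
    exact (ENNReal.measurable_ofReal.comp measurable_fst).smul
      (hfm.comp continuous_polarCoord_symm.measurable)

/-- standard Gaussian density -/
noncomputable def pd (x : ℝ) : ℝ := (√(2 * Real.pi))⁻¹ * Real.exp (-x ^ 2 / 2)

lemma pd_nonneg (x : ℝ) : 0 ≤ pd x := by unfold pd; positivity

@[fun_prop] lemma measurable_pd : Measurable pd := by unfold pd; fun_prop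

lemma measurable_cons {n : ℕ} :
    Measurable fun q : ℝ × (Fin n → ℝ) => (Fin.cons q.1 q.2 : Fin (n + 1) → ℝ) := by
  rw [measurable_pi_iff]
  intro i
  refine Fin.cases ?_ (fun j => ?_) i
  · simp only [Fin.cons_zero]; fun_prop
  · simp only [Fin.cons_succ]; fun_prop

lemma measurable_cons_right {n : ℕ} (x : ℝ) :
    Measurable fun w : Fin n → ℝ => (Fin.cons x w : Fin (n + 1) → ℝ) :=
  measurable_cons.comp (by fun_prop : Measurable fun w : Fin n → ℝ => (x, w))

lemma pi_step {n : ℕ} (f : (Fin (n + 1) → ℝ) → ℝ≥0∞) (hf : Measurable f) :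
    ∫⁻ v, f v ∂(Measure.pi fun _ => gaussianReal 0 1) =
      ∫⁻ x, ENNReal.ofReal (pd x) *
        ∫⁻ w, f (Fin.cons x w) ∂(Measure.pi fun _ : Fin n => gaussianReal 0 1) := by
  rw [lintegral_pi_succ _ _ hf, lintegral_gaussian]
  · rfl
  · exact (hf.comp measurable_cons).lintegral_prod_right'

lemma pi4_gaussian (g : ℝ → ℝ → ℝ → ℝ → ℝ≥0∞)
    (hg : Measurable fun v : Fin 4 → ℝ => g (v 0) (v 1) (v 2) (v 3)) :
    ∫⁻ v : Fin 4 → ℝ, g (v 0) (v 1) (v 2) (v 3) ∂(Measure.pi fun _ => gaussianReal 0 1) =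
      ∫⁻ x, ENNReal.ofReal (pd x) * ∫⁻ y, ENNReal.ofReal (pd y) * ∫⁻ z, ENNReal.ofReal (pd z) *
        ∫⁻ t, ENNReal.ofReal (pd t) * g x y z t := by
  rw [pi_step _ hg]
  refine lintegral_congr fun x => ?_
  congr 1
  have h1 : Measurable fun v : Fin 3 → ℝ => g x (v 0) (v 1) (v 2) :=
    hg.comp (measurable_cons_right x)
  refine (pi_step _ h1).trans ?_
  refine lintegral_congr fun y => ?_
  congr 1
  have h2 : Measurable fun v : Fin 2 → ℝ => g x y (v 0) (v 1) :=
    h1.comp (measurable_cons_right y)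
  refine (pi_step _ h2).trans ?_
  refine lintegral_congr fun z => ?_
  congr 1
  have h3 : Measurable fun v : Fin 1 → ℝ => g x y z (v 0) :=
    h2.comp (measurable_cons_right z)
  refine (pi_step _ h3).trans ?_
  refine lintegral_congr fun t => ?_
  congr 1
  rw [lintegral_pi_zero]
  rfl

lemma pi3_gaussian (g : ℝ → ℝ → ℝ → ℝ≥0∞)
    (hg : Measurable fun v : Fin 3 → ℝ => g (v 0) (v 1) (v 2)) :
    ∫⁻ v : Fin 3 → ℝ, g (v 0) (v 1) (v 2) ∂(Measure.pi fun _ => gaussianReal 0 1) =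
      ∫⁻ x, ENNReal.ofReal (pd x) * ∫⁻ y, ENNReal.ofReal (pd y) * ∫⁻ z, ENNReal.ofReal (pd z) *
        g x y z := by
  rw [pi_step _ hg]
  refine lintegral_congr fun x => ?_
  congr 1
  have h1 : Measurable fun v : Fin 2 → ℝ => g x (v 0) (v 1) :=
    hg.comp (measurable_cons_right x)
  refine (pi_step _ h1).trans ?_
  refine lintegral_congr fun y => ?_
  congr 1
  have h2 : Measurable fun v : Fin 1 → ℝ => g x y (v 0) :=
    h1.comp (measurable_cons_right y)
  refine (pi_step _ h2).trans ?_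
  refine lintegral_congr fun z => ?_
  congr 1
  rw [lintegral_pi_zero]
  rfl

lemma pi2_gaussian (g : ℝ → ℝ → ℝ≥0∞)
    (hg : Measurable fun v : Fin 2 → ℝ => g (v 0) (v 1)) :
    ∫⁻ v : Fin 2 → ℝ, g (v 0) (v 1) ∂(Measure.pi fun _ => gaussianReal 0 1) =
      ∫⁻ x, ENNReal.ofReal (pd x) * ∫⁻ y, ENNReal.ofReal (pd y) * g x y := by
  rw [pi_step _ hg]
  refine lintegral_congr fun x => ?_
  congr 1
  have h1 : Measurable fun v : Fin 1 → ℝ => g x (v 0) :=
    hg.comp (measurable_cons_right x)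
  refine (pi_step _ h1).trans ?_
  refine lintegral_congr fun y => ?_
  congr 1
  rw [lintegral_pi_zero]
  rfl

/-- FTC for nonnegative derivatives, `ℝ≥0∞` version. -/
lemma lint_Ioo_of_hasDerivAt {a b : ℝ} (hab : a ≤ b) (F f : ℝ → ℝ) (hF : ContinuousOn F (Icc a b))
    (hd : ∀ x ∈ Ioo a b, HasDerivAt F (f x) x) (hf : ∀ x ∈ Ioo a b, 0 ≤ f x) :
    ∫⁻ x in Ioo a b, ENNReal.ofReal (f x) = ENNReal.ofReal (F b - F a) := by
  have hint : IntegrableOn f (Ioc a b) := intervalIntegral.integrableOn_deriv_of_nonneg hF hd hf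
  have hint' : IntegrableOn f (Ioo a b) := hint.mono_set Ioo_subset_Ioc_self
  rw [← ofReal_integral_eq_lintegral_ofReal hint'
    ((ae_restrict_iff' measurableSet_Ioo).2 (ae_of_all _ hf))]
  congr 1
  rw [← integral_Ioc_eq_integral_Ioo, ← intervalIntegral.integral_of_le hab]
  exact intervalIntegral.integral_eq_sub_of_hasDerivAt_of_le hab hF hd
    ((intervalIntegrable_iff_integrableOn_Ioc_of_le hab).2 hint)

end Crest.Agent.Propeller
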