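import Crest.Agent.Propeller.Basic

/-! Chunk F2, auxiliary one-variable lemmas. -/

set_option autoImplicit false

namespace Crest.Agent.Propeller

/-! ### tangent lines for `rf` -/

theorem rf_line0 {s : ℝ} (h0 : 0 ≤ s) (h1 : s ≤ 1) : -7 / 60 + 500 / 273 * s ^ 2 ≤ rf s := by
  have hb := Real.sq_sqrt (show (0:ℝ) ≤ 1 - s by linarith)
  have hb0 := Real.sqrt_nonneg (1 - s)
  rw [rf]
  set b := √(1 - s) with hbdef
  have hs : s = 1 - b ^ 2 := by linarith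
  have hb1 : b ≤ 1 := by nlinarith
  rw [hs]
  nlinarith [mul_nonneg (sq_nonneg (b - 3 / 10)) (show 0 ≤ 173 / 100 - b ^ 2 - 3 / 5 * b by nlinarith)]

theorem rf_line1 {s : ℝ} (h0 : 19 / 40 ≤ s) (h1 : s ≤ 1) : 1 / 4 + 4 / 3 * s ^ 2 ≤ rf s := by
  have hb := Real.sq_sqrt (show (0:ℝ) ≤ 1 - s by linarith)
  have hb0 := Real.sqrt_nonneg (1 - s)
  rw [rf]
  set b := √(1 - s) with hbdef
  have hs : s = 1 - b ^ 2 := by linarith
  have hb1 : b ≤ 29 / 40 := by nlinarith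
  rw [hs]
  nlinarith [mul_nonneg (sq_nonneg (b - 1 / 2)) (show 0 ≤ 5 / 4 - b ^ 2 - b by nlinarith)]

theorem rf_line2 {s : ℝ} (h0 : 1 / 5 ≤ s) (h1 : s ≤ 1) : 3 / 20 + 125 / 84 * s ^ 2 ≤ rf s := by
  have hb := Real.sq_sqrt (show (0:ℝ) ≤ 1 - s by linarith)
  have hb0 := Real.sqrt_nonneg (1 - s)
  rw [rf]
  set b := √(1 - s) with hbdef
  have hs : s = 1 - b ^ 2 := by linarith
  have hb1 : b ≤ 895 / 1000 := by nlinarith
  rw [hs]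
  nlinarith [mul_nonneg (sq_nonneg (b - 2 / 5)) (show 0 ≤ 38 / 25 - b ^ 2 - 4 / 5 * b by nlinarith)]

theorem rf_line3 {s : ℝ} (h0 : 7 / 20 ≤ s) (h1 : s ≤ 1) :
    77 / 360 + 4000 / 2871 * s ^ 2 ≤ rf s := by
  have hb := Real.sq_sqrt (show (0:ℝ) ≤ 1 - s by linarith)
  have hb0 := Real.sqrt_nonneg (1 - s)
  rw [rf]
  set b := √(1 - s) with hbdef
  have hs : s = 1 - b ^ 2 := by linarith
  have hb1 : b ≤ 81 / 100 := by nlinarith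
  rw [hs]
  nlinarith [mul_nonneg (sq_nonneg (b - 9 / 20))
    (show 0 ≤ 557 / 400 - b ^ 2 - 9 / 10 * b by nlinarith)]

theorem rf_ge_self {s : ℝ} (h0 : 0 ≤ s) (h1 : s ≤ 1) : s ≤ rf s := by
  have hb := Real.sq_sqrt (show (0:ℝ) ≤ 1 - s by linarith)
  have hb0 := Real.sqrt_nonneg (1 - s)
  rw [rf]
  set b := √(1 - s) with hbdef
  have hs : s = 1 - b ^ 2 := by linarith
  rw [hs]
  nlinarith [sq_nonneg (b - 1)]

/-- `m(s) = s/√(1-s) ≥ (5/2) s²` -/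
theorem div_sqrt_ge {s : ℝ} (h0 : 0 < s) (h1 : s < 1) : 5 / 2 * s ^ 2 ≤ s / √(1 - s) := by
  have hp : 0 < √(1 - s) := Real.sqrt_pos.2 (by linarith)
  have hb := Real.sq_sqrt (show (0:ℝ) ≤ 1 - s by linarith)
  rw [le_div_iff₀ hp]
  set b := √(1 - s) with hbdef
  have hs : s = 1 - b ^ 2 := by linarith
  have hb1 : b < 1 := by nlinarith
  -- s * b ≤ 2/5
  have key : s * b ≤ 2 / 5 := by
    rw [hs]
    nlinarith [mul_nonneg (sq_nonneg (b - 577 / 1000)) (show 0 ≤ b + 1154 / 1000 by linarith)]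
  nlinarith

/-- loss bound -/
theorem loss_le {L x l : ℝ} (hL : 0 ≤ L) (hx : 0 ≤ x) (hl : 0 < l) (h : 1 + l ^ 2 * x ≤ 2 * L * l) :
    x ≤ L ^ 2 ∧ L - √(L ^ 2 - x) ≤ l * x := by
  have h1 : x ≤ L ^ 2 := by
    have h2 : 4 * (l ^ 2 * x) ≤ (1 + l ^ 2 * x) ^ 2 := by nlinarith [sq_nonneg (1 - l ^ 2 * x)]
    have h3 : (1 + l ^ 2 * x) ^ 2 ≤ (2 * L * l) ^ 2 := by
      have : 0 ≤ 1 + l ^ 2 * x := by positivity
      gcongr
    have h4 : 4 * l ^ 2 * x ≤ 4 * l ^ 2 * L ^ 2 := by nlinarith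
    exact le_of_mul_le_mul_left h4 (by positivity)
  refine ⟨h1, ?_⟩
  by_cases h2 : L ≤ l * x
  · linarith [Real.sqrt_nonneg (L ^ 2 - x)]
  · have h3 : L - l * x ≤ √(L ^ 2 - x) := by
      apply Real.le_sqrt_of_sq_le
      nlinarith
    linarith

/-! ### `Rf` -/

theorem cc_nonneg (s : ℝ) : 0 ≤ cc s := Real.sqrt_nonneg _

theorem cc_le_one {s : ℝ} (h0 : 0 ≤ s) : cc s ≤ 1 := by
  rw [cc]
  have := Real.rpow_nonneg h0 (2 / 3 : ℝ)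
  exact Real.sqrt_le_iff.2 ⟨by norm_num, by linarith⟩

theorem sq_eq_cc {s : ℝ} (h0 : 0 ≤ s) (h1 : s ≤ 1) : s ^ 2 = (1 - cc s ^ 2) ^ 3 := by
  have h2 : 0 ≤ 1 - s ^ (2 / 3 : ℝ) := by
    have := Real.rpow_le_one h0 h1 (by norm_num : (0:ℝ) ≤ 2 / 3)
    linarith
  rw [cc, Real.sq_sqrt h2, sub_sub_cancel, ← Real.rpow_natCast, ← Real.rpow_natCast,
    ← Real.rpow_mul h0]
  norm_num

theorem le_cc {s b : ℝ} (h0 : 0 ≤ s) (h1 : s ≤ 1) (hb : 0 ≤ b) (h : s ^ 2 ≤ (1 - b ^ 2) ^ 3) :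
    b ≤ cc s := by
  by_contra hc
  have hc' : cc s < b := not_le.1 hc
  rw [sq_eq_cc h0 h1] at h
  have h2 := cc_nonneg s
  have h3 : cc s ^ 2 < b ^ 2 := by nlinarith
  have h4 : 1 - b ^ 2 < 1 - cc s ^ 2 := by linarith
  have h5 : (1 - b ^ 2) ^ 3 < (1 - cc s ^ 2) ^ 3 := by
    apply Odd.strictMono_pow (by decide) h4
  linarith

theorem cc_le {s b : ℝ} (h0 : 0 ≤ s) (h1 : s ≤ 1) (hb : 0 ≤ b) (h : (1 - b ^ 2) ^ 3 ≤ s ^ 2) :
    cc s ≤ b := by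
  by_contra hc
  have hc' : b < cc s := not_le.1 hc
  rw [sq_eq_cc h0 h1] at h
  have h3 : b ^ 2 < cc s ^ 2 := by nlinarith
  have h4 : 1 - cc s ^ 2 < 1 - b ^ 2 := by linarith
  have h5 : (1 - cc s ^ 2) ^ 3 < (1 - b ^ 2) ^ 3 := by
    apply Odd.strictMono_pow (by decide) h4
  linarith

/-- reduction of `k s² ≤ Rf s` to a polynomial inequality in `c` -/
theorem Rf_ge_of_poly {s k : ℝ} (h0 : 0 ≤ s) (h1 : s ≤ 1)
    (h : k * ((1 - cc s) * (1 + cc s) ^ 3) ≤ 2 + cc s) : k * s ^ 2 ≤ Rf s := by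
  rw [sq_eq_cc h0 h1, Rf]
  have h2 : (1 - cc s ^ 2) ^ 3 = (1 - cc s) ^ 2 * ((1 - cc s) * (1 + cc s) ^ 3) := by ring
  rw [h2]
  nlinarith [mul_le_mul_of_nonneg_left h (sq_nonneg (1 - cc s))]

theorem Rf_ge_25 {s : ℝ} (h0 : 0 ≤ s) (h1 : s ≤ 1 / 5) : 5 / 2 * s ^ 2 ≤ Rf s := by
  apply Rf_ge_of_poly h0 (by linarith)
  have hc : 811 / 1000 ≤ cc s := le_cc h0 (by linarith) (by norm_num) (by nlinarith)
  have hc1 := cc_le_one h0
  set c := cc s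
  nlinarith [mul_nonneg (sub_nonneg.2 hc) (sub_nonneg.2 hc1), mul_nonneg (sub_nonneg.2 hc) (sq_nonneg c), mul_nonneg (mul_nonneg (sub_nonneg.2 hc) (sub_nonneg.2 hc1)) (sq_nonneg c)]

theorem Rf_ge_1773 {s : ℝ} (h0 : 0 ≤ s) (h1 : s ≤ 39 / 100) : 1773 / 1000 * s ^ 2 ≤ Rf s := by
  apply Rf_ge_of_poly h0 (by linarith)
  have hc : 6827 / 10000 ≤ cc s := le_cc h0 (by linarith) (by norm_num) (by nlinarith)
  have hc1 := cc_le_one h0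
  set c := cc s
  nlinarith [mul_nonneg (sub_nonneg.2 hc) (sub_nonneg.2 hc1), mul_nonneg (sub_nonneg.2 hc) (sq_nonneg c), mul_nonneg (mul_nonneg (sub_nonneg.2 hc) (sub_nonneg.2 hc1)) (sq_nonneg c)]

theorem Rf_ge_32 {s : ℝ} (h0 : 0 ≤ s) (h1 : s ≤ 13 / 100) : 16 / 5 * s ^ 2 ≤ Rf s := by
  apply Rf_ge_of_poly h0 (by linarith)
  have hc : 862 / 1000 ≤ cc s := le_cc h0 (by linarith) (by norm_num) (by nlinarith)
  have hc1 := cc_le_one h0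
  set c := cc s
  nlinarith [mul_nonneg (sub_nonneg.2 hc) (sub_nonneg.2 hc1), mul_nonneg (sub_nonneg.2 hc) (sq_nonneg c), mul_nonneg (mul_nonneg (sub_nonneg.2 hc) (sub_nonneg.2 hc1)) (sq_nonneg c)]

theorem Rf_ge_162 {s : ℝ} (h0 : 0 ≤ s) (h1 : s ≤ 19 / 40) : 81 / 50 * s ^ 2 ≤ Rf s := by
  apply Rf_ge_of_poly h0 (by linarith)
  have hc : 6254 / 10000 ≤ cc s := le_cc h0 (by linarith) (by norm_num) (by nlinarith)
  have hc1 := cc_le_one h0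
  set c := cc s
  nlinarith [mul_nonneg (sub_nonneg.2 hc) (sub_nonneg.2 hc1), mul_nonneg (sub_nonneg.2 hc) (sq_nonneg c), mul_nonneg (mul_nonneg (sub_nonneg.2 hc) (sub_nonneg.2 hc1)) (sq_nonneg c)]

/-- `Rf s ≥ (3.05 - 3.5 s) s²` for `s ≤ 0.39` -/
theorem Rf_ge_lin {s : ℝ} (h0 : 0 ≤ s) (h1 : s ≤ 39 / 100) :
    (61 / 20 - 7 / 2 * s) * s ^ 2 ≤ Rf s := by
  have hc : 6827 / 10000 ≤ cc s := le_cc h0 (by linarith) (by norm_num) (by nlinarith)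
  have hc1 := cc_le_one h0
  have hc0 := cc_nonneg s
  have hsc := sq_eq_cc h0 (by linarith : s ≤ 1)
  apply Rf_ge_of_poly h0 (by linarith)
  set c := cc s
  -- lower bound for `s` in terms of `c`
  have hs : 201 / 200 * (1 - c ^ 2) - 1504 / 10000 ≤ s := by
    have hq : 0 ≤ 1 - c ^ 2 := by nlinarith
    have hy := Real.sq_sqrt hq
    have hy0 := Real.sqrt_nonneg (1 - c ^ 2)
    set y := √(1 - c ^ 2) with hydef
    have hys : s = y ^ 3 := by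
      have : s ^ 2 = (y ^ 3) ^ 2 := by rw [hsc, ← hy]; ring
      exact (sq_eq_sq₀ h0 (by positivity)).1 this
    rw [← hy, hys]
    nlinarith [mul_nonneg (sq_nonneg (y - 67 / 100)) (show 0 ≤ 2 * y + 67 / 100 by linarith)]
  have h2 : 0 ≤ (1 - c) * (1 + c) ^ 3 := mul_nonneg (by linarith) (by positivity)
  have h3 : (61 / 20 - 7 / 2 * s) ≤ 589 / 10000 + 35175 / 10000 * c ^ 2 := by linarith
  refine le_trans (mul_le_mul_of_nonneg_right h3 h2) ?_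
  nlinarith [mul_nonneg (sub_nonneg.2 hc) (sub_nonneg.2 hc1),
    mul_nonneg (sq_nonneg (c - 3 / 4)) (sub_nonneg.2 hc1),
    mul_nonneg (sq_nonneg (c - 3 / 4)) (sub_nonneg.2 hc),
    mul_nonneg (sq_nonneg (c - 3 / 4)) (sq_nonneg c),
    mul_nonneg (mul_nonneg (sq_nonneg (c - 3 / 4)) (sq_nonneg c)) hc0,
    mul_nonneg (mul_nonneg (sq_nonneg (c - 3 / 4)) (sq_nonneg c)) (sq_nonneg c)]

/-- `Rf s - (4/3) s² ≥ 1/16` on `[0.475, 0.75]` -/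
theorem Rf_sub_ge {s : ℝ} (h0 : 19 / 40 ≤ s) (h1 : s ≤ 3 / 4) :
    1 / 16 ≤ Rf s - 4 / 3 * s ^ 2 := by
  have hc : cc s ≤ 63 / 100 := cc_le (by linarith) (by linarith) (by norm_num) (by nlinarith)
  have hc1 : 41 / 100 ≤ cc s := le_cc (by linarith) (by linarith) (by norm_num) (by nlinarith)
  rw [sq_eq_cc (by linarith) (by linarith : s ≤ 1), Rf]
  set c := cc s
  have h2 : 0 ≤ 4 * c ^ 4 + 4 * c ^ 3 - 9 * c ^ 2 - 7 * c + 29 / 4 := by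
    nlinarith [mul_nonneg (sub_nonneg.2 hc) (sub_nonneg.2 hc1), sq_nonneg (c ^ 2), sq_nonneg c,
      mul_nonneg (sub_nonneg.2 hc1) (sq_nonneg c), mul_nonneg (sub_nonneg.2 hc1) (sq_nonneg (c ^ 2))]
  nlinarith [mul_nonneg (sq_nonneg (c - 1 / 2)) h2]

/-! ### one-variable inequalities for `t = s 3` -/

/-- quartic lower bound for `rf` -/
theorem rf_ge_poly {t : ℝ} (h0 : 0 ≤ t) (h1 : t ≤ 1) :
    t + t ^ 2 / 4 + t ^ 3 / 8 ≤ rf t := by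
  have hb := Real.sq_sqrt (show (0:ℝ) ≤ 1 - t by linarith)
  have hb0 := Real.sqrt_nonneg (1 - t)
  rw [rf]
  set b := √(1 - t) with hbdef
  have hs : t = 1 - b ^ 2 := by linarith
  have hb1 : b ≤ 1 := by nlinarith
  rw [hs]
  -- 2 - 2b - (1-b²) - (1-b²)²/4 - (1-b²)³/8 = (1-b)^4 * (...)
  nlinarith [mul_nonneg (pow_nonneg (sub_nonneg.2 hb1) 4) (show 0 ≤ b ^ 2 + 4 * b + 5 by positivity)]

theorem c4a_i {t : ℝ} (h0 : 35 / 100 ≤ t) (h1 : t ≤ 39 / 100) :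
    113 / 560 ≤ rf t - 125 / 84 * t ^ 2 := by
  have h2 := rf_ge_poly (by linarith : 0 ≤ t) (by linarith)
  nlinarith [mul_nonneg (sub_nonneg.2 h0) (sub_nonneg.2 h1)]

theorem c4a_ii {t : ℝ} (h0 : 13 / 100 ≤ t) (h1 : t ≤ 35 / 100) :
    113 / 560 ≤ rf t - 125 / 84 * t ^ 2
      + (61 / 20 - 7 / 2 * t - 125 / 84 - 132 / 1000) * (49 / 400 - t ^ 2) := by
  have h2 := rf_ge_poly (by linarith : 0 ≤ t) (by linarith)
  nlinarith [mul_nonneg (sub_nonneg.2 h0) (sub_nonneg.2 h1),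
    mul_nonneg (sub_nonneg.2 h0) (sq_nonneg (t - 328 / 1000)),
    mul_nonneg (sub_nonneg.2 h1) (sq_nonneg (t - 328 / 1000))]

theorem c4b {t : ℝ} (h0 : 39 / 100 ≤ t) (h1 : t ≤ 19 / 40) :
    4 ≤ 3 * (77 / 360) + 4000 / 2871 * (9 / 4 - t ^ 2) + rf t := by
  have hb := Real.sq_sqrt (show (0:ℝ) ≤ 1 - t by linarith)
  have hb0 := Real.sqrt_nonneg (1 - t)
  rw [rf]
  set b := √(1 - t) with hbdef
  have hs : t = 1 - b ^ 2 := by linarith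
  have hb1 : b ≤ 7811 / 10000 := by nlinarith
  have hb2 : 7245 / 10000 ≤ b := by nlinarith
  rw [hs]
  nlinarith [mul_nonneg (sub_nonneg.2 hb1) (sub_nonneg.2 hb2),
    mul_nonneg (mul_nonneg (sub_nonneg.2 hb1) (sub_nonneg.2 hb2)) (sq_nonneg b)]

end Crest.Agent.Propeller
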